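import Vale.Agent.P098.Exact.Sos.Data.Struct

/-! Generated literals for the dimension five interior check. -/

namespace Vale.Agent.P098.Exact.Sos.Data

/-- Coefficient rows, group 0. -/
def rows0 : List Row := [
  [(b0, -1440000), (b2, 2400000), (b3, 2080000), (b5, -1610000), (b15, 2400000), (b18, -1610000), (b20, 2080000), (b22, -1610000), (b29, -1610000), (b55, 2400000), (b58, -1610000), (b64, -1610000), (b67, 2080000), (b69, -1610000), (b76, -1610000), (b88, -1610000), (b138, 2400000), (b141, -1610000), (b147, -1610000), (b156, -1610000), (b160, 2080000), (b162, -1610000), (b169, -1610000), (b181, -1610000), (b198, -1610000)],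
  [(b0, -1770000), (b2, 870000), (b3, 210000), (b15, 870000), (b20, 210000), (b55, 870000), (b67, 210000), (b138, 870000), (b160, 210000)],
  [(b0, -240000), (b2, -542500), (b3, -2105000), (b5, 1370000), (b6, 385000), (b15, -542500), (b18, 1370000), (b20, -2105000), (b22, 1370000), (b23, 770000), (b29, 1370000), (b31, 385000), (b55, -542500), (b58, 1370000), (b64, 1370000), (b67, -2105000), (b69, 1370000), (b70, 770000), (b76, 1370000), (b78, 770000), (b88, 1370000), (b91, 385000), (b138, -542500), (b141, 1370000), (b147, 1370000), (b156, 1370000), (b160, -2105000), (b162, 1370000), (b163, 770000), (b169, 1370000), (b171, 770000), (b181, 1370000), (b184, 770000), (b198, 1370000), (b202, 385000)],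
  [(b0, 1750000), (b3, -1510000), (b20, -1510000), (b67, -1510000), (b160, -1510000)],
  [],
  [(b0, 60000), (b1, 1445000), (b2, -1167500), (b3, -3845000), (b4, 410000), (b5, 1370000), (b6, 1155000), (b15, -230000), (b16, 310000), (b18, 1370000), (b20, -1080000), (b21, 410000), (b22, 1370000), (b23, 1155000), (b29, 1370000), (b55, -230000), (b56, 310000), (b58, 1370000), (b64, 1370000), (b67, -1080000), (b68, 410000), (b69, 1370000), (b70, 1155000), (b76, 1370000), (b88, 1370000), (b138, -230000), (b139, 310000), (b141, 1370000), (b147, 1370000), (b156, 1370000), (b160, -1080000), (b161, 410000), (b162, 1370000), (b163, 1155000), (b169, 1370000), (b181, 1370000), (b198, 1370000)],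
  [(b0, 1750000), (b3, -1510000), (b20, -1510000), (b67, -1510000), (b160, -1510000)],
  [],
  [],
  [(b0, 60000), (b2, -230000), (b3, -1080000), (b5, 1370000), (b8, 1445000), (b10, 310000), (b11, 410000), (b15, -1167500), (b18, 1370000), (b20, -3845000), (b22, 1370000), (b23, 1155000), (b25, 410000), (b29, 1370000), (b31, 1155000), (b55, -230000), (b58, 1370000), (b60, 310000), (b64, 1370000), (b67, -1080000), (b69, 1370000), (b72, 410000), (b76, 1370000), (b78, 1155000), (b88, 1370000), (b138, -230000), (b141, 1370000), (b143, 310000), (b147, 1370000), (b156, 1370000), (b160, -1080000), (b162, 1370000), (b165, 410000), (b169, 1370000), (b171, 1155000), (b181, 1370000), (b198, 1370000)],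
  [(b0, 1750000), (b3, -1510000), (b20, -1510000), (b67, -1510000), (b160, -1510000)],
  [],
  [],
  [],
  [(b0, 60000), (b2, -230000), (b3, -1080000), (b5, 1370000), (b15, -230000), (b18, 1370000), (b20, -1080000), (b22, 1370000), (b29, 1370000), (b34, 1445000), (b36, 310000), (b37, 410000), (b45, 310000), (b48, 410000), (b55, -1167500), (b58, 1370000), (b64, 1370000), (b67, -3845000), (b69, 1370000), (b70, 1155000), (b76, 1370000), (b78, 1155000), (b81, 410000), (b88, 1370000), (b91, 1155000), (b138, -230000), (b141, 1370000), (b147, 1370000), (b150, 310000), (b156, 1370000), (b160, -1080000), (b162, 1370000), (b169, 1370000), (b174, 410000), (b181, 1370000), (b184, 1155000), (b198, 1370000)],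
  [(b0, 1750000), (b3, -1510000), (b20, -1510000), (b67, -1510000), (b160, -1510000)],
  [],
  [],
  [],
  [],
  [(b0, 60000), (b2, -230000), (b3, -1080000), (b5, 1370000), (b15, -230000), (b18, 1370000), (b20, -1080000), (b22, 1370000), (b29, 1370000), (b55, -230000), (b58, 1370000), (b64, 1370000), (b67, -1080000), (b69, 1370000), (b76, 1370000), (b88, 1370000), (b95, 1445000), (b97, 310000), (b98, 410000), (b106, 310000), (b109, 410000), (b123, 310000), (b128, 410000), (b138, -1167500), (b141, 1370000), (b147, 1370000), (b156, 1370000), (b160, -3845000), (b162, 1370000), (b163, 1155000), (b169, 1370000), (b171, 1155000), (b181, 1370000), (b184, 1155000), (b188, 410000), (b198, 1370000), (b202, 1155000)],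
  [(b0, 1750000), (b3, -1510000), (b20, -1510000), (b67, -1510000), (b160, -1510000)],
  [],
  [],
  []]

/-- Coefficient rows, group 1. -/
def rows1 : List Row := [
  [],
  [],
  [],
  [(b2, -1945000), (b3, -752500), (b4, 1025000), (b5, 675000), (b6, -640000), (b7, -385000), (b15, -1945000), (b18, 675000), (b20, -752500), (b22, 675000), (b23, -1280000), (b24, -385000), (b25, 1025000), (b28, -385000), (b29, 675000), (b31, -640000), (b33, -385000), (b55, -1945000), (b58, 675000), (b64, 675000), (b67, -752500), (b69, 675000), (b70, -1280000), (b71, -385000), (b76, 675000), (b78, -1280000), (b80, -385000), (b81, 1025000), (b84, -385000), (b87, -385000), (b88, 675000), (b91, -640000), (b94, -385000), (b138, -1945000), (b141, 675000), (b147, 675000), (b156, 675000), (b160, -752500), (b162, 675000), (b163, -1280000), (b164, -385000), (b169, 675000), (b171, -1280000), (b173, -385000), (b181, 675000), (b184, -1280000), (b187, -385000), (b188, 1025000), (b191, -385000), (b194, -385000), (b197, -385000), (b198, 675000), (b202, -640000), (b206, -385000)],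
  [(b2, 67500), (b3, 727500), (b15, 67500), (b20, 727500), (b55, 67500), (b67, 727500), (b138, 67500), (b160, 727500)],
  [(b2, 1167500), (b3, 2662500), (b5, -1730000), (b6, -612500), (b15, 1167500), (b18, -1730000), (b20, 2662500), (b22, -1730000), (b23, -1225000), (b29, -1730000), (b31, -612500), (b55, 1167500), (b58, -1730000), (b64, -1730000), (b67, 2662500), (b69, -1730000), (b70, -1225000), (b76, -1730000), (b78, -1225000), (b88, -1730000), (b91, -612500), (b138, 1167500), (b141, -1730000), (b147, -1730000), (b156, -1730000), (b160, 2662500), (b162, -1730000), (b163, -1225000), (b169, -1730000), (b171, -1225000), (b181, -1730000), (b184, -1225000), (b198, -1730000), (b202, -612500)],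
  [],
  [(b1, -535000), (b2, -67500), (b3, -727500), (b4, 755000), (b21, 755000), (b68, 755000), (b161, 755000)],
  [(b2, -222500), (b3, 3675000), (b4, 577500), (b5, -1730000), (b6, -612500), (b15, 1167500), (b16, 337500), (b18, -1730000), (b20, 2662500), (b21, 192500), (b22, -1730000), (b23, -1225000), (b29, -1730000), (b31, -612500), (b55, 1167500), (b56, 337500), (b58, -1730000), (b64, -1730000), (b67, 2662500), (b68, 192500), (b69, -1730000), (b70, -1225000), (b76, -1730000), (b78, -1225000), (b88, -1730000), (b91, -612500), (b138, 1167500), (b139, 337500), (b141, -1730000), (b147, -1730000), (b156, -1730000), (b160, 2662500), (b161, 192500), (b162, -1730000), (b163, -1225000), (b169, -1730000), (b171, -1225000), (b181, -1730000), (b184, -1225000), (b198, -1730000), (b202, -612500)],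
  [],
  [],
  [(b8, -535000), (b11, 755000), (b15, -67500), (b20, -727500), (b25, 755000), (b72, 755000), (b165, 755000)],
  [(b2, 1167500), (b3, 2662500), (b5, -1730000), (b6, -612500), (b10, 337500), (b11, 192500), (b15, -222500), (b18, -1730000), (b20, 3675000), (b22, -1730000), (b23, -1225000), (b25, 577500), (b29, -1730000), (b31, -612500), (b55, 1167500), (b58, -1730000), (b60, 337500), (b64, -1730000), (b67, 2662500), (b69, -1730000), (b70, -1225000), (b72, 192500), (b76, -1730000), (b78, -1225000), (b88, -1730000), (b91, -612500), (b138, 1167500), (b141, -1730000), (b143, 337500), (b147, -1730000), (b156, -1730000), (b160, 2662500), (b162, -1730000), (b163, -1225000), (b165, 192500), (b169, -1730000), (b171, -1225000), (b181, -1730000), (b184, -1225000), (b198, -1730000), (b202, -612500)],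
  [],
  [],
  [],
  [(b34, -535000), (b37, 755000), (b48, 755000), (b55, -67500), (b67, -727500), (b81, 755000), (b174, 755000)],
  [(b2, 1167500), (b3, 2662500), (b5, -1730000), (b6, -612500), (b15, 1167500), (b18, -1730000), (b20, 2662500), (b22, -1730000), (b23, -1225000), (b29, -1730000), (b31, -612500), (b36, 337500), (b37, 192500), (b45, 337500), (b48, 192500), (b55, -222500), (b58, -1730000), (b64, -1730000), (b67, 3675000), (b69, -1730000), (b70, -1225000), (b76, -1730000), (b78, -1225000), (b81, 577500), (b88, -1730000), (b91, -612500), (b138, 1167500), (b141, -1730000), (b147, -1730000), (b150, 337500), (b156, -1730000), (b160, 2662500), (b162, -1730000), (b163, -1225000), (b169, -1730000), (b171, -1225000), (b174, 192500), (b181, -1730000), (b184, -1225000), (b198, -1730000), (b202, -612500)],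
  [],
  [],
  [],
  [],
  [(b95, -535000), (b98, 755000), (b109, 755000), (b128, 755000), (b138, -67500), (b160, -727500), (b188, 755000)],
  [(b2, 1167500), (b3, 2662500), (b5, -1730000), (b6, -612500), (b15, 1167500), (b18, -1730000), (b20, 2662500), (b22, -1730000), (b23, -1225000), (b29, -1730000), (b31, -612500), (b55, 1167500), (b58, -1730000), (b64, -1730000), (b67, 2662500), (b69, -1730000), (b70, -1225000), (b76, -1730000), (b78, -1225000), (b88, -1730000), (b91, -612500), (b97, 337500), (b98, 192500), (b106, 337500), (b109, 192500), (b123, 337500), (b128, 192500), (b138, -222500), (b141, -1730000), (b147, -1730000), (b156, -1730000), (b160, 3675000), (b162, -1730000), (b163, -1225000), (b169, -1730000), (b171, -1225000), (b181, -1730000), (b184, -1225000), (b188, 577500), (b198, -1730000), (b202, -612500)],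
  []]

/-- Coefficient rows, group 2. -/
def rows2 : List Row := [
  [],
  [],
  [],
  [],
  [(b2, -235000), (b3, 500000), (b4, 1065000), (b5, -875000), (b6, -675000), (b7, 640000), (b15, -235000), (b18, -875000), (b20, 500000), (b22, -875000), (b23, -1350000), (b24, 640000), (b25, 1065000), (b28, 640000), (b29, -875000), (b31, -675000), (b33, 640000), (b55, -235000), (b58, -875000), (b64, -875000), (b67, 500000), (b69, -875000), (b70, -1350000), (b71, 640000), (b76, -875000), (b78, -1350000), (b80, 640000), (b81, 1065000), (b84, 640000), (b87, 640000), (b88, -875000), (b91, -675000), (b94, 640000), (b138, -235000), (b141, -875000), (b147, -875000), (b156, -875000), (b160, 500000), (b162, -875000), (b163, -1350000), (b164, 640000), (b169, -875000), (b171, -1350000), (b173, 640000), (b181, -875000), (b184, -1350000), (b187, 640000), (b188, 1065000), (b191, 640000), (b194, 640000), (b197, 640000), (b198, -875000), (b202, -675000), (b206, 640000)],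
  [(b2, 340000), (b3, -67500), (b4, -727500), (b15, 340000), (b20, -67500), (b25, -727500), (b55, 340000), (b67, -67500), (b81, -727500), (b138, 340000), (b160, -67500), (b188, -727500)],
  [(b2, 1417500), (b3, -1167500), (b4, -2662500), (b5, 340000), (b6, 1730000), (b7, 612500), (b15, 1417500), (b18, 340000), (b20, -1167500), (b22, 340000), (b23, 3460000), (b24, 612500), (b25, -2662500), (b28, 612500), (b29, 340000), (b31, 1730000), (b33, 612500), (b55, 1417500), (b58, 340000), (b64, 340000), (b67, -1167500), (b69, 340000), (b70, 3460000), (b71, 612500), (b76, 340000), (b78, 3460000), (b80, 612500), (b81, -2662500), (b84, 612500), (b87, 612500), (b88, 340000), (b91, 1730000), (b94, 612500), (b138, 1417500), (b141, 340000), (b147, 340000), (b156, 340000), (b160, -1167500), (b162, 340000), (b163, 3460000), (b164, 612500), (b169, 340000), (b171, 3460000), (b173, 612500), (b181, 340000), (b184, 3460000), (b187, 612500), (b188, -2662500), (b191, 612500), (b194, 612500), (b197, 612500), (b198, 340000), (b202, 1730000), (b206, 612500)],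
  [],
  [],
  [(b2, 4252500), (b3, -1417500), (b4, -9000000), (b5, 442500), (b6, 5190000), (b7, 1837500), (b15, 1417500), (b16, 695000), (b18, 340000), (b20, -1167500), (b21, -337500), (b22, 1020000), (b23, 6920000), (b24, 1837500), (b25, -2662500), (b26, -192500), (b28, 612500), (b29, 340000), (b31, 1730000), (b33, 612500), (b55, 1417500), (b56, 695000), (b58, 340000), (b64, 340000), (b67, -1167500), (b68, -337500), (b69, 1020000), (b70, 6920000), (b71, 1837500), (b76, 340000), (b78, 3460000), (b80, 612500), (b81, -2662500), (b82, -192500), (b84, 612500), (b87, 612500), (b88, 340000), (b91, 1730000), (b94, 612500), (b138, 1417500), (b139, 695000), (b141, 340000), (b147, 340000), (b156, 340000), (b160, -1167500), (b161, -337500), (b162, 1020000), (b163, 6920000), (b164, 1837500), (b169, 340000), (b171, 3460000), (b173, 612500), (b181, 340000), (b184, 3460000), (b187, 612500), (b188, -2662500), (b189, -192500), (b191, 612500), (b194, 612500), (b197, 612500), (b198, 340000), (b202, 1730000), (b206, 612500)],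
  [],
  [],
  [],
  [(b2, 1417500), (b3, -1167500), (b4, -2662500), (b5, 340000), (b6, 1730000), (b7, 612500), (b10, 695000), (b11, -337500), (b12, -192500), (b15, 4252500), (b18, 1020000), (b20, -1417500), (b22, 340000), (b23, 6920000), (b24, 612500), (b25, -9000000), (b28, 1837500), (b29, 442500), (b31, 5190000), (b33, 1837500), (b55, 1417500), (b58, 340000), (b60, 695000), (b64, 340000), (b67, -1167500), (b69, 340000), (b70, 3460000), (b71, 612500), (b72, -337500), (b76, 1020000), (b78, 6920000), (b80, 1837500), (b81, -2662500), (b84, 612500), (b85, -192500), (b87, 612500), (b88, 340000), (b91, 1730000), (b94, 612500), (b138, 1417500), (b141, 340000), (b143, 695000), (b147, 340000), (b156, 340000), (b160, -1167500), (b162, 340000), (b163, 3460000), (b164, 612500), (b165, -337500), (b169, 1020000), (b171, 6920000), (b173, 1837500), (b181, 340000), (b184, 3460000), (b187, 612500), (b188, -2662500), (b191, 612500), (b192, -192500), (b194, 612500), (b197, 612500), (b198, 340000), (b202, 1730000), (b206, 612500)],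
  [],
  [],
  [],
  [],
  [(b2, 1417500), (b3, -1167500), (b4, -2662500), (b5, 340000), (b6, 1730000), (b7, 612500), (b15, 1417500), (b18, 340000), (b20, -1167500), (b22, 340000), (b23, 3460000), (b24, 612500), (b25, -2662500), (b28, 612500), (b29, 340000), (b31, 1730000), (b33, 612500), (b36, 695000), (b37, -337500), (b38, -192500), (b45, 695000), (b48, -337500), (b52, -192500), (b55, 4252500), (b58, 1020000), (b64, 1020000), (b67, -1417500), (b69, 340000), (b70, 6920000), (b71, 612500), (b76, 340000), (b78, 6920000), (b80, 612500), (b81, -9000000), (b84, 1837500), (b87, 1837500), (b88, 442500), (b91, 5190000), (b94, 1837500), (b138, 1417500), (b141, 340000), (b147, 340000), (b150, 695000), (b156, 340000), (b160, -1167500), (b162, 340000), (b163, 3460000), (b164, 612500), (b169, 340000), (b171, 3460000), (b173, 612500), (b174, -337500), (b181, 1020000), (b184, 6920000), (b187, 1837500), (b188, -2662500), (b191, 612500), (b194, 612500), (b195, -192500), (b197, 612500), (b198, 340000), (b202, 1730000), (b206, 612500)],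
  [],
  [],
  [],
  [],
  [],
  [(b2, 1417500), (b3, -1167500), (b4, -2662500), (b5, 340000), (b6, 1730000), (b7, 612500), (b15, 1417500), (b18, 340000), (b20, -1167500), (b22, 340000), (b23, 3460000), (b24, 612500), (b25, -2662500), (b28, 612500), (b29, 340000), (b31, 1730000), (b33, 612500), (b55, 1417500), (b58, 340000), (b64, 340000), (b67, -1167500), (b69, 340000), (b70, 3460000), (b71, 612500), (b76, 340000), (b78, 3460000), (b80, 612500), (b81, -2662500), (b84, 612500), (b87, 612500), (b88, 340000), (b91, 1730000), (b94, 612500), (b97, 695000), (b98, -337500), (b99, -192500), (b106, 695000), (b109, -337500), (b113, -192500), (b123, 695000), (b128, -337500), (b135, -192500), (b138, 4252500), (b141, 1020000), (b147, 1020000), (b156, 1020000), (b160, -1417500), (b162, 340000), (b163, 6920000), (b164, 612500), (b169, 340000), (b171, 6920000), (b173, 612500), (b181, 340000), (b184, 6920000), (b187, 612500), (b188, -9000000), (b191, 1837500), (b194, 1837500), (b197, 1837500), (b198, 442500), (b202, 5190000), (b206, 1837500)]]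

/-- Coefficient rows, group 3. -/
def rows3 : List Row := [
  [],
  [],
  [],
  [],
  [],
  [],
  [(b1, -686550), (b2, 1457500), (b4, -732350), (b8, 686550), (b11, 732350), (b15, -1457500), (b21, -732350), (b25, 732350), (b68, -732350), (b72, 732350), (b161, -732350), (b165, 732350)],
  [(b1, -688600), (b2, -2833300), (b3, 498750), (b4, 1988500), (b5, 2310000), (b7, -1901900), (b8, 688600), (b9, 783300), (b10, -293750), (b11, -1988500), (b12, -385000), (b14, 1901900), (b15, 2050000), (b16, -205000), (b18, -1925000), (b22, 1155000), (b24, -1901900), (b26, -385000), (b28, 1901900), (b29, -770000), (b69, 1155000), (b71, -1901900), (b73, -385000), (b75, 1901900), (b76, -770000), (b162, 1155000), (b164, -1901900), (b166, -385000), (b168, 1901900), (b169, -770000)],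
  [(b1, 463750), (b2, -1132500), (b4, 732350), (b8, -463750), (b11, -732350), (b15, 1132500), (b21, 732350), (b25, -732350), (b68, 732350), (b72, -732350), (b161, 732350), (b165, -732350)],
  [(b1, 463750), (b2, -1132500), (b4, 732350), (b8, -463750), (b11, -732350), (b15, 1132500), (b21, 732350), (b25, -732350), (b68, 732350), (b72, -732350), (b161, 732350), (b165, -732350)],
  [(b1, 463750), (b2, -1132500), (b4, 732350), (b8, -463750), (b11, -732350), (b15, 1132500), (b21, 732350), (b25, -732350), (b68, 732350), (b72, -732350), (b161, 732350), (b165, -732350)],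
  [(b1, 463750), (b2, -1132500), (b4, 732350), (b8, -463750), (b11, -732350), (b15, 1132500), (b21, 732350), (b25, -732350), (b68, 732350), (b72, -732350), (b161, 732350), (b165, -732350)],
  [(b1, 463750), (b2, -1132500), (b4, 732350), (b8, -463750), (b11, -732350), (b15, 1132500), (b21, 732350), (b25, -732350), (b68, 732350), (b72, -732350), (b161, 732350), (b165, -732350)],
  [(b1, -1945000), (b2, -1140900), (b3, 5030000), (b4, 3496100), (b5, -5582500), (b6, -2754500), (b7, 2521600), (b8, 1945000), (b9, 388400), (b10, -840000), (b11, -1676100), (b12, 3022500), (b13, 2369500), (b14, -2521600), (b15, 752500), (b16, -3165000), (b17, -1820000), (b18, 2560000), (b20, -1025000), (b21, 675000), (b22, -3662500), (b23, -2369500), (b24, 2521600), (b25, -675000), (b26, 3022500), (b27, 2369500), (b28, -2521600), (b29, 640000), (b31, 385000), (b68, 675000), (b69, -3662500), (b70, -2754500), (b71, 2521600), (b72, -675000), (b73, 3022500), (b74, 2369500), (b75, -2521600), (b76, 640000), (b78, 385000), (b161, 675000), (b162, -3662500), (b163, -2754500), (b164, 2521600), (b165, -675000), (b166, 3022500), (b167, 2369500),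 (b168, -2521600), (b169, 640000), (b171, 385000)],
  [(b1, 67500), (b2, 1094600), (b3, 4050), (b4, -683850), (b8, -67500), (b9, -367100), (b10, -4050), (b11, 683850), (b15, -727500)],
  [(b1, 1167500), (b2, 3822450), (b3, -949950), (b4, -9422750), (b5, -2402900), (b6, 5086200), (b7, 2413250), (b8, -1167500), (b9, -1159950), (b10, -70050), (b11, 4232750), (b12, -47100), (b13, -5086200), (b14, -2413250), (b15, -2662500), (b16, 1020000), (b17, 5190000), (b18, 2450000), (b21, -1730000), (b22, -565400), (b23, 5086200), (b24, 2413250), (b25, 1730000), (b26, -47100), (b27, -5086200), (b28, -2413250), (b29, 612500), (b68, -1730000), (b69, -565400), (b70, 5086200), (b71, 2413250), (b72, 1730000), (b73, -47100), (b74, -5086200), (b75, -2413250), (b76, 612500), (b161, -1730000), (b162, -565400), (b163, 5086200), (b164, 2413250), (b165, 1730000), (b166, -47100), (b167, -5086200), (b168, -2413250), (b169, 612500)],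
  [(b1, 472500), (b2, 4497450), (b3, -414150), (b4, -9740000), (b5, -2776350), (b6, 5086200), (b7, 2413250), (b8, -1167500), (b9, -1497450), (b10, -220850), (b11, 4550000), (b12, 326350), (b13, -5086200), (b14, -2413250), (b15, -2662500), (b16, 827500), (b17, 5190000), (b18, 2450000), (b21, -1730000), (b22, -565400), (b23, 5086200), (b24, 2413250), (b25, 1730000), (b26, -47100), (b27, -5086200), (b28, -2413250), (b29, 612500), (b68, -1730000), (b69, -565400), (b70, 5086200), (b71, 2413250), (b72, 1730000), (b73, -47100), (b74, -5086200), (b75, -2413250), (b76, 612500), (b161, -1730000), (b162, -565400), (b163, 5086200), (b164, 2413250), (b165, 1730000), (b166, -47100), (b167, -5086200), (b168, -2413250), (b169, 612500)],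
  [(b1, 1862500), (b2, 3484950), (b3, -1142450), (b4, -9422750), (b5, -2402900), (b6, 5086200), (b7, 2413250), (b8, 222500), (b9, -822450), (b10, 273250), (b11, 3915500), (b12, -420550), (b13, -5086200), (b14, -2413250), (b15, -3675000), (b16, 869200), (b17, 5507250), (b18, 2823450), (b20, -577500), (b21, -1730000), (b22, -565400), (b23, 5086200), (b24, 2413250), (b25, 1730000), (b26, -47100), (b27, -5086200), (b28, -2413250), (b29, 612500), (b68, -1730000), (b69, -565400), (b70, 5086200), (b71, 2413250), (b72, 1730000), (b73, -47100), (b74, -5086200), (b75, -2413250), (b76, 612500), (b161, -1730000), (b162, -565400), (b163, 5086200), (b164, 2413250), (b165, 1730000), (b166, -47100), (b167, -5086200), (b168, -2413250), (b169, 612500)],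
  [(b1, 1167500), (b2, 3822450), (b3, -949950), (b4, -9422750), (b5, -2402900), (b6, 5086200), (b7, 2413250), (b8, -1167500), (b9, -1159950), (b10, -70050), (b11, 4232750), (b12, -47100), (b13, -5086200), (b14, -2413250), (b15, -2662500), (b16, 1020000), (b17, 5190000), (b18, 2450000), (b21, -1730000), (b22, -565400), (b23, 5086200), (b24, 2413250), (b25, 1730000), (b26, -47100), (b27, -5086200), (b28, -2413250), (b29, 612500), (b35, 337500), (b36, 343300), (b37, -317250), (b38, -373450), (b41, -337500), (b42, -150800), (b43, 317250), (b44, 373450), (b45, -192500), (b68, -1730000), (b69, -565400), (b70, 5086200), (b71, 2413250), (b72, 1730000), (b73, -47100), (b74, -5086200), (b75, -2413250), (b76, 612500), (b161, -1730000), (b162, -565400), (b163, 5086200), (b164, 2413250), (b165, 1730000), (b166, -47100), (b167, -5086200), (b168, -2413250), (b169, 612500)],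
  [(b1, 1167500), (b2, 3822450), (b3, -949950), (b4, -9422750), (b5, -2402900), (b6, 5086200), (b7, 2413250), (b8, -1167500), (b9, -1159950), (b10, -70050), (b11, 4232750), (b12, -47100), (b13, -5086200), (b14, -2413250), (b15, -2662500), (b16, 1020000), (b17, 5190000), (b18, 2450000), (b21, -1730000), (b22, -565400), (b23, 5086200), (b24, 2413250), (b25, 1730000), (b26, -47100), (b27, -5086200), (b28, -2413250), (b29, 612500), (b68, -1730000), (b69, -565400), (b70, 5086200), (b71, 2413250), (b72, 1730000), (b73, -47100), (b74, -5086200), (b75, -2413250), (b76, 612500), (b96, 337500), (b97, 343300), (b98, -317250), (b99, -373450), (b102, -337500), (b103, -150800), (b104, 317250), (b105, 373450), (b106, -192500), (b161, -1730000), (b162, -565400), (b163, 5086200), (b164, 2413250), (b165, 1730000), (b166, -47100), (b167, -5086200), (b168, -2413250), (b169, 612500)],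
  [(b0, 2400000), (b1, 2080000), (b2, -743776), (b3, -3826300), (b5, 1585850), (b8, 2080000), (b9, 1487552), (b10, 2216300), (b12, -3171700), (b15, -743776), (b16, 2216300), (b18, 1585850), (b20, -3826300), (b22, 1585850), (b26, -3171700), (b29, 1585850), (b67, -1610000), (b69, 1585850), (b73, -3171700), (b76, 1585850), (b160, -1610000), (b162, 1585850), (b166, -3171700), (b169, 1585850)],
  [(b0, 870000), (b1, -1300000), (b2, -204450), (b3, 630500), (b8, -1300000), (b9, 408900), (b10, -630500), (b15, -204450), (b16, -630500), (b20, 630500)],
  [(b0, -230000), (b1, -1080000), (b2, 54050), (b3, 2921300), (b5, -1349450), (b8, -1080000), (b9, -108100), (b10, -1551300), (b12, 2698900), (b15, 54050), (b16, -1551300), (b18, -1349450), (b20, 2921300), (b22, -1349450), (b26, 2698900), (b29, -1349450), (b67, 1370000), (b69, -1349450), (b73, 2698900), (b76, -1349450), (b160, 1370000), (b162, -1349450), (b166, 2698900), (b169, -1349450)],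
  [(b0, -855000), (b1, -3724150), (b2, 860300), (b3, 4759450), (b4, 2008650), (b5, -1349450), (b6, -1901900), (b8, -2225850), (b9, 8150), (b10, -3239100), (b11, 686350), (b12, 2698900), (b13, 1901900), (b15, -48450), (b16, -1701650), (b17, -853650), (b18, -1349450), (b20, 2921300), (b21, 853650), (b22, -1349450), (b23, -1901900), (b25, 385000), (b26, 2698900), (b27, 1901900), (b29, -1349450), (b67, 1370000), (b68, 1155000), (b69, -1349450), (b70, -1901900), (b72, 385000), (b73, 2698900), (b74, 1901900), (b76, -1349450), (b160, 1370000), (b161, 1155000), (b162, -1349450), (b163, -1901900), (b165, 385000), (b166, 2698900), (b167, 1901900), (b169, -1349450)],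
  [(b0, -855000), (b1, -2225850), (b2, -48450), (b3, 2921300), (b4, 385000), (b5, -1349450), (b8, -3724150), (b9, 8150), (b10, -1701650), (b11, 853650), (b12, 2698900), (b15, 860300), (b16, -3239100), (b17, -853650), (b18, -1349450), (b19, 1901900), (b20, 4759450), (b21, 686350), (b22, -1349450), (b23, -1901900), (b25, 2008650), (b26, 2698900), (b29, -1349450), (b30, 1901900), (b31, -1901900), (b67, 1370000), (b68, 385000), (b69, -1349450), (b72, 1155000), (b73, 2698900), (b76, -1349450), (b77, 1901900), (b78, -1901900), (b160, 1370000), (b161, 385000), (b162, -1349450), (b165, 1155000), (b166, 2698900), (b169, -1349450), (b170, 1901900), (b171, -1901900)]]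

/-- Coefficient rows, group 4. -/
def rows4 : List Row := [
  [(b0, -230000), (b1, -1080000), (b2, 54050), (b3, 2921300), (b5, -1349450), (b8, -1080000), (b9, -108100), (b10, -1551300), (b12, 2698900), (b15, 54050), (b16, -1551300), (b18, -1349450), (b20, 2921300), (b22, -1349450), (b26, 2698900), (b29, -1349450), (b34, 310000), (b35, 410000), (b36, -150350), (b37, -301350), (b41, 410000), (b42, 300700), (b43, 301350), (b45, -150350), (b46, 301350), (b48, -301350), (b67, 1370000), (b69, -1349450), (b73, 2698900), (b76, -1349450), (b160, 1370000), (b162, -1349450), (b166, 2698900), (b169, -1349450)],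
  [(b0, -230000), (b1, -1080000), (b2, 54050), (b3, 2921300), (b5, -1349450), (b8, -1080000), (b9, -108100), (b10, -1551300), (b12, 2698900), (b15, 54050), (b16, -1551300), (b18, -1349450), (b20, 2921300), (b22, -1349450), (b26, 2698900), (b29, -1349450), (b67, 1370000), (b69, -1349450), (b73, 2698900), (b76, -1349450), (b95, 310000), (b96, 410000), (b97, -150350), (b98, -301350), (b102, 410000), (b103, 300700), (b104, 301350), (b106, -150350), (b107, 301350), (b109, -301350), (b160, 1370000), (b162, -1349450), (b166, 2698900), (b169, -1349450)],
  [(b1, -686550), (b2, 1457500), (b4, -732350), (b8, 686550), (b11, 732350), (b15, -1457500), (b21, -732350), (b25, 732350), (b68, -732350), (b72, 732350), (b161, -732350), (b165, 732350)],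
  [(b1, -688600), (b2, -2050000), (b5, 770000), (b8, 688600), (b9, -783300), (b10, 205000), (b12, 385000), (b15, 2833300), (b16, 293750), (b18, -1155000), (b20, -498750), (b21, 1988500), (b22, 1925000), (b24, -1901900), (b25, -1988500), (b26, 385000), (b28, 1901900), (b29, -2310000), (b32, -1901900), (b33, 1901900), (b69, 770000), (b73, 385000), (b76, -1155000), (b79, -1901900), (b80, 1901900), (b162, 770000), (b166, 385000), (b169, -1155000), (b172, -1901900), (b173, 1901900)],
  [(b1, 463750), (b2, -1132500), (b4, 732350), (b8, -463750), (b11, -732350), (b15, 1132500), (b21, 732350), (b25, -732350), (b68, 732350), (b72, -732350), (b161, 732350), (b165, -732350)],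
  [(b1, 463750), (b2, -1132500), (b4, 732350), (b8, -463750), (b11, -732350), (b15, 1132500), (b21, 732350), (b25, -732350), (b68, 732350), (b72, -732350), (b161, 732350), (b165, -732350)],
  [(b1, 463750), (b2, -1132500), (b4, 732350), (b8, -463750), (b11, -732350), (b15, 1132500), (b21, 732350), (b25, -732350), (b68, 732350), (b72, -732350), (b161, 732350), (b165, -732350)],
  [(b1, 463750), (b2, -1132500), (b4, 732350), (b8, -463750), (b11, -732350), (b15, 1132500), (b21, 732350), (b25, -732350), (b68, 732350), (b72, -732350), (b161, 732350), (b165, -732350)],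
  [(b1, 463750), (b2, -1132500), (b4, 732350), (b8, -463750), (b11, -732350), (b15, 1132500), (b21, 732350), (b25, -732350), (b68, 732350), (b72, -732350), (b161, 732350), (b165, -732350)],
  [(b1, -1945000), (b2, -752500), (b3, 1025000), (b4, 675000), (b5, -640000), (b6, -385000), (b8, 1945000), (b9, -388400), (b10, 3165000), (b11, -675000), (b12, -3022500), (b15, 1140900), (b16, 840000), (b17, 1820000), (b18, 3662500), (b19, -2369500), (b20, -5030000), (b21, 1676100), (b22, -2560000), (b23, 2369500), (b24, 2521600), (b25, -3496100), (b26, -3022500), (b28, -2521600), (b29, 5582500), (b30, -2369500), (b31, 2754500), (b32, 2521600), (b33, -2521600), (b68, 675000), (b69, -640000), (b70, -385000), (b72, -675000), (b73, -3022500), (b76, 3662500), (b77, -2369500), (b78, 2754500), (b79, 2521600), (b80, -2521600), (b161, 675000), (b162, -640000), (b163, -385000), (b165, -675000), (b166, -3022500), (b169, 3662500), (b170, -2369500), (b171, 2754500), (b172, 2521600), (b173, -2521600)],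
  [(b1, 67500), (b2, 727500), (b8, -67500), (b9, 367100), (b15, -1094600), (b16, 4050), (b20, -4050), (b21, -683850), (b25, 683850)],
  [(b1, 1167500), (b2, 2662500), (b4, -1730000), (b5, -612500), (b8, -1167500), (b9, 1159950), (b10, -1020000), (b11, 1730000), (b12, 47100), (b15, -3822450), (b16, 70050), (b17, -5190000), (b18, 565400), (b19, 5086200), (b20, 949950), (b21, -4232750), (b22, -2450000), (b23, -5086200), (b24, 2413250), (b25, 9422750), (b26, 47100), (b28, -2413250), (b29, 2402900), (b30, 5086200), (b31, -5086200), (b32, 2413250), (b33, -2413250), (b68, -1730000), (b69, -612500), (b72, 1730000), (b73, 47100), (b76, 565400), (b77, 5086200), (b78, -5086200), (b79, 2413250), (b80, -2413250), (b161, -1730000), (b162, -612500), (b165, 1730000), (b166, 47100), (b169, 565400), (b170, 5086200), (b171, -5086200), (b172, 2413250), (b173, -2413250)],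
  [(b1, -222500), (b2, 3675000), (b3, 577500), (b4, -1730000), (b5, -612500), (b8, -1862500), (b9, 822450), (b10, -869200), (b11, 1730000), (b12, 47100), (b15, -3484950), (b16, -273250), (b17, -5507250), (b18, 565400), (b19, 5086200), (b20, 1142450), (b21, -3915500), (b22, -2823450), (b23, -5086200), (b24, 2413250), (b25, 9422750), (b26, 420550), (b28, -2413250), (b29, 2402900), (b30, 5086200), (b31, -5086200), (b32, 2413250), (b33, -2413250), (b68, -1730000), (b69, -612500), (b72, 1730000), (b73, 47100), (b76, 565400), (b77, 5086200), (b78, -5086200), (b79, 2413250), (b80, -2413250), (b161, -1730000), (b162, -612500), (b165, 1730000), (b166, 47100), (b169, 565400), (b170, 5086200), (b171, -5086200), (b172, 2413250), (b173, -2413250)],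
  [(b1, 1167500), (b2, 2662500), (b4, -1730000), (b5, -612500), (b8, -472500), (b9, 1497450), (b10, -827500), (b11, 1730000), (b12, 47100), (b15, -4497450), (b16, 220850), (b17, -5190000), (b18, 565400), (b19, 5086200), (b20, 414150), (b21, -4550000), (b22, -2450000), (b23, -5086200), (b24, 2413250), (b25, 9740000), (b26, -326350), (b28, -2413250), (b29, 2776350), (b30, 5086200), (b31, -5086200), (b32, 2413250), (b33, -2413250), (b68, -1730000), (b69, -612500), (b72, 1730000), (b73, 47100), (b76, 565400), (b77, 5086200), (b78, -5086200), (b79, 2413250), (b80, -2413250), (b161, -1730000), (b162, -612500), (b165, 1730000), (b166, 47100), (b169, 565400), (b170, 5086200), (b171, -5086200), (b172, 2413250), (b173, -2413250)],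
  [(b1, 1167500), (b2, 2662500), (b4, -1730000), (b5, -612500), (b8, -1167500), (b9, 1159950), (b10, -1020000), (b11, 1730000), (b12, 47100), (b15, -3822450), (b16, 70050), (b17, -5190000), (b18, 565400), (b19, 5086200), (b20, 949950), (b21, -4232750), (b22, -2450000), (b23, -5086200), (b24, 2413250), (b25, 9422750), (b26, 47100), (b28, -2413250), (b29, 2402900), (b30, 5086200), (b31, -5086200), (b32, 2413250), (b33, -2413250), (b35, 337500), (b36, 192500), (b41, -337500), (b42, 150800), (b45, -343300), (b46, -317250), (b48, 317250), (b49, -373450), (b52, 373450), (b68, -1730000), (b69, -612500), (b72, 1730000), (b73, 47100), (b76, 565400), (b77, 5086200), (b78, -5086200), (b79, 2413250), (b80, -2413250), (b161, -1730000), (b162, -612500), (b165, 1730000), (b166, 47100), (b169, 565400), (b170, 5086200), (b171, -5086200), (b172, 2413250), (b173, -2413250)],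
  [(b1, 1167500), (b2, 2662500), (b4, -1730000), (b5, -612500), (b8, -1167500), (b9, 1159950), (b10, -1020000), (b11, 1730000), (b12, 47100), (b15, -3822450), (b16, 70050), (b17, -5190000), (b18, 565400), (b19, 5086200), (b20, 949950), (b21, -4232750), (b22, -2450000), (b23, -5086200), (b24, 2413250), (b25, 9422750), (b26, 47100), (b28, -2413250), (b29, 2402900), (b30, 5086200), (b31, -5086200), (b32, 2413250), (b33, -2413250), (b68, -1730000), (b69, -612500), (b72, 1730000), (b73, 47100), (b76, 565400), (b77, 5086200), (b78, -5086200), (b79, 2413250), (b80, -2413250), (b96, 337500), (b97, 192500), (b102, -337500), (b103, 150800), (b106, -343300), (b107, -317250), (b109, 317250), (b110, -373450), (b113, 373450), (b161, -1730000), (b162, -612500), (b165, 1730000), (b166, 47100), (b169, 565400), (b170, 5086200), (b171, -5086200), (b172, 2413250), (b173, -2413250)],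
  [(b1, 0), (b2, 0), (b3, 0), (b4, 0), (b6, 0), (b8, 0), (b10, 0), (b11, 0), (b13, 0), (b15, 0), (b16, 0), (b19, 0), (b20, 0), (b21, 0), (b25, 0), (b27, 0), (b30, 0), (b31, 0), (b68, 0), (b70, 0), (b72, 0), (b74, 0), (b77, 0), (b78, 0), (b161, 0), (b163, 0), (b165, 0), (b167, 0), (b170, 0), (b171, 0)],
  [(b0, 2400000), (b1, 2080000), (b2, -743776), (b3, -3826300), (b5, 1585850), (b8, 2080000), (b9, 1487552), (b10, 2216300), (b12, -3171700), (b15, -743776), (b16, 2216300), (b18, 1585850), (b20, -3826300), (b22, 1585850), (b26, -3171700), (b29, 1585850), (b67, -1610000), (b69, 1585850), (b73, -3171700), (b76, 1585850), (b160, -1610000), (b162, 1585850), (b166, -3171700), (b169, 1585850)],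
  [(b0, 870000), (b1, -1300000), (b2, -204450), (b3, 630500), (b8, -1300000), (b9, 408900), (b10, -630500), (b15, -204450), (b16, -630500), (b20, 630500)],
  [(b0, -230000), (b1, -1080000), (b2, 54050), (b3, 2921300), (b5, -1349450), (b8, -1080000), (b9, -108100), (b10, -1551300), (b12, 2698900), (b15, 54050), (b16, -1551300), (b18, -1349450), (b20, 2921300), (b22, -1349450), (b26, 2698900), (b29, -1349450), (b67, 1370000), (b69, -1349450), (b73, 2698900), (b76, -1349450), (b160, 1370000), (b162, -1349450), (b166, 2698900), (b169, -1349450)],
  [(b0, -855000), (b1, -3724150), (b2, 860300), (b3, 4759450), (b4, 2008650), (b5, -1349450), (b6, -1901900), (b8, -2225850), (b9, 8150), (b10, -3239100), (b11, 686350), (b12, 2698900), (b13, 1901900), (b15, -48450), (b16, -1701650), (b17, -853650), (b18, -1349450), (b20, 2921300), (b21, 853650), (b22, -1349450), (b23, -1901900), (b25, 385000), (b26, 2698900), (b27, 1901900), (b29, -1349450), (b67, 1370000), (b68, 1155000), (b69, -1349450), (b70, -1901900), (b72, 385000), (b73, 2698900), (b74, 1901900), (b76, -1349450), (b160, 1370000), (b161, 1155000), (b162, -1349450),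 (b163, -1901900), (b165, 385000), (b166, 2698900), (b167, 1901900), (b169, -1349450)],
  [(b0, -855000), (b1, -2225850), (b2, -48450), (b3, 2921300), (b4, 385000), (b5, -1349450), (b8, -3724150), (b9, 8150), (b10, -1701650), (b11, 853650), (b12, 2698900), (b15, 860300), (b16, -3239100), (b17, -853650), (b18, -1349450), (b19, 1901900), (b20, 4759450), (b21, 686350), (b22, -1349450), (b23, -1901900), (b25, 2008650), (b26, 2698900), (b29, -1349450), (b30, 1901900), (b31, -1901900), (b67, 1370000), (b68, 385000), (b69, -1349450), (b72, 1155000), (b73, 2698900), (b76, -1349450), (b77, 1901900), (b78, -1901900), (b160, 1370000), (b161, 385000), (b162, -1349450), (b165, 1155000), (b166, 2698900), (b169, -1349450), (b170, 1901900), (b171, -1901900)],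
  [(b0, -230000), (b1, -1080000), (b2, 54050), (b3, 2921300), (b5, -1349450), (b8, -1080000), (b9, -108100), (b10, -1551300), (b12, 2698900), (b15, 54050), (b16, -1551300), (b18, -1349450), (b20, 2921300), (b22, -1349450), (b26, 2698900), (b29, -1349450), (b34, 310000), (b35, 410000), (b36, -150350), (b37, -301350), (b41, 410000), (b42, 300700), (b43, 301350), (b45, -150350), (b46, 301350), (b48, -301350), (b67, 1370000), (b69, -1349450), (b73, 2698900), (b76, -1349450), (b160, 1370000), (b162, -1349450), (b166, 2698900), (b169, -1349450)],
  [(b0, -230000), (b1, -1080000), (b2, 54050), (b3, 2921300), (b5, -1349450), (b8, -1080000), (b9, -108100), (b10, -1551300), (b12, 2698900), (b15, 54050), (b16, -1551300), (b18, -1349450), (b20, 2921300), (b22, -1349450), (b26, 2698900), (b29, -1349450), (b67, 1370000), (b69, -1349450), (b73, 2698900), (b76, -1349450), (b95, 310000), (b96, 410000), (b97, -150350), (b98, -301350), (b102, 410000), (b103, 300700), (b104, 301350), (b106, -150350), (b107, 301350), (b109, -301350), (b160, 1370000), (b162, -1349450), (b166, 2698900), (b169, -1349450)],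
  []]

/-- Coefficient rows, group 5. -/
def rows5 : List Row := [
  [(b1, 1390000), (b2, -675000), (b3, -385000), (b8, 1390000), (b15, -675000), (b20, -385000), (b34, 1390000), (b55, -675000), (b67, -385000)],
  [(b0, -1250000), (b1, -2291700), (b2, -205000), (b4, 770000), (b8, -3858300), (b9, -293750), (b11, 1540000), (b15, 498750), (b16, -1988500), (b17, -1155000), (b19, 1901900), (b20, 1988500), (b21, 770000), (b23, -1901900), (b25, 2695000), (b30, 1901900), (b31, -1901900), (b34, -2050000), (b35, -293750), (b37, 770000), (b41, 293750), (b48, 770000), (b56, -1988500), (b57, -1155000), (b59, 1901900), (b60, 1988500), (b62, -1901900), (b63, 1155000), (b65, 1901900), (b66, -1901900), (b68, 770000), (b72, 1540000), (b77, 1901900), (b78, -1901900), (b81, 770000), (b89, 1901900), (b90, -1901900), (b161, 770000), (b165, 1540000), (b170, 1901900), (b171, -1901900), (b174, 770000), (b182, 1901900), (b183, -1901900)],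
  [(b0, 1250000), (b1, 3858300), (b2, -498750), (b3, -1988500), (b4, -2695000), (b6, 1901900), (b8, 2291700), (b9, 293750), (b10, 1988500), (b11, -770000), (b13, -1901900), (b15, 205000), (b17, 1155000), (b21, -1540000), (b23, 1901900), (b25, -770000), (b27, -1901900), (b34, 2050000), (b35, -293750), (b37, -770000), (b41, 293750), (b48, -770000), (b56, -1988500), (b57, -1155000), (b59, 1901900), (b60, 1988500), (b62, -1901900), (b63, 1155000), (b65, 1901900), (b66, -1901900), (b68, -1540000), (b70, 1901900), (b72, -770000), (b74, -1901900), (b81, -770000), (b89, 1901900), (b90, -1901900), (b161, -1540000), (b163, 1901900), (b165, -770000), (b167, -1901900), (b174, -770000), (b182, 1901900), (b183, -1901900)],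
  [(b0, 3600000), (b1, 2080000), (b3, -2415000), (b8, 2080000), (b20, -2415000), (b34, 2080000), (b67, -2415000), (b160, -2415000)],
  [(b0, 1305000), (b1, -1300000), (b8, -1300000), (b34, -1300000)],
  [(b0, -345000), (b1, -1080000), (b3, 2055000), (b8, -1080000), (b20, 2055000), (b34, -1080000), (b67, 2055000), (b160, 2055000)],
  [(b0, -970000), (b1, -2665000), (b2, 410000), (b3, 2055000), (b4, 770000), (b8, -2105000), (b9, 410000), (b11, 385000), (b20, 2055000), (b21, 770000), (b25, 385000), (b34, -2105000), (b35, 410000), (b37, 385000), (b48, 385000), (b67, 2055000), (b68, 770000), (b72, 385000), (b81, 385000), (b160, 2055000), (b161, 770000), (b165, 385000), (b174, 385000)],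
  [(b0, -970000), (b1, -2105000), (b3, 2055000), (b4, 385000), (b8, -2665000), (b9, 410000), (b11, 770000), (b15, 410000), (b20, 2055000), (b21, 385000), (b25, 770000), (b34, -2105000), (b37, 385000), (b41, 410000), (b48, 385000), (b67, 2055000), (b68, 385000), (b72, 770000), (b81, 385000), (b160, 2055000), (b161, 385000), (b165, 770000), (b174, 385000)],
  [(b0, -970000), (b1, -2105000), (b3, 2055000), (b4, 385000), (b8, -2105000), (b11, 385000), (b20, 2055000), (b21, 385000), (b25, 385000), (b34, -2665000), (b35, 410000), (b37, 770000), (b41, 410000), (b48, 770000), (b55, 410000), (b67, 2055000), (b68, 385000), (b72, 385000), (b81, 770000), (b160, 2055000), (b161, 385000), (b165, 385000), (b174, 770000)],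
  [(b0, -345000), (b1, -1080000), (b3, 2055000), (b8, -1080000), (b20, 2055000), (b34, -1080000), (b67, 2055000), (b95, 465000), (b96, 410000), (b102, 410000), (b116, 410000), (b160, 2055000)],
  [(b1, -686550), (b2, 1457500), (b4, -732350), (b8, 686550), (b11, 732350), (b15, -1457500), (b21, -732350), (b25, 732350), (b68, -732350), (b72, 732350), (b161, -732350), (b165, 732350)],
  [(b1, -688600), (b2, -2050000), (b5, 770000), (b8, 688600), (b15, 2050000), (b18, -770000), (b22, 770000), (b29, -770000), (b35, -783300), (b36, 205000), (b38, 385000), (b41, 783300), (b44, -385000), (b45, -205000), (b49, 385000), (b52, -385000), (b56, 293750), (b60, -293750), (b68, 1988500), (b69, 1925000), (b71, -1901900), (b72, -1988500), (b75, 1901900), (b76, -1925000), (b79, -1901900), (b80, 1901900), (b82, 385000), (b85, -385000), (b92, -1901900), (b93, 1901900), (b162, 770000), (b169, -770000), (b175, 385000), (b178, -385000), (b185, -1901900), (b186, 1901900)],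
  [(b1, 463750), (b2, -1132500), (b4, 732350), (b8, -463750), (b11, -732350), (b15, 1132500), (b21, 732350), (b25, -732350), (b68, 732350), (b72, -732350), (b161, 732350), (b165, -732350)],
  [(b1, 463750), (b2, -1132500), (b4, 732350), (b8, -463750), (b11, -732350), (b15, 1132500), (b21, 732350), (b25, -732350), (b68, 732350), (b72, -732350), (b161, 732350), (b165, -732350)],
  [(b1, 463750), (b2, -1132500), (b4, 732350), (b8, -463750), (b11, -732350), (b15, 1132500), (b21, 732350), (b25, -732350), (b68, 732350), (b72, -732350), (b161, 732350), (b165, -732350)],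
  [(b1, 463750), (b2, -1132500), (b4, 732350), (b8, -463750), (b11, -732350), (b15, 1132500), (b21, 732350), (b25, -732350), (b68, 732350), (b72, -732350), (b161, 732350), (b165, -732350)],
  [(b1, 463750), (b2, -1132500), (b4, 732350), (b8, -463750), (b11, -732350), (b15, 1132500), (b21, 732350), (b25, -732350), (b68, 732350), (b72, -732350), (b161, 732350), (b165, -732350)],
  [(b1, -1945000), (b2, -752500), (b3, 1025000), (b4, 675000), (b5, -640000), (b6, -385000), (b8, 1945000), (b11, -675000), (b15, 752500), (b18, 640000), (b20, -1025000), (b21, 675000), (b22, -640000), (b23, 0), (b25, -675000), (b29, 640000), (b31, 385000), (b35, -388400), (b36, 3165000), (b38, -3022500), (b41, 388400), (b44, 3022500), (b45, -3165000), (b49, -3022500), (b52, 3022500), (b56, 840000), (b57, 1820000), (b59, -2369500), (b60, -840000), (b62, 2369500), (b63, -1820000), (b65, -2369500), (b66, 2369500), (b68, 1676100), (b69, -2560000), (b70, -385000), (b71, 2521600), (b72, -1676100), (b75, -2521600), (b76, 2560000), (b78, 385000), (b79, 2521600), (b80, -2521600), (b82, -3022500), (b85, 3022500), (b89, -2369500), (b90, 2369500),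 (b92, 2521600), (b93, -2521600), (b161, 675000), (b162, -640000), (b163, -385000), (b165, -675000), (b169, 640000), (b171, 385000), (b175, -3022500), (b178, 3022500), (b182, -2369500), (b183, 2369500), (b185, 2521600), (b186, -2521600)],
  [(b1, 67500), (b2, 727500), (b8, -67500), (b15, -727500), (b35, 367100), (b41, -367100), (b56, 4050), (b60, -4050), (b68, -683850), (b72, 683850)],
  [(b1, 1167500), (b2, 2662500), (b4, -1730000), (b5, -612500), (b8, -1167500), (b11, 1730000), (b15, -2662500), (b18, 612500), (b21, -1730000), (b22, -612500), (b25, 1730000), (b29, 612500), (b35, 1159950), (b36, -1020000), (b38, 47100), (b41, -1159950), (b44, -47100), (b45, 1020000), (b49, 47100), (b52, -47100), (b56, 70050), (b57, -5190000), (b59, 5086200), (b60, -70050), (b62, -5086200), (b63, 5190000), (b65, 5086200), (b66, -5086200), (b68, -4232750), (b69, -2450000), (b71, 2413250), (b72, 4232750), (b75, -2413250), (b76, 2450000), (b79, 2413250), (b80, -2413250), (b82, 47100), (b85, -47100), (b89, 5086200), (b90, -5086200), (b92, 2413250), (b93, -2413250), (b161, -1730000), (b162, -612500), (b165, 1730000), (b169, 612500),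 (b175, 47100), (b178, -47100), (b182, 5086200), (b183, -5086200), (b185, 2413250), (b186, -2413250)],
  [(b1, -222500), (b2, 3675000), (b3, 577500), (b4, -1730000), (b5, -612500), (b8, -1167500), (b9, -337500), (b11, 1730000), (b15, -2662500), (b16, -192500), (b18, 612500), (b21, -1730000), (b22, -612500), (b25, 1730000), (b29, 612500), (b34, -695000), (b35, 1159950), (b36, -869200), (b38, 47100), (b41, -1159950), (b42, -150800), (b44, -47100), (b45, 1020000), (b49, 47100), (b52, -47100), (b55, 337500), (b56, 70050), (b57, -5507250), (b59, 5086200), (b60, -70050), (b61, 317250), (b62, -5086200), (b63, 5190000), (b65, 5086200), (b66, -5086200), (b67, 192500), (b68, -4232750), (b69, -2823450), (b71, 2413250), (b72, 4232750), (b73, 373450), (b75, -2413250), (b76, 2450000), (b79, 2413250), (b80, -2413250), (b82, 47100), (b85, -47100), (b89, 5086200), (b90, -5086200), (b92, 2413250), (b93, -2413250), (b161, -1730000), (b162, -612500), (b165, 1730000), (b169, 612500), (b175, 47100), (b178, -47100), (b182, 5086200), (b183, -5086200), (b185, 2413250), (b186, -2413250)],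
  [(b1, 1167500), (b2, 2662500), (b4, -1730000), (b5, -612500), (b8, 222500), (b9, 337500), (b10, 192500), (b11, 1730000), (b15, -3675000), (b18, 612500), (b20, -577500), (b21, -1730000), (b22, -612500), (b25, 1730000), (b29, 612500), (b34, 695000), (b35, 1159950), (b36, -1020000), (b38, 47100), (b41, -1159950), (b42, 150800), (b44, -47100), (b45, 869200), (b49, 47100), (b52, -47100), (b55, -337500), (b56, 70050), (b57, -5190000), (b59, 5086200), (b60, -70050), (b61, -317250), (b62, -5086200), (b63, 5507250), (b65, 5086200), (b66, -5086200), (b67, -192500), (b68, -4232750), (b69, -2450000), (b71, 2413250), (b72, 4232750), (b73, -373450), (b75, -2413250), (b76, 2823450), (b79, 2413250), (b80, -2413250), (b82, 47100), (b85, -47100), (b89, 5086200), (b90, -5086200), (b92, 2413250), (b93, -2413250), (b161, -1730000), (b162, -612500), (b165, 1730000), (b169, 612500), (b175, 47100), (b178, -47100), (b182, 5086200), (b183, -5086200), (b185, 2413250), (b186, -2413250)],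
  [(b1, 1167500), (b2, 2662500), (b4, -1730000), (b5, -612500), (b8, -1167500), (b11, 1730000), (b15, -2662500), (b18, 612500), (b21, -1730000), (b22, -612500), (b25, 1730000), (b29, 612500), (b35, 1497450), (b36, -827500), (b38, 47100), (b41, -1497450), (b44, -47100), (b45, 827500), (b49, 47100), (b52, -47100), (b56, 220850), (b57, -5190000), (b59, 5086200), (b60, -220850), (b62, -5086200), (b63, 5190000), (b65, 5086200), (b66, -5086200), (b68, -4550000), (b69, -2450000), (b71, 2413250), (b72, 4550000), (b75, -2413250), (b76, 2450000), (b79, 2413250), (b80, -2413250), (b82, -326350), (b85, 326350), (b89, 5086200), (b90, -5086200), (b92, 2413250), (b93, -2413250), (b161, -1730000), (b162, -612500), (b165, 1730000), (b169, 612500), (b175, 47100), (b178, -47100), (b182, 5086200), (b183, -5086200), (b185, 2413250), (b186, -2413250)],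
  [(b1, 1167500), (b2, 2662500), (b4, -1730000), (b5, -612500), (b8, -1167500), (b11, 1730000), (b15, -2662500), (b18, 612500), (b21, -1730000), (b22, -612500), (b25, 1730000), (b29, 612500), (b35, 1159950), (b36, -1020000), (b38, 47100), (b41, -1159950), (b44, -47100), (b45, 1020000), (b49, 47100), (b52, -47100), (b56, 70050), (b57, -5190000), (b59, 5086200), (b60, -70050), (b62, -5086200), (b63, 5190000), (b65, 5086200), (b66, -5086200), (b68, -4232750), (b69, -2450000), (b71, 2413250), (b72, 4232750), (b75, -2413250), (b76, 2450000), (b79, 2413250), (b80, -2413250), (b82, 47100), (b85, -47100), (b89, 5086200), (b90, -5086200), (b92, 2413250), (b93, -2413250), (b96, 337500), (b97, 192500), (b102, -337500), (b106, -192500), (b117, 150800), (b120, -150800), (b124, -317250), (b126, 317250), (b129, -373450), (b132, 373450), (b161, -1730000), (b162, -612500), (b165, 1730000), (b169, 612500), (b175, 47100), (b178, -47100), (b182, 5086200), (b183, -5086200), (b185, 2413250), (b186, -2413250)],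
  [(b0, -1250000), (b1, -3858300), (b2, 498750), (b3, 1988500), (b4, 2695000), (b6, -1901900), (b8, -2291700), (b9, -293750), (b10, -1988500), (b11, 770000), (b13, 1901900), (b15, -205000), (b17, -1155000), (b21, 1540000), (b23, -1901900), (b25, 770000), (b27, 1901900), (b34, -2050000), (b35, 293750), (b37, 770000), (b41, -293750), (b48, 770000), (b56, 1988500), (b57, 1155000), (b59, -1901900), (b60, -1988500), (b62, 1901900), (b63, -1155000), (b65, -1901900), (b66, 1901900), (b68, 1540000), (b70, -1901900), (b72, 770000), (b74, 1901900), (b81, 770000), (b89, -1901900), (b90, 1901900), (b161, 1540000), (b163, -1901900), (b165, 770000), (b167, 1901900), (b174, 770000), (b182, -1901900), (b183, 1901900)]]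

/-- Coefficient rows, group 6. -/
def rows6 : List Row := [
  [(b0, -1250000), (b1, -2291700), (b2, -205000), (b4, 770000), (b8, -3858300), (b9, -293750), (b11, 1540000), (b15, 498750), (b16, -1988500), (b17, -1155000), (b19, 1901900), (b20, 1988500), (b21, 770000), (b23, -1901900), (b25, 2695000), (b30, 1901900), (b31, -1901900), (b34, -2050000), (b35, -293750), (b37, 770000), (b41, 293750), (b48, 770000), (b56, -1988500), (b57, -1155000), (b59, 1901900), (b60, 1988500), (b62, -1901900), (b63, 1155000), (b65, 1901900), (b66, -1901900), (b68, 770000), (b72, 1540000), (b77, 1901900), (b78, -1901900), (b81, 770000), (b89, 1901900), (b90, -1901900), (b161, 770000), (b165, 1540000), (b170, 1901900), (b171, -1901900), (b174, 770000), (b182, 1901900), (b183, -1901900)],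
  [(b0, 0), (b1, 1808300), (b2, -498750), (b3, -1988500), (b4, -1925000), (b6, 1901900), (b8, -1808300), (b10, 1988500), (b11, 770000), (b13, -1901900), (b15, 498750), (b16, -1988500), (b19, 1901900), (b20, 1988500), (b21, -770000), (b25, 1925000), (b27, -1901900), (b30, 1901900), (b31, -1901900), (b34, 0), (b37, 0), (b48, 0), (b68, -770000), (b70, 1901900), (b72, 770000), (b74, -1901900), (b77, 1901900), (b78, -1901900), (b81, 0), (b161, -770000), (b163, 1901900), (b165, 770000), (b167, -1901900), (b170, 1901900), (b171, -1901900), (b174, 0)],
  [(b0, 3600000), (b1, 2080000), (b2, -743776), (b3, -4631300), (b5, 1585850), (b8, 2080000), (b9, 1487552), (b10, 2216300), (b12, -3171700), (b15, -743776), (b16, 2216300), (b18, 1585850), (b20, -4631300), (b22, 1585850), (b26, -3171700), (b29, 1585850), (b34, 2080000), (b67, -2415000), (b69, 1585850), (b73, -3171700), (b76, 1585850), (b160, -2415000), (b162, 1585850), (b166, -3171700), (b169, 1585850)],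
  [(b0, 1305000), (b1, -1300000), (b2, -204450), (b3, 630500), (b8, -1300000), (b9, 408900), (b10, -630500), (b15, -204450), (b16, -630500), (b20, 630500), (b34, -1300000)],
  [(b0, -345000), (b1, -1080000), (b2, 54050), (b3, 3606300), (b5, -1349450), (b8, -1080000), (b9, -108100), (b10, -1551300), (b12, 2698900), (b15, 54050), (b16, -1551300), (b18, -1349450), (b20, 3606300), (b22, -1349450), (b26, 2698900), (b29, -1349450), (b34, -1080000), (b67, 2055000), (b69, -1349450), (b73, 2698900), (b76, -1349450), (b160, 2055000), (b162, -1349450), (b166, 2698900), (b169, -1349450)],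
  [(b0, -970000), (b1, -3569150), (b2, 860300), (b3, 5444450), (b4, 2008650), (b5, -1349450), (b6, -1901900), (b8, -1200850), (b9, 8150), (b10, -3239100), (b11, 301350), (b12, 2698900), (b13, 1901900), (b15, -48450), (b16, -1701650), (b17, -853650), (b18, -1349450), (b20, 3606300), (b21, 853650), (b22, -1349450), (b23, -1901900), (b26, 2698900), (b27, 1901900), (b29, -1349450), (b34, -2105000), (b35, 410000), (b37, 385000), (b48, 385000), (b67, 2055000), (b68, 1155000), (b69, -1349450), (b70, -1901900), (b73, 2698900), (b74, 1901900), (b76, -1349450), (b81, 385000), (b160, 2055000), (b161, 1155000), (b162, -1349450), (b163, -1901900), (b166, 2698900), (b167, 1901900), (b169, -1349450), (b174, 385000)],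
  [(b0, -970000), (b1, -1200850), (b2, -48450), (b3, 3606300), (b5, -1349450), (b8, -3569150), (b9, 8150), (b10, -1701650), (b11, 853650), (b12, 2698900), (b15, 860300), (b16, -3239100), (b17, -853650), (b18, -1349450), (b19, 1901900), (b20, 5444450), (b21, 301350), (b22, -1349450), (b23, -1901900), (b25, 2008650), (b26, 2698900), (b29, -1349450), (b30, 1901900), (b31, -1901900), (b34, -2105000), (b37, 385000), (b41, 410000), (b48, 385000), (b67, 2055000), (b69, -1349450), (b72, 1155000), (b73, 2698900), (b76, -1349450), (b77, 1901900), (b78, -1901900), (b81, 385000), (b160, 2055000), (b162, -1349450), (b165, 1155000), (b166, 2698900), (b169, -1349450), (b170, 1901900), (b171, -1901900), (b174, 385000)],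
  [(b0, -970000), (b1, -2105000), (b2, 54050), (b3, 3606300), (b4, 385000), (b5, -1349450), (b8, -2105000), (b9, -108100), (b10, -1551300), (b11, 385000), (b12, 2698900), (b15, 54050), (b16, -1551300), (b18, -1349450), (b20, 3606300), (b21, 385000), (b22, -1349450), (b25, 385000), (b26, 2698900), (b29, -1349450), (b34, -2665000), (b35, 410000), (b36, -150350), (b37, 468650), (b41, 410000), (b42, 300700), (b43, 301350), (b45, -150350), (b46, 301350), (b48, 468650), (b55, 410000), (b67, 2055000), (b68, 385000), (b69, -1349450), (b72, 385000), (b73, 2698900), (b76, -1349450), (b81, 770000), (b160, 2055000), (b161, 385000), (b162, -1349450), (b165, 385000), (b166, 2698900), (b169, -1349450), (b174, 770000)],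
  [(b0, -345000), (b1, -1080000), (b2, 54050), (b3, 3606300), (b5, -1349450), (b8, -1080000), (b9, -108100), (b10, -1551300), (b12, 2698900), (b15, 54050), (b16, -1551300), (b18, -1349450), (b20, 3606300), (b22, -1349450), (b26, 2698900), (b29, -1349450), (b34, -1080000), (b67, 2055000), (b69, -1349450), (b73, 2698900), (b76, -1349450), (b95, 465000), (b96, 410000), (b97, -150350), (b98, -301350), (b102, 410000), (b103, 300700), (b104, 301350), (b106, -150350), (b107, 301350), (b109, -301350), (b116, 410000), (b160, 2055000), (b162, -1349450), (b166, 2698900), (b169, -1349450)],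
  [(b1, -686550), (b2, 1457500), (b4, -732350), (b21, -732350), (b34, 686550), (b37, 732350), (b48, 732350), (b55, -1457500), (b68, -732350), (b81, 732350), (b161, -732350), (b174, 732350)],
  [(b1, -688600), (b2, -2833300), (b3, 498750), (b4, 1988500), (b5, 2310000), (b7, -1901900), (b22, 1155000), (b24, -1901900), (b34, 688600), (b35, 783300), (b36, -293750), (b37, -1988500), (b38, -385000), (b40, 1901900), (b49, -385000), (b51, 1901900), (b55, 2050000), (b56, -205000), (b58, -1925000), (b64, -770000), (b69, 1155000), (b71, -1901900), (b82, -385000), (b84, 1901900), (b88, -770000), (b162, 1155000), (b164, -1901900), (b175, -385000), (b177, 1901900), (b181, -770000)],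
  [(b1, 463750), (b2, -1132500), (b4, 732350), (b21, 732350), (b34, -463750), (b37, -732350), (b48, -732350), (b55, 1132500), (b68, 732350), (b81, -732350), (b161, 732350), (b174, -732350)],
  [(b1, 463750), (b2, -1132500), (b4, 732350), (b21, 732350), (b34, -463750), (b37, -732350), (b48, -732350), (b55, 1132500), (b68, 732350), (b81, -732350), (b161, 732350), (b174, -732350)],
  [(b1, 463750), (b2, -1132500), (b4, 732350), (b21, 732350), (b34, -463750), (b37, -732350), (b48, -732350), (b55, 1132500), (b68, 732350), (b81, -732350), (b161, 732350), (b174, -732350)],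
  [(b1, 463750), (b2, -1132500), (b4, 732350), (b21, 732350), (b34, -463750), (b37, -732350), (b48, -732350), (b55, 1132500), (b68, 732350), (b81, -732350), (b161, 732350), (b174, -732350)],
  [(b1, 463750), (b2, -1132500), (b4, 732350), (b21, 732350), (b34, -463750), (b37, -732350), (b48, -732350), (b55, 1132500), (b68, 732350), (b81, -732350), (b161, 732350), (b174, -732350)],
  [(b1, -1945000), (b2, -1140900), (b3, 5030000), (b4, 3496100), (b5, -5582500), (b6, -2754500), (b7, 2521600), (b21, 675000), (b22, -3662500), (b23, -2754500), (b24, 2521600), (b34, 1945000), (b35, 388400), (b36, -840000), (b37, -1676100), (b38, 3022500), (b39, 2369500), (b40, -2521600), (b48, -675000), (b49, 3022500), (b50, 2369500), (b51, -2521600), (b55, 752500), (b56, -3165000), (b57, -1820000), (b58, 2560000), (b64, 640000), (b67, -1025000), (b68, 675000), (b69, -3662500), (b70, -2369500), (b71, 2521600), (b78, 385000), (b81, -675000), (b82, 3022500), (b83, 2369500), (b84, -2521600), (b88, 640000), (b91, 385000), (b161, 675000), (b162, -3662500), (b163, -2754500), (b164, 2521600), (b174, -675000), (b175, 3022500), (b176, 2369500),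 (b177, -2521600), (b181, 640000), (b184, 385000)],
  [(b1, 67500), (b2, 1094600), (b3, 4050), (b4, -683850), (b34, -67500), (b35, -367100), (b36, -4050), (b37, 683850), (b55, -727500)],
  [(b1, 1167500), (b2, 3822450), (b3, -949950), (b4, -9422750), (b5, -2402900), (b6, 5086200), (b7, 2413250), (b21, -1730000), (b22, -565400), (b23, 5086200), (b24, 2413250), (b34, -1167500), (b35, -1159950), (b36, -70050), (b37, 4232750), (b38, -47100), (b39, -5086200), (b40, -2413250), (b48, 1730000), (b49, -47100), (b50, -5086200), (b51, -2413250), (b55, -2662500), (b56, 1020000), (b57, 5190000), (b58, 2450000), (b64, 612500), (b68, -1730000), (b69, -565400), (b70, 5086200), (b71, 2413250), (b81, 1730000), (b82, -47100), (b83, -5086200), (b84, -2413250), (b88, 612500), (b161, -1730000), (b162, -565400), (b163, 5086200), (b164, 2413250), (b174, 1730000), (b175, -47100), (b176, -5086200), (b177, -2413250), (b181, 612500)],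
  [(b1, 472500), (b2, 4497450), (b3, -414150), (b4, -9740000), (b5, -2776350), (b6, 5086200), (b7, 2413250), (b21, -1730000), (b22, -565400), (b23, 5086200), (b24, 2413250), (b34, -1167500), (b35, -1497450), (b36, -220850), (b37, 4550000), (b38, 326350), (b39, -5086200), (b40, -2413250), (b48, 1730000), (b49, -47100), (b50, -5086200), (b51, -2413250), (b55, -2662500), (b56, 827500), (b57, 5190000), (b58, 2450000), (b64, 612500), (b68, -1730000), (b69, -565400), (b70, 5086200), (b71, 2413250), (b81, 1730000), (b82, -47100), (b83, -5086200), (b84, -2413250), (b88, 612500), (b161, -1730000), (b162, -565400), (b163, 5086200), (b164, 2413250), (b174, 1730000), (b175, -47100), (b176, -5086200), (b177, -2413250), (b181, 612500)],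
  [(b1, 1167500), (b2, 3822450), (b3, -949950), (b4, -9422750), (b5, -2402900), (b6, 5086200), (b7, 2413250), (b9, 337500), (b10, 343300), (b11, -317250), (b12, -373450), (b21, -1730000), (b22, -565400), (b23, 5086200), (b24, 2413250), (b34, -1167500), (b35, -1159950), (b36, -70050), (b37, 4232750), (b38, -47100), (b39, -5086200), (b40, -2413250), (b41, -337500), (b42, -150800), (b43, 317250), (b44, 373450), (b48, 1730000), (b49, -47100), (b50, -5086200), (b51, -2413250), (b55, -2662500), (b56, 1020000), (b57, 5190000), (b58, 2450000), (b60, -192500), (b64, 612500), (b68, -1730000), (b69, -565400), (b70, 5086200), (b71, 2413250), (b81, 1730000), (b82, -47100), (b83, -5086200), (b84, -2413250), (b88, 612500), (b161, -1730000), (b162, -565400), (b163, 5086200), (b164, 2413250), (b174, 1730000), (b175, -47100), (b176, -5086200), (b177, -2413250), (b181, 612500)],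
  [(b1, 1862500), (b2, 3484950), (b3, -1142450), (b4, -9422750), (b5, -2402900), (b6, 5086200), (b7, 2413250), (b21, -1730000), (b22, -565400), (b23, 5086200), (b24, 2413250), (b34, 222500), (b35, -822450), (b36, 273250), (b37, 3915500), (b38, -420550), (b39, -5086200), (b40, -2413250), (b48, 1730000), (b49, -47100), (b50, -5086200), (b51, -2413250), (b55, -3675000), (b56, 869200), (b57, 5507250), (b58, 2823450), (b64, 612500), (b67, -577500), (b68, -1730000), (b69, -565400), (b70, 5086200), (b71, 2413250), (b81, 1730000), (b82, -47100), (b83, -5086200), (b84, -2413250), (b88, 612500), (b161, -1730000), (b162, -565400), (b163, 5086200), (b164, 2413250), (b174, 1730000), (b175, -47100), (b176, -5086200), (b177, -2413250), (b181, 612500)],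
  [(b1, 1167500), (b2, 3822450), (b3, -949950), (b4, -9422750), (b5, -2402900), (b6, 5086200), (b7, 2413250), (b21, -1730000), (b22, -565400), (b23, 5086200), (b24, 2413250), (b34, -1167500), (b35, -1159950), (b36, -70050), (b37, 4232750), (b38, -47100), (b39, -5086200), (b40, -2413250), (b48, 1730000), (b49, -47100), (b50, -5086200), (b51, -2413250), (b55, -2662500), (b56, 1020000), (b57, 5190000), (b58, 2450000), (b64, 612500), (b68, -1730000), (b69, -565400), (b70, 5086200), (b71, 2413250), (b81, 1730000), (b82, -47100), (b83, -5086200), (b84, -2413250), (b88, 612500), (b96, 337500), (b97, 343300), (b98, -317250), (b99, -373450), (b116, -337500), (b117, -150800), (b118, 317250), (b119, 373450), (b123, -192500), (b161, -1730000), (b162, -565400), (b163, 5086200), (b164, 2413250), (b174, 1730000), (b175, -47100), (b176, -5086200), (b177, -2413250), (b181, 612500)],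
  [(b0, 1200000), (b1, 2080000), (b2, -1487552), (b3, -5237600), (b5, 3171700), (b9, 1487552), (b10, 2216300), (b12, -3171700), (b16, 2216300), (b20, -805000), (b22, 3171700), (b26, -3171700), (b35, 1487552), (b36, 2216300), (b38, -3171700), (b41, -1487552), (b44, 3171700), (b45, -2216300), (b49, -3171700), (b52, 3171700), (b56, 2216300), (b60, -2216300), (b67, -805000), (b69, 3171700), (b73, -3171700), (b82, -3171700), (b85, 3171700), (b160, -805000), (b162, 3171700), (b166, -3171700), (b175, -3171700), (b178, 3171700)],
  [(b0, 435000), (b1, -1300000), (b2, -408900), (b3, 1261000), (b9, 408900), (b10, -630500), (b16, -630500), (b35, 408900), (b36, -630500), (b41, -408900), (b45, 630500), (b56, -630500), (b60, 630500)]]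

/-- Coefficient rows, group 7. -/
def rows7 : List Row := [
  [(b0, -115000), (b1, -1080000), (b2, 108100), (b3, 3787600), (b5, -2698900), (b9, -108100), (b10, -1551300), (b12, 2698900), (b16, -1551300), (b20, 685000), (b22, -2698900), (b26, 2698900), (b35, -108100), (b36, -1551300), (b38, 2698900), (b41, 108100), (b44, -2698900), (b45, 1551300), (b49, 2698900), (b52, -2698900), (b56, -1551300), (b60, 1551300), (b67, 685000), (b69, -2698900), (b73, 2698900), (b82, 2698900), (b85, -2698900), (b160, 685000), (b162, -2698900), (b166, 2698900), (b175, 2698900), (b178, -2698900)],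
  [(b0, -740000), (b1, -4783300), (b2, 1310600), (b3, 7463900), (b4, 3247300), (b5, -2698900), (b6, -3803800), (b8, -120850), (b9, -401850), (b10, -3239100), (b11, 301350), (b12, 2698900), (b13, 1901900), (b15, -102500), (b16, -1551300), (b17, -853650), (b20, 685000), (b21, 1540000), (b22, -2698900), (b23, -3803800), (b26, 2698900), (b27, 1901900), (b34, -120850), (b35, -401850), (b36, -3239100), (b37, 301350), (b38, 2698900), (b39, 1901900), (b41, 108100), (b42, -300700), (b44, -2698900), (b45, 1551300), (b46, -301350), (b49, 2698900), (b50, 1901900), (b52, -2698900), (b55, -102500), (b56, -1551300), (b57, -853650), (b60, 1551300), (b61, -301350), (b67, 685000), (b68, 1540000), (b69, -2698900), (b70, -3803800), (b73, 2698900), (b74, 1901900), (b82, 2698900), (b83, 1901900), (b85, -2698900), (b160, 685000), (b161, 1540000), (b162, -2698900), (b163, -3803800), (b166, 2698900), (b167, 1901900), (b175, 2698900), (b176, 1901900), (b178, -2698900)],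
  [(b0, -115000), (b1, -1200850), (b2, 5600), (b3, 3787600), (b5, -2698900), (b8, 155000), (b9, 8150), (b10, -1852000), (b11, -602700), (b12, 2698900), (b16, -3239100), (b17, -853650), (b19, 1901900), (b20, 685000), (b21, 301350), (b22, -2698900), (b26, 2698900), (b30, 1901900), (b34, 120850), (b35, -108100), (b36, -1551300), (b38, 2698900), (b41, 401850), (b42, 300700), (b43, 301350), (b44, -2698900), (b45, 3239100), (b47, -1901900), (b48, -301350), (b49, 2698900), (b52, -2698900), (b53, -1901900), (b55, 102500), (b56, -1551300), (b60, 1551300), (b61, 301350), (b63, 853650), (b67, 685000), (b69, -2698900), (b73, 2698900), (b77, 1901900), (b82, 2698900), (b85, -2698900), (b86, -1901900), (b160, 685000), (b162, -2698900), (b166, 2698900), (b170, 1901900), (b175, 2698900), (b178, -2698900), (b179, -1901900)],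
  [(b0, -115000), (b1, -1200850), (b2, 5600), (b3, 3787600), (b5, -2698900), (b8, 120850), (b9, -108100), (b10, -1551300), (b12, 2698900), (b15, 102500), (b16, -1551300), (b20, 685000), (b22, -2698900), (b26, 2698900), (b34, 155000), (b35, 8150), (b36, -1852000), (b37, -602700), (b38, 2698900), (b41, 401850), (b42, 300700), (b43, 301350), (b44, -2698900), (b45, 1551300), (b46, 301350), (b49, 2698900), (b52, -2698900), (b56, -3239100), (b57, -853650), (b59, 1901900), (b60, 3239100), (b62, -1901900), (b63, 853650), (b65, 1901900), (b66, -1901900), (b67, 685000), (b68, 301350), (b69, -2698900), (b72, -301350), (b73, 2698900), (b82, 2698900), (b85, -2698900), (b89, 1901900), (b90, -1901900), (b160, 685000), (b162, -2698900), (b166, 2698900), (b175, 2698900), (b178, -2698900), (b182, 1901900), (b183, -1901900)],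
  [(b0, -115000), (b1, -1080000), (b2, 108100), (b3, 3787600), (b5, -2698900), (b9, -108100), (b10, -1551300), (b12, 2698900), (b16, -1551300), (b20, 685000), (b22, -2698900), (b26, 2698900), (b35, -108100), (b36, -1551300), (b38, 2698900), (b41, 108100), (b44, -2698900), (b45, 1551300), (b49, 2698900), (b52, -2698900), (b56, -1551300), (b60, 1551300), (b67, 685000), (b69, -2698900), (b73, 2698900), (b82, 2698900), (b85, -2698900), (b95, 155000), (b96, 410000), (b97, -300700), (b98, -602700), (b103, 300700), (b104, 301350), (b107, 301350), (b117, 300700), (b118, 301350), (b120, -300700), (b121, -301350), (b124, 301350), (b126, -301350), (b160, 685000), (b162, -2698900), (b166, 2698900), (b175, 2698900), (b178, -2698900)],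
  [(b0, -625000), (b1, -2833300), (b2, 498750), (b3, 1988500), (b4, 2310000), (b6, -1901900), (b8, -1025000), (b9, 293750), (b11, 385000), (b16, 1988500), (b17, 1155000), (b19, -1901900), (b21, 1155000), (b23, -1901900), (b25, 385000), (b30, -1901900), (b34, -241700), (b35, -293750), (b36, -1988500), (b39, 1901900), (b41, -293750), (b45, -1988500), (b47, 1901900), (b50, 1901900), (b53, 1901900), (b55, -205000), (b57, -1155000), (b63, -1155000), (b68, 1155000), (b70, -1901900), (b72, 385000), (b77, -1901900), (b83, 1901900), (b86, 1901900), (b161, 1155000), (b163, -1901900), (b165, 385000), (b170, -1901900), (b176, 1901900), (b179, 1901900)],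
  [(b0, -1250000), (b1, -2291700), (b2, -205000), (b4, 770000), (b8, -2050000), (b9, -293750), (b11, 770000), (b16, -1988500), (b17, -1155000), (b19, 1901900), (b21, 770000), (b25, 770000), (b30, 1901900), (b34, -3858300), (b35, -293750), (b37, 1540000), (b41, 293750), (b45, 1988500), (b47, -1901900), (b48, 1540000), (b53, -1901900), (b55, 498750), (b56, -1988500), (b57, -1155000), (b59, 1901900), (b63, 1155000), (b65, 1901900), (b67, 1988500), (b68, 770000), (b70, -1901900), (b72, 770000), (b77, 1901900), (b78, -1901900), (b81, 2695000), (b86, -1901900), (b89, 1901900), (b91, -1901900), (b161, 770000), (b165, 770000), (b170, 1901900), (b174, 1540000), (b179, -1901900), (b182, 1901900), (b184, -1901900)],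
  [(b0, 625000), (b1, 1025000), (b2, 0), (b3, 0), (b4, -385000), (b6, 0), (b8, 241700), (b9, 293750), (b10, 1988500), (b13, -1901900), (b15, 205000), (b17, 1155000), (b21, -385000), (b23, 0), (b27, -1901900), (b34, 2833300), (b35, -293750), (b36, -1988500), (b37, -1155000), (b39, 1901900), (b41, 293750), (b48, -1155000), (b50, 1901900), (b55, -498750), (b56, 0), (b57, -1155000), (b59, 0), (b60, 1988500), (b62, -1901900), (b63, 1155000), (b65, 0), (b66, -1901900), (b67, -1988500), (b68, -385000), (b70, 1901900), (b74, -1901900), (b78, 1901900), (b81, -2310000), (b83, 1901900), (b89, 0), (b90, -1901900), (b91, 1901900), (b161, -385000), (b163, 0), (b167, -1901900), (b174, -1155000), (b176, 1901900), (b182, 0), (b183, -1901900), (b184, 1901900)],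
  [(b0, 2400000), (b1, 2080000), (b2, -743776), (b3, -3826300), (b5, 1585850), (b20, -1610000), (b22, 1585850), (b34, 2080000), (b35, 1487552), (b36, 2216300), (b38, -3171700), (b49, -3171700), (b55, -743776), (b56, 2216300), (b58, 1585850), (b64, 1585850), (b67, -3826300), (b69, 1585850), (b82, -3171700), (b88, 1585850), (b160, -1610000), (b162, 1585850), (b175, -3171700), (b181, 1585850)],
  [(b0, 870000), (b1, -1300000), (b2, -204450), (b3, 630500), (b34, -1300000), (b35, 408900), (b36, -630500), (b55, -204450), (b56, -630500), (b67, 630500)],
  [(b0, -230000), (b1, -1080000), (b2, 54050), (b3, 2921300), (b5, -1349450), (b20, 1370000), (b22, -1349450), (b34, -1080000), (b35, -108100), (b36, -1551300), (b38, 2698900), (b49, 2698900), (b55, 54050), (b56, -1551300), (b58, -1349450), (b64, -1349450), (b67, 2921300), (b69, -1349450), (b82, 2698900), (b88, -1349450), (b160, 1370000), (b162, -1349450), (b175, 2698900), (b181, -1349450)],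
  [(b0, -855000), (b1, -3724150), (b2, 860300), (b3, 4759450), (b4, 2008650), (b5, -1349450), (b6, -1901900), (b20, 1370000), (b21, 1155000), (b22, -1349450), (b23, -1901900), (b34, -2225850), (b35, 8150), (b36, -3239100), (b37, 686350), (b38, 2698900), (b39, 1901900), (b48, 385000), (b49, 2698900), (b50, 1901900), (b55, -48450), (b56, -1701650), (b57, -853650), (b58, -1349450), (b64, -1349450), (b67, 2921300), (b68, 853650), (b69, -1349450), (b70, -1901900), (b81, 385000), (b82, 2698900), (b83, 1901900), (b88, -1349450), (b160, 1370000), (b161, 1155000), (b162, -1349450), (b163, -1901900), (b174, 385000), (b175, 2698900), (b176, 1901900), (b181, -1349450)],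
  [(b0, -230000), (b1, -1080000), (b2, 54050), (b3, 2921300), (b5, -1349450), (b8, 310000), (b9, 410000), (b10, -150350), (b11, -301350), (b20, 1370000), (b22, -1349450), (b34, -1080000), (b35, -108100), (b36, -1551300), (b38, 2698900), (b41, 410000), (b42, 300700), (b43, 301350), (b49, 2698900), (b55, 54050), (b56, -1551300), (b58, -1349450), (b60, -150350), (b61, 301350), (b64, -1349450), (b67, 2921300), (b69, -1349450), (b72, -301350), (b82, 2698900), (b88, -1349450), (b160, 1370000), (b162, -1349450), (b175, 2698900), (b181, -1349450)],
  [(b0, -855000), (b1, -2225850), (b2, -48450), (b3, 2921300), (b4, 385000), (b5, -1349450), (b20, 1370000), (b21, 385000), (b22, -1349450), (b34, -3724150), (b35, 8150), (b36, -1701650), (b37, 853650), (b38, 2698900), (b48, 1155000), (b49, 2698900), (b55, 860300), (b56, -3239100), (b57, -853650), (b58, -1349450), (b59, 1901900), (b64, -1349450), (b65, 1901900), (b67, 4759450), (b68, 686350), (b69, -1349450), (b70, -1901900), (b78, -1901900), (b81, 2008650), (b82, 2698900), (b88, -1349450), (b89, 1901900), (b91, -1901900), (b160, 1370000), (b161, 385000), (b162, -1349450),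 (b174, 1155000), (b175, 2698900), (b181, -1349450), (b182, 1901900), (b184, -1901900)],
  [(b0, -230000), (b1, -1080000), (b2, 54050), (b3, 2921300), (b5, -1349450), (b20, 1370000), (b22, -1349450), (b34, -1080000), (b35, -108100), (b36, -1551300), (b38, 2698900), (b49, 2698900), (b55, 54050), (b56, -1551300), (b58, -1349450), (b64, -1349450), (b67, 2921300), (b69, -1349450), (b82, 2698900), (b88, -1349450), (b95, 310000), (b96, 410000), (b97, -150350), (b98, -301350), (b116, 410000), (b117, 300700), (b118, 301350), (b123, -150350), (b124, 301350), (b128, -301350), (b160, 1370000), (b162, -1349450), (b175, 2698900), (b181, -1349450)],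
  [(b1, -686550), (b2, 1457500), (b4, -732350), (b21, -732350), (b34, 686550), (b37, 732350), (b48, 732350), (b55, -1457500), (b68, -732350), (b81, 732350), (b161, -732350), (b174, 732350)],
  [(b1, -688600), (b2, -2050000), (b5, 770000), (b9, -783300), (b10, 205000), (b12, 385000), (b16, 293750), (b21, 1988500), (b22, 1925000), (b24, -1901900), (b26, 385000), (b32, -1901900), (b34, 688600), (b41, 783300), (b44, -385000), (b45, -293750), (b48, -1988500), (b51, 1901900), (b52, -385000), (b54, 1901900), (b55, 2050000), (b58, -770000), (b60, -205000), (b64, -1925000), (b69, 770000), (b73, 385000), (b79, -1901900), (b85, -385000), (b87, 1901900), (b88, -770000), (b162, 770000), (b166, 385000), (b172, -1901900), (b178, -385000), (b180, 1901900), (b181, -770000)],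
  [(b1, 463750), (b2, -1132500), (b4, 732350), (b21, 732350), (b34, -463750), (b37, -732350), (b48, -732350), (b55, 1132500), (b68, 732350), (b81, -732350), (b161, 732350), (b174, -732350)],
  [(b1, 463750), (b2, -1132500), (b4, 732350), (b21, 732350), (b34, -463750), (b37, -732350), (b48, -732350), (b55, 1132500), (b68, 732350), (b81, -732350), (b161, 732350), (b174, -732350)],
  [(b1, 463750), (b2, -1132500), (b4, 732350), (b21, 732350), (b34, -463750), (b37, -732350), (b48, -732350), (b55, 1132500), (b68, 732350), (b81, -732350), (b161, 732350), (b174, -732350)],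
  [(b1, 463750), (b2, -1132500), (b4, 732350), (b21, 732350), (b34, -463750), (b37, -732350), (b48, -732350), (b55, 1132500), (b68, 732350), (b81, -732350), (b161, 732350), (b174, -732350)],
  [(b1, 463750), (b2, -1132500), (b4, 732350), (b21, 732350), (b34, -463750), (b37, -732350), (b48, -732350), (b55, 1132500), (b68, 732350), (b81, -732350), (b161, 732350), (b174, -732350)],
  [(b1, -1945000), (b2, -752500), (b3, 1025000), (b4, 675000), (b5, -640000), (b6, -385000), (b9, -388400), (b10, 3165000), (b12, -3022500), (b16, 840000), (b17, 1820000), (b19, -2369500), (b21, 1676100), (b22, -2560000), (b23, -385000), (b24, 2521600), (b26, -3022500), (b30, -2369500), (b32, 2521600), (b34, 1945000), (b37, -675000), (b41, 388400), (b44, 3022500), (b45, -840000), (b47, 2369500), (b48, -1676100), (b51, -2521600), (b52, 3022500), (b53, 2369500), (b54, -2521600), (b55, 752500), (b58, 640000), (b60, -3165000), (b63, -1820000), (b64, 2560000), (b67, -1025000), (b68, 675000), (b69, -640000), (b70, 0), (b73, -3022500), (b77, -2369500), (b78, 385000), (b79, 2521600), (b81, -675000), (b85, 3022500), (b86, 2369500), (b87,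 -2521600), (b88, 640000), (b91, 385000), (b161, 675000), (b162, -640000), (b163, -385000), (b166, -3022500), (b170, -2369500), (b172, 2521600), (b174, -675000), (b178, 3022500), (b179, 2369500), (b180, -2521600), (b181, 640000), (b184, 385000)],
  [(b1, 67500), (b2, 727500), (b9, 367100), (b16, 4050), (b21, -683850), (b34, -67500), (b41, -367100), (b45, -4050), (b48, 683850), (b55, -727500)],
  [(b1, 1167500), (b2, 2662500), (b4, -1730000), (b5, -612500), (b9, 1159950), (b10, -1020000), (b12, 47100), (b16, 70050), (b17, -5190000), (b19, 5086200), (b21, -4232750), (b22, -2450000), (b24, 2413250), (b26, 47100), (b30, 5086200), (b32, 2413250), (b34, -1167500), (b37, 1730000), (b41, -1159950), (b44, -47100), (b45, -70050), (b47, -5086200), (b48, 4232750), (b51, -2413250), (b52, -47100), (b53, -5086200), (b54, -2413250), (b55, -2662500), (b58, 612500), (b60, 1020000), (b63, 5190000), (b64, 2450000), (b68, -1730000), (b69, -612500), (b73, 47100), (b77, 5086200), (b79, 2413250), (b81, 1730000), (b85, -47100), (b86, -5086200), (b87, -2413250), (b88, 612500), (b161, -1730000), (b162, -612500), (b166, 47100), (b170,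 5086200), (b172, 2413250), (b174, 1730000), (b178, -47100), (b179, -5086200), (b180, -2413250), (b181, 612500)]]

/-- Coefficient rows, group 8. -/
def rows8 : List Row := [
  [(b1, -222500), (b2, 3675000), (b3, 577500), (b4, -1730000), (b5, -612500), (b8, -695000), (b9, 1159950), (b10, -869200), (b12, 47100), (b15, 337500), (b16, 70050), (b17, -5507250), (b19, 5086200), (b20, 192500), (b21, -4232750), (b22, -2823450), (b24, 2413250), (b26, 47100), (b30, 5086200), (b32, 2413250), (b34, -1167500), (b35, -337500), (b37, 1730000), (b41, -1159950), (b42, -150800), (b44, -47100), (b45, -70050), (b46, 317250), (b47, -5086200), (b48, 4232750), (b49, 373450), (b51, -2413250), (b52, -47100), (b53, -5086200), (b54, -2413250), (b55, -2662500), (b56, -192500), (b58, 612500), (b60, 1020000), (b63, 5190000), (b64, 2450000), (b68, -1730000), (b69, -612500), (b73, 47100), (b77, 5086200), (b79, 2413250), (b81, 1730000), (b85, -47100), (b86, -5086200), (b87, -2413250), (b88, 612500), (b161, -1730000), (b162, -612500), (b166, 47100), (b170, 5086200), (b172, 2413250), (b174, 1730000), (b178, -47100), (b179, -5086200), (b180,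 -2413250), (b181, 612500)],
  [(b1, 1167500), (b2, 2662500), (b4, -1730000), (b5, -612500), (b9, 1497450), (b10, -827500), (b12, 47100), (b16, 220850), (b17, -5190000), (b19, 5086200), (b21, -4550000), (b22, -2450000), (b24, 2413250), (b26, -326350), (b30, 5086200), (b32, 2413250), (b34, -1167500), (b37, 1730000), (b41, -1497450), (b44, -47100), (b45, -220850), (b47, -5086200), (b48, 4550000), (b51, -2413250), (b52, 326350), (b53, -5086200), (b54, -2413250), (b55, -2662500), (b58, 612500), (b60, 827500), (b63, 5190000), (b64, 2450000), (b68, -1730000), (b69, -612500), (b73, 47100), (b77, 5086200), (b79, 2413250), (b81, 1730000), (b85, -47100), (b86, -5086200), (b87, -2413250), (b88, 612500), (b161, -1730000), (b162, -612500), (b166, 47100), (b170, 5086200), (b172, 2413250), (b174, 1730000), (b178, -47100), (b179, -5086200), (b180, -2413250), (b181, 612500)],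
  [(b1, 1167500), (b2, 2662500), (b4, -1730000), (b5, -612500), (b8, 695000), (b9, 1159950), (b10, -1020000), (b12, 47100), (b15, -337500), (b16, 70050), (b17, -5190000), (b19, 5086200), (b20, -192500), (b21, -4232750), (b22, -2450000), (b24, 2413250), (b26, 47100), (b30, 5086200), (b32, 2413250), (b34, 222500), (b35, 337500), (b36, 192500), (b37, 1730000), (b41, -1159950), (b42, 150800), (b44, -47100), (b45, -70050), (b46, -317250), (b47, -5086200), (b48, 4232750), (b49, -373450), (b51, -2413250), (b52, -47100), (b53, -5086200), (b54, -2413250), (b55, -3675000), (b58, 612500), (b60, 869200), (b63, 5507250), (b64, 2823450), (b67, -577500), (b68, -1730000), (b69, -612500), (b73, 47100), (b77, 5086200), (b79, 2413250), (b81, 1730000), (b85, -47100), (b86, -5086200), (b87, -2413250), (b88, 612500), (b161, -1730000), (b162, -612500), (b166, 47100), (b170, 5086200), (b172, 2413250), (b174, 1730000), (b178, -47100), (b179, -5086200), (b180, -2413250), (b181, 612500)],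
  [(b1, 1167500), (b2, 2662500), (b4, -1730000), (b5, -612500), (b9, 1159950), (b10, -1020000), (b12, 47100), (b16, 70050), (b17, -5190000), (b19, 5086200), (b21, -4232750), (b22, -2450000), (b24, 2413250), (b26, 47100), (b30, 5086200), (b32, 2413250), (b34, -1167500), (b37, 1730000), (b41, -1159950), (b44, -47100), (b45, -70050), (b47, -5086200), (b48, 4232750), (b51, -2413250), (b52, -47100), (b53, -5086200), (b54, -2413250), (b55, -2662500), (b58, 612500), (b60, 1020000), (b63, 5190000), (b64, 2450000), (b68, -1730000), (b69, -612500), (b73, 47100), (b77, 5086200), (b79, 2413250), (b81, 1730000), (b85, -47100), (b86, -5086200), (b87, -2413250), (b88, 612500), (b96, 337500), (b97, 192500), (b103, 150800), (b107, -317250), (b110, -373450), (b116, -337500), (b120, -150800), (b121, 317250), (b122, 373450), (b123, -192500), (b161, -1730000), (b162, -612500), (b166, 47100), (b170, 5086200), (b172, 2413250), (b174, 1730000), (b178, -47100), (b179, -5086200), (b180, -2413250), (b181, 612500)],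
  [(b0, 625000), (b1, 1025000), (b2, 0), (b3, 0), (b4, -385000), (b6, 0), (b8, 2833300), (b9, -293750), (b10, -1988500), (b11, -1155000), (b13, 1901900), (b15, -498750), (b16, 0), (b17, -1155000), (b19, 0), (b20, -1988500), (b21, -385000), (b23, 1901900), (b25, -2310000), (b27, 1901900), (b30, 0), (b31, 1901900), (b34, 241700), (b35, 293750), (b36, 1988500), (b39, -1901900), (b41, 293750), (b45, 1988500), (b47, -1901900), (b50, -1901900), (b53, -1901900), (b55, 205000), (b57, 1155000), (b63, 1155000), (b68, -385000), (b70, 0), (b72, -1155000), (b74, 1901900), (b77, 0), (b78, 1901900), (b83, -1901900), (b86, -1901900), (b161, -385000), (b163, 0), (b165, -1155000), (b167, 1901900), (b170, 0), (b171, 1901900), (b176, -1901900), (b179, -1901900)],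
  [(b0, 3600000), (b1, 4160000), (b2, -1487552), (b3, -6847600), (b5, 3171700), (b8, 2080000), (b9, 1487552), (b10, 2216300), (b12, -3171700), (b16, 2216300), (b20, -2415000), (b22, 3171700), (b26, -3171700), (b35, 1487552), (b36, 2216300), (b38, -3171700), (b41, -1487552), (b44, 3171700), (b45, -2216300), (b49, -3171700), (b52, 3171700), (b56, 2216300), (b60, -2216300), (b67, -2415000), (b69, 3171700), (b73, -3171700), (b82, -3171700), (b85, 3171700), (b160, -2415000), (b162, 3171700), (b166, -3171700), (b175, -3171700), (b178, 3171700)],
  [(b0, 1305000), (b1, -2600000), (b2, -408900), (b3, 1261000), (b8, -1300000), (b9, 408900), (b10, -630500), (b16, -630500), (b35, 408900), (b36, -630500), (b41, -408900), (b45, 630500), (b56, -630500), (b60, 630500)],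
  [(b0, -345000), (b1, -2160000), (b2, 108100), (b3, 5157600), (b5, -2698900), (b8, -1080000), (b9, -108100), (b10, -1551300), (b12, 2698900), (b16, -1551300), (b20, 2055000), (b22, -2698900), (b26, 2698900), (b35, -108100), (b36, -1551300), (b38, 2698900), (b41, 108100), (b44, -2698900), (b45, 1551300), (b49, 2698900), (b52, -2698900), (b56, -1551300), (b60, 1551300), (b67, 2055000), (b69, -2698900), (b73, 2698900), (b82, 2698900), (b85, -2698900), (b160, 2055000), (b162, -2698900), (b166, 2698900), (b175, 2698900), (b178, -2698900)],
  [(b0, -1595000), (b1, -7603300), (b2, 1720600), (b3, 8833900), (b4, 4017300), (b5, -2698900), (b6, -3803800), (b8, -3250850), (b9, 8150), (b10, -3239100), (b11, 1071350), (b12, 2698900), (b13, 1901900), (b15, -102500), (b16, -1551300), (b17, -853650), (b20, 2055000), (b21, 2310000), (b22, -2698900), (b23, -3803800), (b25, 770000), (b26, 2698900), (b27, 1901900), (b34, -120850), (b35, -401850), (b36, -3239100), (b37, 301350), (b38, 2698900), (b39, 1901900), (b41, 108100), (b42, -300700), (b44, -2698900), (b45, 1551300), (b46, -301350), (b49, 2698900), (b50, 1901900), (b52,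 -2698900), (b55, -102500), (b56, -1551300), (b57, -853650), (b60, 1551300), (b61, -301350), (b67, 2055000), (b68, 2310000), (b69, -2698900), (b70, -3803800), (b72, 770000), (b73, 2698900), (b74, 1901900), (b82, 2698900), (b83, 1901900), (b85, -2698900), (b160, 2055000), (b161, 2310000), (b162, -2698900), (b163, -3803800), (b165, 770000), (b166, 2698900), (b167, 1901900), (b175, 2698900), (b176, 1901900), (b178, -2698900)],
  [(b0, -970000), (b1, -4330850), (b2, 5600), (b3, 5157600), (b4, 770000), (b5, -2698900), (b8, -2665000), (b9, 418150), (b10, -1852000), (b11, 167300), (b12, 2698900), (b15, 410000), (b16, -3239100), (b17, -853650), (b19, 1901900), (b20, 2055000), (b21, 1071350), (b22, -2698900), (b25, 770000), (b26, 2698900), (b30, 1901900), (b34, 120850), (b35, -108100), (b36, -1551300), (b38, 2698900), (b41, 401850), (b42, 300700), (b43, 301350), (b44, -2698900), (b45, 3239100), (b47, -1901900), (b48, -301350), (b49, 2698900), (b52, -2698900), (b53, -1901900), (b55, 102500), (b56, -1551300), (b60, 1551300), (b61, 301350), (b63, 853650), (b67, 2055000), (b68, 770000), (b69, -2698900), (b72, 770000),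 (b73, 2698900), (b77, 1901900), (b82, 2698900), (b85, -2698900), (b86, -1901900), (b160, 2055000), (b161, 770000), (b162, -2698900), (b165, 770000), (b166, 2698900), (b170, 1901900), (b175, 2698900), (b178, -2698900), (b179, -1901900)],
  [(b0, -345000), (b1, -2280850), (b2, 5600), (b3, 5157600), (b5, -2698900), (b8, -959150), (b9, -108100), (b10, -1551300), (b12, 2698900), (b15, 102500), (b16, -1551300), (b20, 2055000), (b22, -2698900), (b26, 2698900), (b34, 465000), (b35, 418150), (b36, -1852000), (b37, -602700), (b38, 2698900), (b41, 811850), (b42, 300700), (b43, 301350), (b44, -2698900), (b45, 1551300), (b46, 301350), (b49, 2698900), (b52, -2698900), (b56, -3239100), (b57, -853650), (b59, 1901900), (b60, 3239100), (b62, -1901900), (b63, 853650), (b65, 1901900), (b66, -1901900), (b67, 2055000), (b68, 301350), (b69, -2698900), (b72, -301350), (b73, 2698900), (b82, 2698900), (b85, -2698900), (b89, 1901900), (b90, -1901900), (b160, 2055000), (b162, -2698900), (b166, 2698900), (b175, 2698900), (b178, -2698900), (b182, 1901900), (b183, -1901900)],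
  [(b0, -345000), (b1, -2160000), (b2, 108100), (b3, 5157600), (b5, -2698900), (b8, -1080000), (b9, -108100), (b10, -1551300), (b12, 2698900), (b16, -1551300), (b20, 2055000), (b22, -2698900), (b26, 2698900), (b35, -108100), (b36, -1551300), (b38, 2698900), (b41, 108100), (b44, -2698900), (b45, 1551300), (b49, 2698900), (b52, -2698900), (b56, -1551300), (b60, 1551300), (b67, 2055000), (b69, -2698900), (b73, 2698900), (b82, 2698900), (b85, -2698900), (b95, 465000), (b96, 820000), (b97, -300700), (b98, -602700), (b102, 410000), (b103, 300700), (b104, 301350), (b107, 301350), (b117, 300700), (b118, 301350), (b120, -300700), (b121, -301350), (b124, 301350), (b126, -301350), (b160, 2055000), (b162, -2698900), (b166, 2698900), (b175, 2698900), (b178, -2698900)],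
  [(b0, 0), (b1, 1808300), (b2, -498750), (b3, -1988500), (b4, -1925000), (b6, 1901900), (b8, 0), (b11, 0), (b21, -770000), (b23, 1901900), (b25, 0), (b34, -1808300), (b36, 1988500), (b37, 770000), (b39, -1901900), (b48, 770000), (b50, -1901900), (b55, 498750), (b56, -1988500), (b59, 1901900), (b65, 1901900), (b67, 1988500), (b68, -770000), (b72, 0), (b78, -1901900), (b81, 1925000), (b83, -1901900), (b89, 1901900), (b91, -1901900), (b161, -770000), (b163, 1901900), (b165, 0), (b174, 770000), (b176, -1901900), (b182, 1901900), (b184, -1901900)],
  [(b0, -1875000), (b1, -2533400), (b2, -410000), (b4, 770000), (b8, -4883300), (b9, -587500), (b11, 1925000), (b15, 498750), (b16, -3977000), (b17, -2310000), (b19, 3803800), (b20, 1988500), (b21, 770000), (b23, -1901900), (b25, 3080000), (b30, 3803800), (b31, -1901900), (b34, -4883300), (b35, -587500), (b37, 1925000), (b41, 587500), (b45, 1988500), (b47, -1901900), (b48, 1925000), (b53, -1901900), (b55, 498750), (b56, -3977000), (b57, -2310000), (b59, 3803800), (b60, 1988500), (b62, -1901900), (b63, 2310000), (b65, 3803800), (b66, -1901900), (b67, 1988500), (b68,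 770000), (b70, -1901900), (b72, 1925000), (b77, 3803800), (b78, -3803800), (b81, 3080000), (b86, -1901900), (b89, 3803800), (b90, -1901900), (b91, -1901900), (b161, 770000), (b165, 1925000), (b170, 3803800), (b171, -1901900), (b174, 1925000), (b179, -1901900), (b182, 3803800), (b183, -1901900), (b184, -1901900)],
  [(b0, -1250000), (b1, -3858300), (b2, 498750), (b3, 1988500), (b4, 2695000), (b6, -1901900), (b8, -2050000), (b9, 293750), (b11, 770000), (b16, 1988500), (b17, 1155000), (b19, -1901900), (b21, 1540000), (b23, -1901900), (b25, 770000), (b30, -1901900), (b34, -2291700), (b35, -293750), (b36, -1988500), (b37, 770000), (b39, 1901900), (b41, -293750), (b45, -1988500), (b47, 1901900), (b48, 770000), (b50, 1901900), (b53, 1901900), (b55, -205000), (b57, -1155000), (b63, -1155000), (b68, 1540000), (b70, -1901900), (b72, 770000), (b77, -1901900), (b81, 770000), (b83, 1901900), (b86, 1901900), (b161, 1540000), (b163, -1901900), (b165, 770000), (b170, -1901900), (b174, 770000), (b176, 1901900), (b179, 1901900)],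
  [(b0, 3600000), (b1, 2080000), (b2, -743776), (b3, -4631300), (b5, 1585850), (b8, 2080000), (b20, -2415000), (b22, 1585850), (b34, 2080000), (b35, 1487552), (b36, 2216300), (b38, -3171700), (b49, -3171700), (b55, -743776), (b56, 2216300), (b58, 1585850), (b64, 1585850), (b67, -4631300), (b69, 1585850), (b82, -3171700), (b88, 1585850), (b160, -2415000), (b162, 1585850), (b175, -3171700), (b181, 1585850)],
  [(b0, 1305000), (b1, -1300000), (b2, -204450), (b3, 630500), (b8, -1300000), (b34, -1300000), (b35, 408900), (b36, -630500), (b55, -204450), (b56, -630500), (b67, 630500)],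
  [(b0, -345000), (b1, -1080000), (b2, 54050), (b3, 3606300), (b5, -1349450), (b8, -1080000), (b20, 2055000), (b22, -1349450), (b34, -1080000), (b35, -108100), (b36, -1551300), (b38, 2698900), (b49, 2698900), (b55, 54050), (b56, -1551300), (b58, -1349450), (b64, -1349450), (b67, 3606300), (b69, -1349450), (b82, 2698900), (b88, -1349450), (b160, 2055000), (b162, -1349450), (b175, 2698900), (b181, -1349450)],
  [(b0, -970000), (b1, -3569150), (b2, 860300), (b3, 5444450), (b4, 2008650), (b5, -1349450), (b6, -1901900), (b8, -2105000), (b9, 410000), (b11, 385000), (b20, 2055000), (b21, 1155000), (b22, -1349450), (b23, -1901900), (b25, 385000), (b34, -1200850), (b35, 8150), (b36, -3239100), (b37, 301350), (b38, 2698900), (b39, 1901900), (b49, 2698900), (b50, 1901900), (b55, -48450), (b56, -1701650), (b57, -853650), (b58, -1349450), (b64, -1349450), (b67, 3606300), (b68, 853650), (b69, -1349450), (b70, -1901900), (b72, 385000), (b82, 2698900), (b83, 1901900), (b88, -1349450), (b160, 2055000), (b161, 1155000), (b162, -1349450), (b163, -1901900), (b165, 385000), (b175, 2698900), (b176, 1901900), (b181, -1349450)],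
  [(b0, -970000), (b1, -2105000), (b2, 54050), (b3, 3606300), (b4, 385000), (b5, -1349450), (b8, -2665000), (b9, 410000), (b10, -150350), (b11, 468650), (b15, 410000), (b20, 2055000), (b21, 385000), (b22, -1349450), (b25, 770000), (b34, -2105000), (b35, -108100), (b36, -1551300), (b37, 385000), (b38, 2698900), (b41, 410000), (b42, 300700), (b43, 301350), (b48, 385000), (b49, 2698900), (b55, 54050), (b56, -1551300), (b58, -1349450), (b60, -150350), (b61, 301350), (b64, -1349450), (b67, 3606300), (b68, 385000), (b69, -1349450), (b72, 468650), (b81, 385000), (b82, 2698900), (b88, -1349450), (b160, 2055000), (b161, 385000), (b162, -1349450), (b165, 770000), (b174, 385000), (b175, 2698900), (b181, -1349450)],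
  [(b0, -970000), (b1, -1200850), (b2, -48450), (b3, 3606300), (b5, -1349450), (b8, -2105000), (b11, 385000), (b20, 2055000), (b22, -1349450), (b25, 385000), (b34, -3569150), (b35, 8150), (b36, -1701650), (b37, 853650), (b38, 2698900), (b41, 410000), (b48, 1155000), (b49, 2698900), (b55, 860300), (b56, -3239100), (b57, -853650), (b58, -1349450), (b59, 1901900), (b64, -1349450), (b65, 1901900), (b67, 5444450), (b68, 301350), (b69, -1349450), (b70, -1901900), (b72, 385000), (b78, -1901900), (b81, 2008650), (b82, 2698900), (b88, -1349450), (b89, 1901900), (b91, -1901900), (b160, 2055000), (b162, -1349450), (b165, 385000), (b174, 1155000), (b175, 2698900), (b181, -1349450), (b182, 1901900), (b184, -1901900)],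
  [(b0, -345000), (b1, -1080000), (b2, 54050), (b3, 3606300), (b5, -1349450), (b8, -1080000), (b20, 2055000), (b22, -1349450), (b34, -1080000), (b35, -108100), (b36, -1551300), (b38, 2698900), (b49, 2698900), (b55, 54050), (b56, -1551300), (b58, -1349450), (b64, -1349450), (b67, 3606300), (b69, -1349450), (b82, 2698900), (b88, -1349450), (b95, 465000), (b96, 410000), (b97, -150350), (b98, -301350), (b102, 410000), (b116, 410000), (b117, 300700), (b118, 301350), (b123, -150350), (b124, 301350), (b128, -301350), (b160, 2055000), (b162, -1349450), (b175, 2698900), (b181, -1349450)],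
  [(b1, -686550), (b2, 1457500), (b4, -732350), (b21, -732350), (b34, 686550), (b37, 732350), (b48, 732350), (b55, -1457500), (b68, -732350), (b81, 732350), (b161, -732350), (b174, 732350)],
  [(b1, -688600), (b2, -2050000), (b5, 770000), (b22, 770000), (b34, 688600), (b35, -783300), (b36, 205000), (b38, 385000), (b49, 385000), (b55, 2833300), (b56, 293750), (b58, -1155000), (b64, -1155000), (b67, -498750), (b68, 1988500), (b69, 1925000), (b71, -1901900), (b79, -1901900), (b81, -1988500), (b82, 385000), (b84, 1901900), (b87, 1901900), (b88, -2310000), (b92, -1901900), (b94, 1901900), (b162, 770000), (b175, 385000), (b181, -1155000), (b185, -1901900), (b187, 1901900)],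
  [(b1, 463750), (b2, -1132500), (b4, 732350), (b21, 732350), (b34, -463750), (b37, -732350), (b48, -732350), (b55, 1132500), (b68, 732350), (b81, -732350), (b161, 732350), (b174, -732350)]]

/-- Coefficient rows, group 9. -/
def rows9 : List Row := [
  [(b1, 463750), (b2, -1132500), (b4, 732350), (b21, 732350), (b34, -463750), (b37, -732350), (b48, -732350), (b55, 1132500), (b68, 732350), (b81, -732350), (b161, 732350), (b174, -732350)],
  [(b1, 463750), (b2, -1132500), (b4, 732350), (b21, 732350), (b34, -463750), (b37, -732350), (b48, -732350), (b55, 1132500), (b68, 732350), (b81, -732350), (b161, 732350), (b174, -732350)],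
  [(b1, 463750), (b2, -1132500), (b4, 732350), (b21, 732350), (b34, -463750), (b37, -732350), (b48, -732350), (b55, 1132500), (b68, 732350), (b81, -732350), (b161, 732350), (b174, -732350)],
  [(b1, 463750), (b2, -1132500), (b4, 732350), (b21, 732350), (b34, -463750), (b37, -732350), (b48, -732350), (b55, 1132500), (b68, 732350), (b81, -732350), (b161, 732350), (b174, -732350)],
  [(b1, -1945000), (b2, -752500), (b3, 1025000), (b4, 675000), (b5, -640000), (b6, -385000), (b21, 675000), (b22, -640000), (b23, -385000), (b34, 1945000), (b35, -388400), (b36, 3165000), (b37, -675000), (b38, -3022500), (b48, -675000), (b49, -3022500), (b55, 1140900), (b56, 840000), (b57, 1820000), (b58, 3662500), (b59, -2369500), (b64, 3662500), (b65, -2369500), (b67, -5030000), (b68, 1676100), (b69, -2560000), (b70, 2369500), (b71, 2521600), (b78, 2754500), (b79, 2521600), (b81, -3496100), (b82, -3022500), (b84, -2521600), (b87, -2521600), (b88, 5582500), (b89, -2369500), (b91, 2754500), (b92, 2521600), (b94, -2521600), (b161, 675000), (b162, -640000), (b163, -385000), (b174, -675000), (b175, -3022500), (b181, 3662500), (b182,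 -2369500), (b184, 2754500), (b185, 2521600), (b187, -2521600)],
  [(b1, 67500), (b2, 727500), (b34, -67500), (b35, 367100), (b55, -1094600), (b56, 4050), (b67, -4050), (b68, -683850), (b81, 683850)],
  [(b1, 1167500), (b2, 2662500), (b4, -1730000), (b5, -612500), (b21, -1730000), (b22, -612500), (b34, -1167500), (b35, 1159950), (b36, -1020000), (b37, 1730000), (b38, 47100), (b48, 1730000), (b49, 47100), (b55, -3822450), (b56, 70050), (b57, -5190000), (b58, 565400), (b59, 5086200), (b64, 565400), (b65, 5086200), (b67, 949950), (b68, -4232750), (b69, -2450000), (b70, -5086200), (b71, 2413250), (b78, -5086200), (b79, 2413250), (b81, 9422750), (b82, 47100), (b84, -2413250), (b87, -2413250), (b88, 2402900), (b89, 5086200), (b91, -5086200), (b92, 2413250), (b94, -2413250), (b161, -1730000), (b162, -612500), (b174, 1730000), (b175, 47100), (b181, 565400), (b182, 5086200), (b184, -5086200), (b185, 2413250), (b187, -2413250)],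
  [(b1, -222500), (b2, 3675000), (b3, 577500), (b4, -1730000), (b5, -612500), (b21, -1730000), (b22, -612500), (b34, -1862500), (b35, 822450), (b36, -869200), (b37, 1730000), (b38, 47100), (b48, 1730000), (b49, 47100), (b55, -3484950), (b56, -273250), (b57, -5507250), (b58, 565400), (b59, 5086200), (b64, 565400), (b65, 5086200), (b67, 1142450), (b68, -3915500), (b69, -2823450), (b70, -5086200), (b71, 2413250), (b78, -5086200), (b79, 2413250), (b81, 9422750), (b82, 420550), (b84, -2413250), (b87, -2413250), (b88, 2402900), (b89, 5086200), (b91, -5086200), (b92, 2413250), (b94, -2413250), (b161, -1730000), (b162, -612500), (b174, 1730000), (b175, 47100), (b181, 565400), (b182, 5086200), (b184, -5086200), (b185, 2413250), (b187, -2413250)],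
  [(b1, 1167500), (b2, 2662500), (b4, -1730000), (b5, -612500), (b9, 337500), (b10, 192500), (b21, -1730000), (b22, -612500), (b34, -1167500), (b35, 1159950), (b36, -1020000), (b37, 1730000), (b38, 47100), (b41, -337500), (b42, 150800), (b48, 1730000), (b49, 47100), (b55, -3822450), (b56, 70050), (b57, -5190000), (b58, 565400), (b59, 5086200), (b60, -343300), (b61, -317250), (b64, 565400), (b65, 5086200), (b67, 949950), (b68, -4232750), (b69, -2450000), (b70, -5086200), (b71, 2413250), (b72, 317250), (b73, -373450), (b78, -5086200), (b79, 2413250), (b81, 9422750), (b82, 47100), (b84, -2413250), (b85, 373450), (b87, -2413250), (b88, 2402900), (b89, 5086200), (b91, -5086200), (b92, 2413250), (b94, -2413250), (b161, -1730000), (b162, -612500), (b174, 1730000), (b175, 47100), (b181, 565400), (b182, 5086200), (b184, -5086200), (b185, 2413250), (b187, -2413250)],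
  [(b1, 1167500), (b2, 2662500), (b4, -1730000), (b5, -612500), (b21, -1730000), (b22, -612500), (b34, -472500), (b35, 1497450), (b36, -827500), (b37, 1730000), (b38, 47100), (b48, 1730000), (b49, 47100), (b55, -4497450), (b56, 220850), (b57, -5190000), (b58, 565400), (b59, 5086200), (b64, 565400), (b65, 5086200), (b67, 414150), (b68, -4550000), (b69, -2450000), (b70, -5086200), (b71, 2413250), (b78, -5086200), (b79, 2413250), (b81, 9740000), (b82, -326350), (b84, -2413250), (b87, -2413250), (b88, 2776350), (b89, 5086200), (b91, -5086200), (b92, 2413250), (b94, -2413250), (b161, -1730000), (b162, -612500), (b174, 1730000), (b175, 47100), (b181, 565400), (b182, 5086200), (b184, -5086200), (b185, 2413250), (b187, -2413250)],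
  [(b1, 1167500), (b2, 2662500), (b4, -1730000), (b5, -612500), (b21, -1730000), (b22, -612500), (b34, -1167500), (b35, 1159950), (b36, -1020000), (b37, 1730000), (b38, 47100), (b48, 1730000), (b49, 47100), (b55, -3822450), (b56, 70050), (b57, -5190000), (b58, 565400), (b59, 5086200), (b64, 565400), (b65, 5086200), (b67, 949950), (b68, -4232750), (b69, -2450000), (b70, -5086200), (b71, 2413250), (b78, -5086200), (b79, 2413250), (b81, 9422750), (b82, 47100), (b84, -2413250), (b87, -2413250), (b88, 2402900), (b89, 5086200), (b91, -5086200), (b92, 2413250), (b94, -2413250), (b96, 337500), (b97, 192500), (b116, -337500), (b117, 150800), (b123, -343300), (b124, -317250), (b128, 317250), (b129, -373450), (b135, 373450), (b161, -1730000), (b162, -612500), (b174, 1730000), (b175, 47100), (b181, 565400), (b182, 5086200), (b184, -5086200), (b185, 2413250), (b187, -2413250)],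
  [(b0, -625000), (b1, -2833300), (b2, 498750), (b3, 1988500), (b4, 2310000), (b6, -1901900), (b8, -241700), (b9, -293750), (b10, -1988500), (b13, 1901900), (b15, -205000), (b17, -1155000), (b21, 1155000), (b23, -1901900), (b27, 1901900), (b34, -1025000), (b35, 293750), (b37, 385000), (b41, -293750), (b48, 385000), (b56, 1988500), (b57, 1155000), (b59, -1901900), (b60, -1988500), (b62, 1901900), (b63, -1155000), (b65, -1901900), (b66, 1901900), (b68, 1155000), (b70, -1901900), (b74, 1901900), (b81, 385000), (b89, -1901900), (b90, 1901900), (b161, 1155000), (b163, -1901900), (b167, 1901900), (b174, 385000), (b182, -1901900), (b183, 1901900)],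
  [(b0, -625000), (b1, -2050000), (b4, 770000), (b8, -1025000), (b11, 385000), (b21, 770000), (b25, 385000), (b34, -1025000), (b37, 385000), (b48, 385000), (b68, 770000), (b72, 385000), (b81, 385000), (b161, 770000), (b165, 385000), (b174, 385000)],
  [(b0, 1250000), (b1, 3858300), (b2, -498750), (b3, -1988500), (b4, -2695000), (b6, 1901900), (b8, 2050000), (b9, -293750), (b11, -770000), (b16, -1988500), (b17, -1155000), (b19, 1901900), (b21, -1540000), (b23, 1901900), (b25, -770000), (b30, 1901900), (b34, 2291700), (b35, 293750), (b36, 1988500), (b37, -770000), (b39, -1901900), (b41, 293750), (b45, 1988500), (b47, -1901900), (b48, -770000), (b50, -1901900), (b53, -1901900), (b55, 205000), (b57, 1155000), (b63, 1155000), (b68, -1540000), (b70, 1901900), (b72, -770000), (b77, 1901900), (b81, -770000), (b83, -1901900), (b86, -1901900), (b161, -1540000), (b163, 1901900), (b165, -770000), (b170, 1901900), (b174, -770000), (b176, -1901900), (b179, -1901900)],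
  [(b0, 3600000), (b1, 4160000), (b2, -1487552), (b3, -6847600), (b5, 3171700), (b9, 1487552), (b10, 2216300), (b12, -3171700), (b16, 2216300), (b20, -2415000), (b22, 3171700), (b26, -3171700), (b34, 2080000), (b35, 1487552), (b36, 2216300), (b38, -3171700), (b41, -1487552), (b44, 3171700), (b45, -2216300), (b49, -3171700), (b52, 3171700), (b56, 2216300), (b60, -2216300), (b67, -2415000), (b69, 3171700), (b73, -3171700), (b82, -3171700), (b85, 3171700), (b160, -2415000), (b162, 3171700), (b166, -3171700), (b175, -3171700), (b178, 3171700)],
  [(b0, 1305000), (b1, -2600000), (b2, -408900), (b3, 1261000), (b9, 408900), (b10, -630500), (b16, -630500), (b34, -1300000), (b35, 408900), (b36, -630500), (b41, -408900), (b45, 630500), (b56, -630500), (b60, 630500)],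
  [(b0, -345000), (b1, -2160000), (b2, 108100), (b3, 5157600), (b5, -2698900), (b9, -108100), (b10, -1551300), (b12, 2698900), (b16, -1551300), (b20, 2055000), (b22, -2698900), (b26, 2698900), (b34, -1080000), (b35, -108100), (b36, -1551300), (b38, 2698900), (b41, 108100), (b44, -2698900), (b45, 1551300), (b49, 2698900), (b52, -2698900), (b56, -1551300), (b60, 1551300), (b67, 2055000), (b69, -2698900), (b73, 2698900), (b82, 2698900), (b85, -2698900), (b160, 2055000), (b162, -2698900), (b166, 2698900), (b175, 2698900), (b178, -2698900)],
  [(b0, -1595000), (b1, -7603300), (b2, 1720600), (b3, 8833900), (b4, 4017300), (b5, -2698900), (b6, -3803800), (b8, -120850), (b9, -401850), (b10, -3239100), (b11, 301350), (b12, 2698900), (b13, 1901900), (b15, -102500), (b16, -1551300), (b17, -853650), (b20, 2055000), (b21, 2310000), (b22, -2698900), (b23, -3803800), (b26, 2698900), (b27, 1901900), (b34, -3250850), (b35, 8150), (b36, -3239100), (b37, 1071350), (b38, 2698900), (b39, 1901900), (b41, 108100), (b42, -300700), (b44, -2698900), (b45, 1551300), (b46, -301350), (b48, 770000), (b49, 2698900), (b50, 1901900), (b52,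 -2698900), (b55, -102500), (b56, -1551300), (b57, -853650), (b60, 1551300), (b61, -301350), (b67, 2055000), (b68, 2310000), (b69, -2698900), (b70, -3803800), (b73, 2698900), (b74, 1901900), (b81, 770000), (b82, 2698900), (b83, 1901900), (b85, -2698900), (b160, 2055000), (b161, 2310000), (b162, -2698900), (b163, -3803800), (b166, 2698900), (b167, 1901900), (b174, 770000), (b175, 2698900), (b176, 1901900), (b178, -2698900)],
  [(b0, -345000), (b1, -2280850), (b2, 5600), (b3, 5157600), (b5, -2698900), (b8, 465000), (b9, 418150), (b10, -1852000), (b11, -602700), (b12, 2698900), (b16, -3239100), (b17, -853650), (b19, 1901900), (b20, 2055000), (b21, 301350), (b22, -2698900), (b26, 2698900), (b30, 1901900), (b34, -959150), (b35, -108100), (b36, -1551300), (b38, 2698900), (b41, 811850), (b42, 300700), (b43, 301350), (b44, -2698900), (b45, 3239100), (b47, -1901900), (b48, -301350), (b49, 2698900), (b52, -2698900), (b53, -1901900), (b55, 102500), (b56, -1551300), (b60, 1551300), (b61, 301350), (b63, 853650), (b67, 2055000), (b69, -2698900), (b73, 2698900), (b77, 1901900), (b82, 2698900), (b85, -2698900), (b86, -1901900),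 (b160, 2055000), (b162, -2698900), (b166, 2698900), (b170, 1901900), (b175, 2698900), (b178, -2698900), (b179, -1901900)],
  [(b0, -970000), (b1, -4330850), (b2, 5600), (b3, 5157600), (b4, 770000), (b5, -2698900), (b8, 120850), (b9, -108100), (b10, -1551300), (b12, 2698900), (b15, 102500), (b16, -1551300), (b20, 2055000), (b21, 770000), (b22, -2698900), (b26, 2698900), (b34, -2665000), (b35, 418150), (b36, -1852000), (b37, 167300), (b38, 2698900), (b41, 401850), (b42, 300700), (b43, 301350), (b44, -2698900), (b45, 1551300), (b46, 301350), (b48, 770000), (b49, 2698900), (b52, -2698900), (b55, 410000), (b56, -3239100), (b57, -853650), (b59, 1901900), (b60, 3239100), (b62, -1901900), (b63, 853650), (b65, 1901900), (b66, -1901900), (b67, 2055000), (b68, 1071350), (b69, -2698900), (b72, -301350), (b73, 2698900), (b81, 770000), (b82, 2698900), (b85, -2698900), (b89, 1901900), (b90, -1901900), (b160, 2055000), (b161, 770000), (b162, -2698900), (b166, 2698900), (b174, 770000), (b175, 2698900), (b178, -2698900), (b182, 1901900), (b183, -1901900)],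
  [(b0, -345000), (b1, -2160000), (b2, 108100), (b3, 5157600), (b5, -2698900), (b9, -108100), (b10, -1551300), (b12, 2698900), (b16, -1551300), (b20, 2055000), (b22, -2698900), (b26, 2698900), (b34, -1080000), (b35, -108100), (b36, -1551300), (b38, 2698900), (b41, 108100), (b44, -2698900), (b45, 1551300), (b49, 2698900), (b52, -2698900), (b56, -1551300), (b60, 1551300), (b67, 2055000), (b69, -2698900), (b73, 2698900), (b82, 2698900), (b85, -2698900), (b95, 465000), (b96, 820000), (b97, -300700), (b98, -602700), (b103, 300700), (b104, 301350), (b107, 301350), (b116, 410000), (b117, 300700), (b118, 301350), (b120, -300700), (b121, -301350), (b124, 301350), (b126, -301350), (b160, 2055000), (b162, -2698900), (b166, 2698900), (b175, 2698900), (b178, -2698900)],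
  [(b1, 0), (b2, 0), (b3, 0), (b4, 0), (b6, 0), (b21, 0), (b23, 0), (b34, 0), (b36, 0), (b37, 0), (b39, 0), (b48, 0), (b50, 0), (b55, 0), (b56, 0), (b59, 0), (b65, 0), (b67, 0), (b68, 0), (b78, 0), (b81, 0), (b83, 0), (b89, 0), (b91, 0), (b161, 0), (b163, 0), (b174, 0), (b176, 0), (b182, 0), (b184, 0)],
  [(b0, -1250000), (b1, -2291700), (b2, -205000), (b4, 770000), (b8, -2050000), (b9, -293750), (b11, 770000), (b16, -1988500), (b17, -1155000), (b19, 1901900), (b21, 770000), (b25, 770000), (b30, 1901900), (b34, -3858300), (b35, -293750), (b37, 1540000), (b41, 293750), (b45, 1988500), (b47, -1901900), (b48, 1540000), (b53, -1901900), (b55, 498750), (b56, -1988500), (b57, -1155000), (b59, 1901900), (b63, 1155000), (b65, 1901900), (b67, 1988500), (b68, 770000), (b70, -1901900), (b72, 770000), (b77, 1901900), (b78, -1901900), (b81, 2695000), (b86, -1901900), (b89, 1901900), (b91, -1901900), (b161, 770000), (b165, 770000), (b170, 1901900), (b174, 1540000), (b179, -1901900), (b182, 1901900), (b184, -1901900)],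
  [(b0, 2400000), (b1, 2080000), (b2, -743776), (b3, -3826300), (b5, 1585850), (b20, -1610000), (b22, 1585850), (b34, 2080000), (b35, 1487552), (b36, 2216300), (b38, -3171700), (b49, -3171700), (b55, -743776), (b56, 2216300), (b58, 1585850), (b64, 1585850), (b67, -3826300), (b69, 1585850), (b82, -3171700), (b88, 1585850), (b160, -1610000), (b162, 1585850), (b175, -3171700), (b181, 1585850)],
  [(b0, 870000), (b1, -1300000), (b2, -204450), (b3, 630500), (b34, -1300000), (b35, 408900), (b36, -630500), (b55, -204450), (b56, -630500), (b67, 630500)]]

/-- Coefficient rows, group 10. -/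
def rows10 : List Row := [
  [(b0, -230000), (b1, -1080000), (b2, 54050), (b3, 2921300), (b5, -1349450), (b20, 1370000), (b22, -1349450), (b34, -1080000), (b35, -108100), (b36, -1551300), (b38, 2698900), (b49, 2698900), (b55, 54050), (b56, -1551300), (b58, -1349450), (b64, -1349450), (b67, 2921300), (b69, -1349450), (b82, 2698900), (b88, -1349450), (b160, 1370000), (b162, -1349450), (b175, 2698900), (b181, -1349450)],
  [(b0, -855000), (b1, -3724150), (b2, 860300), (b3, 4759450), (b4, 2008650), (b5, -1349450), (b6, -1901900), (b20, 1370000), (b21, 1155000), (b22, -1349450), (b23, -1901900), (b34, -2225850), (b35, 8150), (b36, -3239100), (b37, 686350), (b38, 2698900), (b39, 1901900), (b48, 385000), (b49, 2698900), (b50, 1901900), (b55, -48450), (b56, -1701650), (b57, -853650), (b58, -1349450), (b64, -1349450), (b67, 2921300), (b68, 853650), (b69, -1349450), (b70, -1901900), (b81, 385000), (b82, 2698900), (b83, 1901900), (b88, -1349450), (b160, 1370000), (b161, 1155000), (b162, -1349450), (b163, -1901900), (b174, 385000), (b175, 2698900), (b176, 1901900), (b181, -1349450)],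
  [(b0, -230000), (b1, -1080000), (b2, 54050), (b3, 2921300), (b5, -1349450), (b8, 310000), (b9, 410000), (b10, -150350), (b11, -301350), (b20, 1370000), (b22, -1349450), (b34, -1080000), (b35, -108100), (b36, -1551300), (b38, 2698900), (b41, 410000), (b42, 300700), (b43, 301350), (b49, 2698900), (b55, 54050), (b56, -1551300), (b58, -1349450), (b60, -150350), (b61, 301350), (b64, -1349450), (b67, 2921300), (b69, -1349450), (b72, -301350), (b82, 2698900), (b88, -1349450), (b160, 1370000), (b162, -1349450), (b175, 2698900), (b181, -1349450)],
  [(b0, -855000), (b1, -2225850), (b2, -48450), (b3, 2921300), (b4, 385000), (b5, -1349450), (b20, 1370000), (b21, 385000), (b22, -1349450), (b34, -3724150), (b35, 8150), (b36, -1701650), (b37, 853650), (b38, 2698900), (b48, 1155000), (b49, 2698900), (b55, 860300), (b56, -3239100), (b57, -853650), (b58, -1349450), (b59, 1901900), (b64, -1349450), (b65, 1901900), (b67, 4759450), (b68, 686350), (b69, -1349450), (b70, -1901900), (b78, -1901900), (b81, 2008650), (b82, 2698900), (b88, -1349450), (b89, 1901900), (b91, -1901900), (b160, 1370000), (b161, 385000), (b162, -1349450),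 (b174, 1155000), (b175, 2698900), (b181, -1349450), (b182, 1901900), (b184, -1901900)],
  [(b0, -230000), (b1, -1080000), (b2, 54050), (b3, 2921300), (b5, -1349450), (b20, 1370000), (b22, -1349450), (b34, -1080000), (b35, -108100), (b36, -1551300), (b38, 2698900), (b49, 2698900), (b55, 54050), (b56, -1551300), (b58, -1349450), (b64, -1349450), (b67, 2921300), (b69, -1349450), (b82, 2698900), (b88, -1349450), (b95, 310000), (b96, 410000), (b97, -150350), (b98, -301350), (b116, 410000), (b117, 300700), (b118, 301350), (b123, -150350), (b124, 301350), (b128, -301350), (b160, 1370000), (b162, -1349450), (b175, 2698900), (b181, -1349450)],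
  [],
  [(b1, 1390000), (b2, -675000), (b3, -385000), (b8, 1390000), (b15, -675000), (b20, -385000), (b95, 1390000), (b138, -675000), (b160, -385000)],
  [(b0, -1250000), (b1, -2291700), (b2, -205000), (b4, 770000), (b8, -3858300), (b9, -293750), (b11, 1540000), (b15, 498750), (b16, -1988500), (b17, -1155000), (b19, 1901900), (b20, 1988500), (b21, 770000), (b23, -1901900), (b25, 2695000), (b30, 1901900), (b31, -1901900), (b68, 770000), (b72, 1540000), (b77, 1901900), (b78, -1901900), (b95, -2050000), (b96, -293750), (b98, 770000), (b102, 293750), (b109, 770000), (b128, 770000), (b139, -1988500), (b140, -1155000), (b142, 1901900), (b143, 1988500), (b145, -1901900), (b146, 1155000), (b148, 1901900), (b149, -1901900), (b157, 1901900), (b158, -1901900), (b161, 770000), (b165, 1540000), (b170, 1901900), (b171, -1901900), (b188, 770000), (b199, 1901900), (b200, -1901900)],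
  [(b0, 1250000), (b1, 3858300), (b2, -498750), (b3, -1988500), (b4, -2695000), (b6, 1901900), (b8, 2291700), (b9, 293750), (b10, 1988500), (b11, -770000), (b13, -1901900), (b15, 205000), (b17, 1155000), (b21, -1540000), (b23, 1901900), (b25, -770000), (b27, -1901900), (b68, -1540000), (b70, 1901900), (b72, -770000), (b74, -1901900), (b95, 2050000), (b96, -293750), (b98, -770000), (b102, 293750), (b109, -770000), (b128, -770000), (b139, -1988500), (b140, -1155000), (b142, 1901900), (b143, 1988500), (b145, -1901900), (b146, 1155000), (b148, 1901900), (b149, -1901900), (b157, 1901900), (b158, -1901900), (b161, -1540000), (b163, 1901900), (b165, -770000), (b167, -1901900), (b188, -770000), (b199, 1901900), (b200, -1901900)],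
  [(b0, -1250000), (b1, -2050000), (b4, 770000), (b8, -2050000), (b11, 770000), (b21, 770000), (b25, 770000), (b34, -2050000), (b37, 770000), (b48, 770000), (b68, 770000), (b72, 770000), (b81, 770000), (b95, -2050000), (b98, 770000), (b109, 770000), (b128, 770000), (b161, 770000), (b165, 770000), (b174, 770000), (b188, 770000)],
  [(b1, -241700), (b2, -205000), (b9, -293750), (b16, -1988500), (b17, -1155000), (b19, 1901900), (b30, 1901900), (b34, 241700), (b41, 293750), (b45, 1988500), (b47, -1901900), (b53, -1901900), (b55, 205000), (b63, 1155000), (b77, 1901900), (b86, -1901900), (b96, -293750), (b116, 293750), (b139, -1988500), (b140, -1155000), (b142, 1901900), (b148, 1901900), (b150, 1988500), (b152, -1901900), (b154, -1901900), (b155, 1155000), (b157, 1901900), (b159, -1901900), (b170, 1901900), (b179, -1901900), (b199, 1901900), (b201, -1901900)],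
  [(b0, 1250000), (b1, 3858300), (b2, -498750), (b3, -1988500), (b4, -2695000), (b6, 1901900), (b8, 2050000), (b11, -770000), (b21, -1540000), (b23, 1901900), (b25, -770000), (b34, 241700), (b35, 293750), (b36, 1988500), (b39, -1901900), (b50, -1901900), (b55, 205000), (b57, 1155000), (b68, -1540000), (b70, 1901900), (b72, -770000), (b83, -1901900), (b95, 2050000), (b96, -293750), (b98, -770000), (b109, -770000), (b116, 293750), (b128, -770000), (b139, -1988500), (b140, -1155000), (b142, 1901900), (b148, 1901900), (b150, 1988500), (b152, -1901900), (b154, -1901900), (b155, 1155000), (b157, 1901900), (b159, -1901900), (b161, -1540000), (b163, 1901900), (b165, -770000), (b176, -1901900), (b188, -770000), (b199, 1901900), (b201, -1901900)],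
  [(b0, 3600000), (b1, 2080000), (b3, -2415000), (b8, 2080000), (b20, -2415000), (b67, -2415000), (b95, 2080000), (b160, -2415000)],
  [(b0, 1305000), (b1, -1300000), (b8, -1300000), (b95, -1300000)],
  [(b0, -345000), (b1, -1080000), (b3, 2055000), (b8, -1080000), (b20, 2055000), (b67, 2055000), (b95, -1080000), (b160, 2055000)],
  [(b0, -970000), (b1, -2665000), (b2, 410000), (b3, 2055000), (b4, 770000), (b8, -2105000), (b9, 410000), (b11, 385000), (b20, 2055000), (b21, 770000), (b25, 385000), (b67, 2055000), (b68, 770000), (b72, 385000), (b95, -2105000), (b96, 410000), (b98, 385000), (b109, 385000), (b128, 385000), (b160, 2055000), (b161, 770000), (b165, 385000), (b188, 385000)],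
  [(b0, -970000), (b1, -2105000), (b3, 2055000), (b4, 385000), (b8, -2665000), (b9, 410000), (b11, 770000), (b15, 410000), (b20, 2055000), (b21, 385000), (b25, 770000), (b67, 2055000), (b68, 385000), (b72, 770000), (b95, -2105000), (b98, 385000), (b102, 410000), (b109, 385000), (b128, 385000), (b160, 2055000), (b161, 385000), (b165, 770000), (b188, 385000)],
  [(b0, -345000), (b1, -1080000), (b3, 2055000), (b8, -1080000), (b20, 2055000), (b34, 465000), (b35, 410000), (b41, 410000), (b67, 2055000), (b95, -1080000), (b116, 410000), (b160, 2055000)],
  [(b0, -970000), (b1, -2105000), (b3, 2055000), (b4, 385000), (b8, -2105000), (b11, 385000), (b20, 2055000), (b21, 385000), (b25, 385000), (b67, 2055000), (b68, 385000), (b72, 385000), (b95, -2665000), (b96, 410000), (b98, 770000), (b102, 410000), (b109, 770000), (b128, 770000), (b138, 410000), (b160, 2055000), (b161, 385000), (b165, 385000), (b188, 770000)],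
  [(b1, -686550), (b2, 1457500), (b4, -732350), (b8, 686550), (b11, 732350), (b15, -1457500), (b21, -732350), (b25, 732350), (b68, -732350), (b72, 732350), (b161, -732350), (b165, 732350)],
  [(b1, -688600), (b2, -2050000), (b5, 770000), (b8, 688600), (b15, 2050000), (b18, -770000), (b22, 770000), (b29, -770000), (b69, 770000), (b76, -770000), (b96, -783300), (b97, 205000), (b99, 385000), (b102, 783300), (b105, -385000), (b106, -205000), (b110, 385000), (b113, -385000), (b129, 385000), (b132, -385000), (b139, 293750), (b143, -293750), (b161, 1988500), (b162, 1925000), (b164, -1901900), (b165, -1988500), (b168, 1901900), (b169, -1925000), (b172, -1901900), (b173, 1901900), (b185, -1901900), (b186, 1901900), (b189, 385000), (b192, -385000), (b203, -1901900), (b204, 1901900)],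
  [(b1, 463750), (b2, -1132500), (b4, 732350), (b8, -463750), (b11, -732350), (b15, 1132500), (b21, 732350), (b25, -732350), (b68, 732350), (b72, -732350), (b161, 732350), (b165, -732350)],
  [(b1, 463750), (b2, -1132500), (b4, 732350), (b8, -463750), (b11, -732350), (b15, 1132500), (b21, 732350), (b25, -732350), (b68, 732350), (b72, -732350), (b161, 732350), (b165, -732350)],
  [(b1, 463750), (b2, -1132500), (b4, 732350), (b8, -463750), (b11, -732350), (b15, 1132500), (b21, 732350), (b25, -732350), (b68, 732350), (b72, -732350), (b161, 732350), (b165, -732350)],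
  [(b1, 463750), (b2, -1132500), (b4, 732350), (b8, -463750), (b11, -732350), (b15, 1132500), (b21, 732350), (b25, -732350), (b68, 732350), (b72, -732350), (b161, 732350), (b165, -732350)]]

/-- Coefficient rows, group 11. -/
def rows11 : List Row := [
  [(b1, 463750), (b2, -1132500), (b4, 732350), (b8, -463750), (b11, -732350), (b15, 1132500), (b21, 732350), (b25, -732350), (b68, 732350), (b72, -732350), (b161, 732350), (b165, -732350)],
  [(b1, -1945000), (b2, -752500), (b3, 1025000), (b4, 675000), (b5, -640000), (b6, -385000), (b8, 1945000), (b11, -675000), (b15, 752500), (b18, 640000), (b20, -1025000), (b21, 675000), (b22, -640000), (b23, 0), (b25, -675000), (b29, 640000), (b31, 385000), (b68, 675000), (b69, -640000), (b70, -385000), (b72, -675000), (b76, 640000), (b78, 385000), (b96, -388400), (b97, 3165000), (b99, -3022500), (b102, 388400), (b105, 3022500), (b106, -3165000), (b110, -3022500), (b113, 3022500), (b129, -3022500), (b132, 3022500), (b139, 840000), (b140, 1820000), (b142, -2369500), (b143, -840000), (b145, 2369500), (b146, -1820000), (b148, -2369500), (b149, 2369500), (b157, -2369500), (b158,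 2369500), (b161, 1676100), (b162, -2560000), (b163, -385000), (b164, 2521600), (b165, -1676100), (b168, -2521600), (b169, 2560000), (b171, 385000), (b172, 2521600), (b173, -2521600), (b185, 2521600), (b186, -2521600), (b189, -3022500), (b192, 3022500), (b199, -2369500), (b200, 2369500), (b203, 2521600), (b204, -2521600)],
  [(b1, 67500), (b2, 727500), (b8, -67500), (b15, -727500), (b96, 367100), (b102, -367100), (b139, 4050), (b143, -4050), (b161, -683850), (b165, 683850)],
  [(b1, 1167500), (b2, 2662500), (b4, -1730000), (b5, -612500), (b8, -1167500), (b11, 1730000), (b15, -2662500), (b18, 612500), (b21, -1730000), (b22, -612500), (b25, 1730000), (b29, 612500), (b68, -1730000), (b69, -612500), (b72, 1730000), (b76, 612500), (b96, 1159950), (b97, -1020000), (b99, 47100), (b102, -1159950), (b105, -47100), (b106, 1020000), (b110, 47100), (b113, -47100), (b129, 47100), (b132, -47100), (b139, 70050), (b140, -5190000), (b142, 5086200), (b143, -70050), (b145, -5086200), (b146, 5190000), (b148, 5086200), (b149, -5086200), (b157, 5086200), (b158, -5086200), (b161, -4232750), (b162, -2450000), (b164, 2413250), (b165,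 4232750), (b168, -2413250), (b169, 2450000), (b172, 2413250), (b173, -2413250), (b185, 2413250), (b186, -2413250), (b189, 47100), (b192, -47100), (b199, 5086200), (b200, -5086200), (b203, 2413250), (b204, -2413250)],
  [(b1, -222500), (b2, 3675000), (b3, 577500), (b4, -1730000), (b5, -612500), (b8, -1167500), (b9, -337500), (b11, 1730000), (b15, -2662500), (b16, -192500), (b18, 612500), (b21, -1730000), (b22, -612500), (b25, 1730000), (b29, 612500), (b68, -1730000), (b69, -612500), (b72, 1730000), (b76, 612500), (b95, -695000), (b96, 1159950), (b97, -869200), (b99, 47100), (b102, -1159950), (b103, -150800), (b105, -47100), (b106, 1020000), (b110, 47100), (b113, -47100), (b129, 47100), (b132, -47100), (b138, 337500), (b139, 70050), (b140, -5507250), (b142, 5086200), (b143, -70050), (b144, 317250), (b145, -5086200), (b146, 5190000), (b148, 5086200), (b149, -5086200), (b157, 5086200), (b158, -5086200), (b160, 192500), (b161, -4232750), (b162, -2823450), (b164, 2413250), (b165, 4232750), (b166, 373450), (b168, -2413250), (b169, 2450000), (b172, 2413250), (b173, -2413250), (b185, 2413250), (b186, -2413250), (b189,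 47100), (b192, -47100), (b199, 5086200), (b200, -5086200), (b203, 2413250), (b204, -2413250)],
  [(b1, 1167500), (b2, 2662500), (b4, -1730000), (b5, -612500), (b8, 222500), (b9, 337500), (b10, 192500), (b11, 1730000), (b15, -3675000), (b18, 612500), (b20, -577500), (b21, -1730000), (b22, -612500), (b25, 1730000), (b29, 612500), (b68, -1730000), (b69, -612500), (b72, 1730000), (b76, 612500), (b95, 695000), (b96, 1159950), (b97, -1020000), (b99, 47100), (b102, -1159950), (b103, 150800), (b105, -47100), (b106, 869200), (b110, 47100), (b113, -47100), (b129, 47100), (b132, -47100), (b138, -337500), (b139, 70050), (b140, -5190000), (b142, 5086200), (b143, -70050), (b144, -317250), (b145, -5086200), (b146, 5507250), (b148, 5086200), (b149, -5086200), (b157, 5086200), (b158, -5086200), (b160, -192500), (b161, -4232750), (b162, -2450000), (b164, 2413250), (b165, 4232750), (b166, -373450), (b168, -2413250), (b169, 2823450), (b172, 2413250), (b173, -2413250), (b185, 2413250), (b186, -2413250), (b189, 47100), (b192, -47100), (b199, 5086200), (b200, -5086200), (b203, 2413250), (b204, -2413250)],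
  [(b1, 1167500), (b2, 2662500), (b4, -1730000), (b5, -612500), (b8, -1167500), (b11, 1730000), (b15, -2662500), (b18, 612500), (b21, -1730000), (b22, -612500), (b25, 1730000), (b29, 612500), (b35, 337500), (b36, 192500), (b41, -337500), (b45, -192500), (b68, -1730000), (b69, -612500), (b72, 1730000), (b76, 612500), (b96, 1159950), (b97, -1020000), (b99, 47100), (b102, -1159950), (b105, -47100), (b106, 1020000), (b110, 47100), (b113, -47100), (b117, 150800), (b120, -150800), (b129, 47100), (b132, -47100), (b139, 70050), (b140, -5190000), (b142, 5086200), (b143, -70050), (b145, -5086200), (b146, 5190000), (b148, 5086200), (b149, -5086200), (b151, -317250), (b153, 317250), (b157, 5086200), (b158, -5086200), (b161, -4232750), (b162, -2450000), (b164, 2413250), (b165, 4232750), (b168, -2413250), (b169, 2450000), (b172, 2413250), (b173, -2413250), (b175, -373450), (b178, 373450), (b185, 2413250), (b186, -2413250), (b189, 47100), (b192, -47100), (b199, 5086200), (b200, -5086200), (b203, 2413250), (b204, -2413250)],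
  [(b1, 1167500), (b2, 2662500), (b4, -1730000), (b5, -612500), (b8, -1167500), (b11, 1730000), (b15, -2662500), (b18, 612500), (b21, -1730000), (b22, -612500), (b25, 1730000), (b29, 612500), (b68, -1730000), (b69, -612500), (b72, 1730000), (b76, 612500), (b96, 1497450), (b97, -827500), (b99, 47100), (b102, -1497450), (b105, -47100), (b106, 827500), (b110, 47100), (b113, -47100), (b129, 47100), (b132, -47100), (b139, 220850), (b140, -5190000), (b142, 5086200), (b143, -220850), (b145, -5086200), (b146, 5190000), (b148, 5086200), (b149, -5086200), (b157, 5086200), (b158, -5086200), (b161, -4550000), (b162, -2450000), (b164, 2413250), (b165, 4550000), (b168, -2413250), (b169, 2450000), (b172, 2413250), (b173, -2413250), (b185, 2413250), (b186, -2413250), (b189, -326350), (b192, 326350), (b199, 5086200), (b200, -5086200), (b203, 2413250), (b204, -2413250)],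
  [(b0, -1250000), (b1, -3858300), (b2, 498750), (b3, 1988500), (b4, 2695000), (b6, -1901900), (b8, -2291700), (b9, -293750), (b10, -1988500), (b11, 770000), (b13, 1901900), (b15, -205000), (b17, -1155000), (b21, 1540000), (b23, -1901900), (b25, 770000), (b27, 1901900), (b68, 1540000), (b70, -1901900), (b72, 770000), (b74, 1901900), (b95, -2050000), (b96, 293750), (b98, 770000), (b102, -293750), (b109, 770000), (b128, 770000), (b139, 1988500), (b140, 1155000), (b142, -1901900), (b143, -1988500), (b145, 1901900), (b146, -1155000), (b148, -1901900), (b149, 1901900), (b157, -1901900), (b158, 1901900), (b161, 1540000), (b163, -1901900), (b165, 770000), (b167, 1901900), (b188, 770000), (b199, -1901900), (b200, 1901900)],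
  [(b0, -1250000), (b1, -2291700), (b2, -205000), (b4, 770000), (b8, -3858300), (b9, -293750), (b11, 1540000), (b15, 498750), (b16, -1988500), (b17, -1155000), (b19, 1901900), (b20, 1988500), (b21, 770000), (b23, -1901900), (b25, 2695000), (b30, 1901900), (b31, -1901900), (b68, 770000), (b72, 1540000), (b77, 1901900), (b78, -1901900), (b95, -2050000), (b96, -293750), (b98, 770000), (b102, 293750), (b109, 770000), (b128, 770000), (b139, -1988500), (b140, -1155000), (b142, 1901900), (b143, 1988500), (b145, -1901900), (b146, 1155000), (b148, 1901900), (b149, -1901900), (b157, 1901900), (b158, -1901900), (b161, 770000), (b165, 1540000), (b170, 1901900), (b171, -1901900), (b188, 770000), (b199, 1901900), (b200, -1901900)],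
  [(b0, -1250000), (b1, -2050000), (b4, 770000), (b8, -2050000), (b11, 770000), (b21, 770000), (b25, 770000), (b34, -2050000), (b37, 770000), (b48, 770000), (b68, 770000), (b72, 770000), (b81, 770000), (b95, -2050000), (b98, 770000), (b109, 770000), (b128, 770000), (b161, 770000), (b165, 770000), (b174, 770000), (b188, 770000)],
  [(b0, -625000), (b1, -2833300), (b2, 498750), (b3, 1988500), (b4, 2310000), (b6, -1901900), (b21, 1155000), (b23, -1901900), (b34, -241700), (b35, -293750), (b36, -1988500), (b39, 1901900), (b50, 1901900), (b55, -205000), (b57, -1155000), (b68, 1155000), (b70, -1901900), (b83, 1901900), (b95, -1025000), (b96, 293750), (b98, 385000), (b109, 385000), (b116, -293750), (b128, 385000), (b139, 1988500), (b140, 1155000), (b142, -1901900), (b148, -1901900), (b150, -1988500), (b152, 1901900), (b154, 1901900), (b155, -1155000), (b157, -1901900), (b159, 1901900), (b161, 1155000), (b163, -1901900), (b176, 1901900), (b188, 385000), (b199, -1901900), (b201, 1901900)],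
  [(b0, -625000), (b1, -2291700), (b2, -205000), (b4, 770000), (b8, -1025000), (b9, -293750), (b11, 385000), (b16, -1988500), (b17, -1155000), (b19, 1901900), (b21, 770000), (b25, 385000), (b30, 1901900), (b34, 241700), (b41, 293750), (b45, 1988500), (b47, -1901900), (b53, -1901900), (b55, 205000), (b63, 1155000), (b68, 770000), (b72, 385000), (b77, 1901900), (b86, -1901900), (b95, -1025000), (b96, -293750), (b98, 385000), (b109, 385000), (b116, 293750), (b128, 385000), (b139, -1988500), (b140, -1155000), (b142, 1901900), (b148, 1901900), (b150, 1988500), (b152, -1901900), (b154, -1901900), (b155, 1155000), (b157, 1901900), (b159, -1901900), (b161, 770000), (b165, 385000), (b170, 1901900), (b179, -1901900), (b188, 385000), (b199, 1901900), (b201, -1901900)],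
  [(b0, -625000), (b1, -2050000), (b4, 770000), (b21, 770000), (b34, -1025000), (b37, 385000), (b48, 385000), (b68, 770000), (b81, 385000), (b95, -1025000), (b98, 385000), (b109, 385000), (b128, 385000), (b161, 770000), (b174, 385000), (b188, 385000)],
  [(b0, 0), (b1, 1808300), (b2, -498750), (b3, -1988500), (b4, -1925000), (b6, 1901900), (b8, -1808300), (b10, 1988500), (b11, 770000), (b13, -1901900), (b15, 498750), (b16, -1988500), (b19, 1901900), (b20, 1988500), (b21, -770000), (b25, 1925000), (b27, -1901900), (b30, 1901900), (b31, -1901900), (b68, -770000), (b70, 1901900), (b72, 770000), (b74, -1901900), (b77, 1901900), (b78, -1901900), (b95, 0), (b98, 0), (b109, 0), (b128, 0), (b161, -770000), (b163, 1901900), (b165, 770000), (b167, -1901900), (b170, 1901900), (b171, -1901900), (b188, 0)],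
  [(b0, 3600000), (b1, 2080000), (b2, -743776), (b3, -4631300), (b5, 1585850), (b8, 2080000), (b9, 1487552), (b10, 2216300), (b12, -3171700), (b15, -743776), (b16, 2216300), (b18, 1585850), (b20, -4631300), (b22, 1585850), (b26, -3171700), (b29, 1585850), (b67, -2415000), (b69, 1585850), (b73, -3171700), (b76, 1585850), (b95, 2080000), (b160, -2415000), (b162, 1585850), (b166, -3171700), (b169, 1585850)],
  [(b0, 1305000), (b1, -1300000), (b2, -204450), (b3, 630500), (b8, -1300000), (b9, 408900), (b10, -630500), (b15, -204450), (b16, -630500), (b20, 630500), (b95, -1300000)],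
  [(b0, -345000), (b1, -1080000), (b2, 54050), (b3, 3606300), (b5, -1349450), (b8, -1080000), (b9, -108100), (b10, -1551300), (b12, 2698900), (b15, 54050), (b16, -1551300), (b18, -1349450), (b20, 3606300), (b22, -1349450), (b26, 2698900), (b29, -1349450), (b67, 2055000), (b69, -1349450), (b73, 2698900), (b76, -1349450), (b95, -1080000), (b160, 2055000), (b162, -1349450), (b166, 2698900), (b169, -1349450)],
  [(b0, -970000), (b1, -3569150), (b2, 860300), (b3, 5444450), (b4, 2008650), (b5, -1349450), (b6, -1901900), (b8, -1200850), (b9, 8150), (b10, -3239100), (b11, 301350), (b12, 2698900), (b13, 1901900), (b15, -48450), (b16, -1701650), (b17, -853650), (b18, -1349450), (b20, 3606300), (b21, 853650), (b22, -1349450), (b23, -1901900), (b26, 2698900), (b27, 1901900), (b29, -1349450), (b67, 2055000), (b68, 1155000), (b69, -1349450), (b70, -1901900), (b73, 2698900), (b74, 1901900), (b76, -1349450), (b95, -2105000), (b96, 410000), (b98, 385000), (b109, 385000), (b128, 385000), (b160, 2055000), (b161, 1155000), (b162, -1349450), (b163, -1901900), (b166, 2698900), (b167, 1901900), (b169, -1349450), (b188, 385000)],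
  [(b0, -970000), (b1, -1200850), (b2, -48450), (b3, 3606300), (b5, -1349450), (b8, -3569150), (b9, 8150), (b10, -1701650), (b11, 853650), (b12, 2698900), (b15, 860300), (b16, -3239100), (b17, -853650), (b18, -1349450), (b19, 1901900), (b20, 5444450), (b21, 301350), (b22, -1349450), (b23, -1901900), (b25, 2008650), (b26, 2698900), (b29, -1349450), (b30, 1901900), (b31, -1901900), (b67, 2055000), (b69, -1349450), (b72, 1155000), (b73, 2698900), (b76, -1349450), (b77, 1901900), (b78, -1901900), (b95, -2105000), (b98, 385000), (b102, 410000), (b109, 385000), (b128, 385000), (b160, 2055000), (b162, -1349450), (b165, 1155000), (b166, 2698900), (b169, -1349450), (b170, 1901900), (b171, -1901900), (b188, 385000)],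
  [(b0, -345000), (b1, -1080000), (b2, 54050), (b3, 3606300), (b5, -1349450), (b8, -1080000), (b9, -108100), (b10, -1551300), (b12, 2698900), (b15, 54050), (b16, -1551300), (b18, -1349450), (b20, 3606300), (b22, -1349450), (b26, 2698900), (b29, -1349450), (b34, 465000), (b35, 410000), (b36, -150350), (b37, -301350), (b41, 410000), (b42, 300700), (b43, 301350), (b45, -150350), (b46, 301350), (b48, -301350), (b67, 2055000), (b69, -1349450), (b73, 2698900), (b76, -1349450), (b95, -1080000), (b116, 410000), (b160, 2055000), (b162, -1349450), (b166, 2698900), (b169, -1349450)],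
  [(b0, -970000), (b1, -2105000), (b2, 54050), (b3, 3606300), (b4, 385000), (b5, -1349450), (b8, -2105000), (b9, -108100), (b10, -1551300), (b11, 385000), (b12, 2698900), (b15, 54050), (b16, -1551300), (b18, -1349450), (b20, 3606300), (b21, 385000), (b22, -1349450), (b25, 385000), (b26, 2698900), (b29, -1349450), (b67, 2055000), (b68, 385000), (b69, -1349450), (b72, 385000), (b73, 2698900), (b76, -1349450), (b95, -2665000), (b96, 410000), (b97, -150350), (b98, 468650), (b102, 410000), (b103, 300700), (b104, 301350), (b106, -150350), (b107, 301350), (b109, 468650), (b128, 770000), (b138, 410000), (b160, 2055000), (b161, 385000), (b162, -1349450), (b165, 385000), (b166, 2698900), (b169, -1349450), (b188, 770000)],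
  [],
  [(b1, 1390000), (b2, -675000), (b3, -385000), (b34, 1390000), (b55, -675000), (b67, -385000), (b95, 1390000), (b138, -675000), (b160, -385000)],
  [(b1, -241700), (b2, -205000), (b8, 241700), (b15, 205000), (b35, -293750), (b41, 293750), (b56, -1988500), (b57, -1155000), (b59, 1901900), (b60, 1988500), (b62, -1901900), (b63, 1155000), (b65, 1901900), (b66, -1901900), (b89, 1901900), (b90, -1901900), (b96, -293750), (b102, 293750), (b139, -1988500), (b140, -1155000), (b142, 1901900), (b143, 1988500), (b145, -1901900), (b146, 1155000), (b148, 1901900), (b149, -1901900), (b157, 1901900), (b158, -1901900), (b182, 1901900), (b183, -1901900), (b199, 1901900), (b200, -1901900)]]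

/-- Coefficient rows, group 12. -/
def rows12 : List Row := [
  [(b0, -1250000), (b1, -2050000), (b4, 770000), (b8, -2050000), (b11, 770000), (b21, 770000), (b25, 770000), (b34, -2050000), (b37, 770000), (b48, 770000), (b68, 770000), (b72, 770000), (b81, 770000), (b95, -2050000), (b98, 770000), (b109, 770000), (b128, 770000), (b161, 770000), (b165, 770000), (b174, 770000), (b188, 770000)],
  [(b0, 1250000), (b1, 3858300), (b2, -498750), (b3, -1988500), (b4, -2695000), (b6, 1901900), (b8, 241700), (b9, 293750), (b10, 1988500), (b13, -1901900), (b15, 205000), (b17, 1155000), (b21, -1540000), (b23, 1901900), (b27, -1901900), (b34, 2050000), (b37, -770000), (b48, -770000), (b68, -1540000), (b70, 1901900), (b74, -1901900), (b81, -770000), (b95, 2050000), (b96, -293750), (b98, -770000), (b102, 293750), (b109, -770000), (b128, -770000), (b139, -1988500), (b140, -1155000), (b142, 1901900), (b143, 1988500), (b145, -1901900), (b146, 1155000), (b148, 1901900), (b149, -1901900), (b157, 1901900), (b158, -1901900), (b161, -1540000), (b163, 1901900), (b167, -1901900), (b174, -770000), (b188, -770000), (b199, 1901900),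 (b200, -1901900)],
  [(b0, -1250000), (b1, -2291700), (b2, -205000), (b4, 770000), (b21, 770000), (b34, -3858300), (b35, -293750), (b37, 1540000), (b48, 1540000), (b55, 498750), (b56, -1988500), (b57, -1155000), (b59, 1901900), (b65, 1901900), (b67, 1988500), (b68, 770000), (b70, -1901900), (b78, -1901900), (b81, 2695000), (b89, 1901900), (b91, -1901900), (b95, -2050000), (b96, -293750), (b98, 770000), (b109, 770000), (b116, 293750), (b128, 770000), (b139, -1988500), (b140, -1155000), (b142, 1901900), (b148, 1901900), (b150, 1988500), (b152, -1901900), (b154, -1901900), (b155, 1155000), (b157, 1901900), (b159, -1901900), (b161, 770000), (b174, 1540000), (b182, 1901900), (b184, -1901900), (b188, 770000), (b199, 1901900), (b201, -1901900)],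
  [(b0, 1250000), (b1, 3858300), (b2, -498750), (b3, -1988500), (b4, -2695000), (b6, 1901900), (b21, -1540000), (b23, 1901900), (b34, 2291700), (b35, 293750), (b36, 1988500), (b37, -770000), (b39, -1901900), (b48, -770000), (b50, -1901900), (b55, 205000), (b57, 1155000), (b68, -1540000), (b70, 1901900), (b81, -770000), (b83, -1901900), (b95, 2050000), (b96, -293750), (b98, -770000), (b109, -770000), (b116, 293750), (b128, -770000), (b139, -1988500), (b140, -1155000), (b142, 1901900), (b148, 1901900), (b150, 1988500), (b152, -1901900), (b154, -1901900), (b155, 1155000), (b157, 1901900), (b159, -1901900), (b161, -1540000), (b163, 1901900), (b174, -770000), (b176, -1901900), (b188, -770000), (b199, 1901900), (b201, -1901900)],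
  [(b0, -1250000), (b1, -2050000), (b4, 770000), (b8, -2050000), (b11, 770000), (b21, 770000), (b25, 770000), (b34, -2050000), (b37, 770000), (b48, 770000), (b68, 770000), (b72, 770000), (b81, 770000), (b95, -2050000), (b98, 770000), (b109, 770000), (b128, 770000), (b161, 770000), (b165, 770000), (b174, 770000), (b188, 770000)],
  [(b0, 1250000), (b1, 3858300), (b2, -498750), (b3, -1988500), (b4, -2695000), (b6, 1901900), (b8, 241700), (b9, 293750), (b10, 1988500), (b13, -1901900), (b15, 205000), (b17, 1155000), (b21, -1540000), (b23, 1901900), (b27, -1901900), (b34, 2050000), (b35, -293750), (b37, -770000), (b41, 293750), (b48, -770000), (b56, -1988500), (b57, -1155000), (b59, 1901900), (b60, 1988500), (b62, -1901900), (b63, 1155000), (b65, 1901900), (b66, -1901900), (b68, -1540000), (b70, 1901900), (b74, -1901900), (b81, -770000), (b89, 1901900), (b90, -1901900), (b95, 2050000), (b98, -770000), (b109, -770000), (b128, -770000), (b161, -1540000), (b163, 1901900), (b167, -1901900), (b174, -770000), (b182, 1901900), (b183, -1901900), (b188, -770000)],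
  [(b0, 3600000), (b1, 2080000), (b3, -2415000), (b20, -2415000), (b34, 2080000), (b67, -2415000), (b95, 2080000), (b160, -2415000)],
  [(b0, 1305000), (b1, -1300000), (b34, -1300000), (b95, -1300000)],
  [(b0, -345000), (b1, -1080000), (b3, 2055000), (b20, 2055000), (b34, -1080000), (b67, 2055000), (b95, -1080000), (b160, 2055000)],
  [(b0, -970000), (b1, -2665000), (b2, 410000), (b3, 2055000), (b4, 770000), (b20, 2055000), (b21, 770000), (b34, -2105000), (b35, 410000), (b37, 385000), (b48, 385000), (b67, 2055000), (b68, 770000), (b81, 385000), (b95, -2105000), (b96, 410000), (b98, 385000), (b109, 385000), (b128, 385000), (b160, 2055000), (b161, 770000), (b174, 385000), (b188, 385000)],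
  [(b0, -345000), (b1, -1080000), (b3, 2055000), (b8, 465000), (b9, 410000), (b20, 2055000), (b34, -1080000), (b41, 410000), (b67, 2055000), (b95, -1080000), (b102, 410000), (b160, 2055000)],
  [(b0, -970000), (b1, -2105000), (b3, 2055000), (b4, 385000), (b20, 2055000), (b21, 385000), (b34, -2665000), (b35, 410000), (b37, 770000), (b48, 770000), (b55, 410000), (b67, 2055000), (b68, 385000), (b81, 770000), (b95, -2105000), (b98, 385000), (b109, 385000), (b116, 410000), (b128, 385000), (b160, 2055000), (b161, 385000), (b174, 770000), (b188, 385000)],
  [(b0, -970000), (b1, -2105000), (b3, 2055000), (b4, 385000), (b20, 2055000), (b21, 385000), (b34, -2105000), (b37, 385000), (b48, 385000), (b67, 2055000), (b68, 385000), (b81, 385000), (b95, -2665000), (b96, 410000), (b98, 770000), (b109, 770000), (b116, 410000), (b128, 770000), (b138, 410000), (b160, 2055000), (b161, 385000), (b174, 385000), (b188, 770000)],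
  [],
  [(b8, 1390000), (b15, -675000), (b20, -385000), (b34, 1390000), (b55, -675000), (b67, -385000), (b95, 1390000), (b138, -675000), (b160, -385000)],
  [(b1, -241700), (b2, -205000), (b8, 241700), (b15, 205000), (b35, -293750), (b41, 293750), (b56, -1988500), (b57, -1155000), (b59, 1901900), (b60, 1988500), (b62, -1901900), (b63, 1155000), (b65, 1901900), (b66, -1901900), (b89, 1901900), (b90, -1901900), (b96, -293750), (b102, 293750), (b139, -1988500), (b140, -1155000), (b142, 1901900), (b143, 1988500), (b145, -1901900), (b146, 1155000), (b148, 1901900), (b149, -1901900), (b157, 1901900), (b158, -1901900), (b182, 1901900), (b183, -1901900), (b199, 1901900), (b200, -1901900)],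
  [(b0, -1250000), (b1, -2050000), (b4, 770000), (b8, -2050000), (b11, 770000), (b21, 770000), (b25, 770000), (b34, -2050000), (b37, 770000), (b48, 770000), (b68, 770000), (b72, 770000), (b81, 770000), (b95, -2050000), (b98, 770000), (b109, 770000), (b128, 770000), (b161, 770000), (b165, 770000), (b174, 770000), (b188, 770000)],
  [(b0, -1250000), (b1, -241700), (b2, -205000), (b8, -3858300), (b9, -293750), (b11, 1540000), (b15, 498750), (b16, -1988500), (b17, -1155000), (b19, 1901900), (b20, 1988500), (b23, -1901900), (b25, 2695000), (b30, 1901900), (b31, -1901900), (b34, -2050000), (b37, 770000), (b48, 770000), (b72, 1540000), (b77, 1901900), (b78, -1901900), (b81, 770000), (b95, -2050000), (b96, -293750), (b98, 770000), (b102, 293750), (b109, 770000), (b128, 770000), (b139, -1988500), (b140, -1155000), (b142, 1901900), (b143, 1988500), (b145, -1901900), (b146, 1155000), (b148, 1901900), (b149, -1901900), (b157, 1901900), (b158, -1901900), (b165, 1540000), (b170, 1901900), (b171, -1901900), (b174, 770000), (b188, 770000), (b199, 1901900), (b200, -1901900)],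
  [(b0, -1250000), (b1, -241700), (b2, -205000), (b8, -2050000), (b11, 770000), (b25, 770000), (b34, -3858300), (b35, -293750), (b37, 1540000), (b48, 1540000), (b55, 498750), (b56, -1988500), (b57, -1155000), (b59, 1901900), (b65, 1901900), (b67, 1988500), (b70, -1901900), (b72, 770000), (b78, -1901900), (b81, 2695000), (b89, 1901900), (b91, -1901900), (b95, -2050000), (b96, -293750), (b98, 770000), (b109, 770000), (b116, 293750), (b128, 770000), (b139, -1988500), (b140, -1155000), (b142, 1901900), (b148, 1901900), (b150, 1988500), (b152, -1901900), (b154, -1901900), (b155, 1155000), (b157, 1901900), (b159, -1901900), (b165, 770000), (b174, 1540000), (b182, 1901900), (b184, -1901900), (b188, 770000), (b199, 1901900), (b201, -1901900)],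
  [(b1, -241700), (b2, -205000), (b9, -293750), (b16, -1988500), (b17, -1155000), (b19, 1901900), (b30, 1901900), (b34, 241700), (b41, 293750), (b45, 1988500), (b47, -1901900), (b53, -1901900), (b55, 205000), (b63, 1155000), (b77, 1901900), (b86, -1901900), (b96, -293750), (b116, 293750), (b139, -1988500), (b140, -1155000), (b142, 1901900), (b148, 1901900), (b150, 1988500), (b152, -1901900), (b154, -1901900), (b155, 1155000), (b157, 1901900), (b159, -1901900), (b170, 1901900), (b179, -1901900), (b199, 1901900), (b201, -1901900)],
  [(b0, -1250000), (b1, -2050000), (b4, 770000), (b8, -2050000), (b11, 770000), (b21, 770000), (b25, 770000), (b34, -2050000), (b37, 770000), (b48, 770000), (b68, 770000), (b72, 770000), (b81, 770000), (b95, -2050000), (b98, 770000), (b109, 770000), (b128, 770000), (b161, 770000), (b165, 770000), (b174, 770000), (b188, 770000)],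
  [(b0, -1250000), (b1, -241700), (b2, -205000), (b8, -3858300), (b9, -293750), (b11, 1540000), (b15, 498750), (b16, -1988500), (b17, -1155000), (b19, 1901900), (b20, 1988500), (b23, -1901900), (b25, 2695000), (b30, 1901900), (b31, -1901900), (b34, -2050000), (b35, -293750), (b37, 770000), (b41, 293750), (b48, 770000), (b56, -1988500), (b57, -1155000), (b59, 1901900), (b60, 1988500), (b62, -1901900), (b63, 1155000), (b65, 1901900), (b66, -1901900), (b72, 1540000), (b77, 1901900), (b78, -1901900), (b81, 770000), (b89, 1901900), (b90, -1901900), (b95, -2050000), (b98, 770000), (b109, 770000), (b128, 770000), (b165, 1540000), (b170, 1901900), (b171, -1901900), (b174, 770000), (b182, 1901900), (b183, -1901900), (b188, 770000)],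
  [(b0, -1250000), (b1, -2050000), (b4, 770000), (b8, -2050000), (b11, 770000), (b21, 770000), (b25, 770000), (b34, -2050000), (b37, 770000), (b48, 770000), (b68, 770000), (b72, 770000), (b81, 770000), (b95, -2050000), (b98, 770000), (b109, 770000), (b128, 770000), (b161, 770000), (b165, 770000), (b174, 770000), (b188, 770000)],
  [(b0, 3600000), (b3, -2415000), (b8, 2080000), (b20, -2415000), (b34, 2080000), (b67, -2415000), (b95, 2080000), (b160, -2415000)],
  [(b0, 1305000), (b8, -1300000), (b34, -1300000), (b95, -1300000)]]

/-- Coefficient rows, group 13. -/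
def rows13 : List Row := [
  [(b0, -345000), (b3, 2055000), (b8, -1080000), (b20, 2055000), (b34, -1080000), (b67, 2055000), (b95, -1080000), (b160, 2055000)],
  [(b0, -345000), (b1, 465000), (b3, 2055000), (b8, -1080000), (b9, 410000), (b20, 2055000), (b34, -1080000), (b35, 410000), (b67, 2055000), (b95, -1080000), (b96, 410000), (b160, 2055000)],
  [(b0, -970000), (b3, 2055000), (b8, -2665000), (b11, 770000), (b15, 410000), (b20, 2055000), (b25, 770000), (b34, -2105000), (b37, 385000), (b41, 410000), (b48, 385000), (b67, 2055000), (b72, 770000), (b81, 385000), (b95, -2105000), (b98, 385000), (b102, 410000), (b109, 385000), (b128, 385000), (b160, 2055000), (b165, 770000), (b174, 385000), (b188, 385000)],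
  [(b0, -970000), (b3, 2055000), (b8, -2105000), (b11, 385000), (b20, 2055000), (b25, 385000), (b34, -2665000), (b37, 770000), (b41, 410000), (b48, 770000), (b55, 410000), (b67, 2055000), (b72, 385000), (b81, 770000), (b95, -2105000), (b98, 385000), (b109, 385000), (b116, 410000), (b128, 385000), (b160, 2055000), (b165, 385000), (b174, 770000), (b188, 385000)],
  [(b0, -970000), (b3, 2055000), (b8, -2105000), (b11, 385000), (b20, 2055000), (b25, 385000), (b34, -2105000), (b37, 385000), (b48, 385000), (b67, 2055000), (b72, 385000), (b81, 385000), (b95, -2665000), (b98, 770000), (b102, 410000), (b109, 770000), (b116, 410000), (b128, 770000), (b138, 410000), (b160, 2055000), (b165, 385000), (b174, 385000), (b188, 770000)],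
  [(b1, -686550), (b2, 1457500), (b4, -732350), (b21, -732350), (b34, 686550), (b37, 732350), (b48, 732350), (b55, -1457500), (b68, -732350), (b81, 732350), (b161, -732350), (b174, 732350)],
  [(b1, -688600), (b2, -2050000), (b5, 770000), (b22, 770000), (b34, 688600), (b55, 2050000), (b58, -770000), (b64, -770000), (b69, 770000), (b88, -770000), (b96, -783300), (b97, 205000), (b99, 385000), (b110, 385000), (b116, 783300), (b119, -385000), (b122, -385000), (b123, -205000), (b129, 385000), (b135, -385000), (b139, 293750), (b150, -293750), (b161, 1988500), (b162, 1925000), (b164, -1901900), (b172, -1901900), (b174, -1988500), (b177, 1901900), (b180, 1901900), (b181, -1925000), (b185, -1901900), (b187, 1901900), (b189, 385000), (b195, -385000), (b203, -1901900), (b205, 1901900)],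
  [(b1, 463750), (b2, -1132500), (b4, 732350), (b21, 732350), (b34, -463750), (b37, -732350), (b48, -732350), (b55, 1132500), (b68, 732350), (b81, -732350), (b161, 732350), (b174, -732350)],
  [(b1, 463750), (b2, -1132500), (b4, 732350), (b21, 732350), (b34, -463750), (b37, -732350), (b48, -732350), (b55, 1132500), (b68, 732350), (b81, -732350), (b161, 732350), (b174, -732350)],
  [(b1, 463750), (b2, -1132500), (b4, 732350), (b21, 732350), (b34, -463750), (b37, -732350), (b48, -732350), (b55, 1132500), (b68, 732350), (b81, -732350), (b161, 732350), (b174, -732350)],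
  [(b1, 463750), (b2, -1132500), (b4, 732350), (b21, 732350), (b34, -463750), (b37, -732350), (b48, -732350), (b55, 1132500), (b68, 732350), (b81, -732350), (b161, 732350), (b174, -732350)],
  [(b1, 463750), (b2, -1132500), (b4, 732350), (b21, 732350), (b34, -463750), (b37, -732350), (b48, -732350), (b55, 1132500), (b68, 732350), (b81, -732350), (b161, 732350), (b174, -732350)],
  [(b1, -1945000), (b2, -752500), (b3, 1025000), (b4, 675000), (b5, -640000), (b6, -385000), (b21, 675000), (b22, -640000), (b23, -385000), (b34, 1945000), (b37, -675000), (b48, -675000), (b55, 752500), (b58, 640000), (b64, 640000), (b67, -1025000), (b68, 675000), (b69, -640000), (b70, 0), (b78, 385000), (b81, -675000), (b88, 640000), (b91, 385000), (b96, -388400), (b97, 3165000), (b99, -3022500), (b110, -3022500), (b116, 388400), (b119, 3022500), (b122, 3022500), (b123, -3165000), (b129, -3022500), (b135, 3022500), (b139, 840000), (b140, 1820000), (b142, -2369500), (b148, -2369500), (b150, -840000), (b152, 2369500), (b154, 2369500), (b155, -1820000), (b157, -2369500), (b159, 2369500), (b161, 1676100), (b162, -2560000), (b163, -385000),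 (b164, 2521600), (b172, 2521600), (b174, -1676100), (b177, -2521600), (b180, -2521600), (b181, 2560000), (b184, 385000), (b185, 2521600), (b187, -2521600), (b189, -3022500), (b195, 3022500), (b199, -2369500), (b201, 2369500), (b203, 2521600), (b205, -2521600)],
  [(b1, 67500), (b2, 727500), (b34, -67500), (b55, -727500), (b96, 367100), (b116, -367100), (b139, 4050), (b150, -4050), (b161, -683850), (b174, 683850)],
  [(b1, 1167500), (b2, 2662500), (b4, -1730000), (b5, -612500), (b21, -1730000), (b22, -612500), (b34, -1167500), (b37, 1730000), (b48, 1730000), (b55, -2662500), (b58, 612500), (b64, 612500), (b68, -1730000), (b69, -612500), (b81, 1730000), (b88, 612500), (b96, 1159950), (b97, -1020000), (b99, 47100), (b110, 47100), (b116, -1159950), (b119, -47100), (b122, -47100), (b123, 1020000), (b129, 47100), (b135, -47100), (b139, 70050), (b140, -5190000), (b142, 5086200), (b148, 5086200), (b150, -70050), (b152, -5086200), (b154, -5086200), (b155, 5190000), (b157, 5086200), (b159, -5086200), (b161, -4232750), (b162, -2450000), (b164, 2413250), (b172, 2413250), (b174, 4232750), (b177, -2413250), (b180, -2413250),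 (b181, 2450000), (b185, 2413250), (b187, -2413250), (b189, 47100), (b195, -47100), (b199, 5086200), (b201, -5086200), (b203, 2413250), (b205, -2413250)],
  [(b1, -222500), (b2, 3675000), (b3, 577500), (b4, -1730000), (b5, -612500), (b21, -1730000), (b22, -612500), (b34, -1167500), (b35, -337500), (b37, 1730000), (b48, 1730000), (b55, -2662500), (b56, -192500), (b58, 612500), (b64, 612500), (b68, -1730000), (b69, -612500), (b81, 1730000), (b88, 612500), (b95, -695000), (b96, 1159950), (b97, -869200), (b99, 47100), (b110, 47100), (b116, -1159950), (b117, -150800), (b119, -47100), (b122, -47100), (b123, 1020000), (b129, 47100), (b135, -47100), (b138, 337500), (b139, 70050), (b140, -5507250), (b142, 5086200), (b148, 5086200), (b150, -70050), (b151, 317250), (b152, -5086200), (b154, -5086200), (b155, 5190000), (b157, 5086200), (b159, -5086200), (b160, 192500), (b161, -4232750), (b162, -2823450), (b164, 2413250), (b172, 2413250), (b174, 4232750), (b175, 373450), (b177, -2413250), (b180, -2413250), (b181, 2450000), (b185, 2413250), (b187, -2413250), (b189, 47100), (b195, -47100), (b199, 5086200), (b201, -5086200),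 (b203, 2413250), (b205, -2413250)],
  [(b1, 1167500), (b2, 2662500), (b4, -1730000), (b5, -612500), (b9, 337500), (b10, 192500), (b21, -1730000), (b22, -612500), (b34, -1167500), (b37, 1730000), (b41, -337500), (b48, 1730000), (b55, -2662500), (b58, 612500), (b60, -192500), (b64, 612500), (b68, -1730000), (b69, -612500), (b81, 1730000), (b88, 612500), (b96, 1159950), (b97, -1020000), (b99, 47100), (b103, 150800), (b110, 47100), (b116, -1159950), (b119, -47100), (b120, -150800), (b122, -47100), (b123, 1020000), (b129, 47100), (b135, -47100), (b139, 70050), (b140, -5190000), (b142, 5086200), (b144, -317250), (b148, 5086200), (b150, -70050), (b152, -5086200), (b153, 317250), (b154, -5086200), (b155, 5190000), (b157, 5086200), (b159, -5086200), (b161, -4232750), (b162, -2450000), (b164, 2413250), (b166, -373450), (b172, 2413250), (b174, 4232750), (b177, -2413250), (b178, 373450), (b180, -2413250), (b181, 2450000), (b185, 2413250), (b187, -2413250), (b189, 47100), (b195, -47100), (b199, 5086200), (b201, -5086200), (b203, 2413250), (b205, -2413250)],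
  [(b1, 1167500), (b2, 2662500), (b4, -1730000), (b5, -612500), (b21, -1730000), (b22, -612500), (b34, 222500), (b35, 337500), (b36, 192500), (b37, 1730000), (b48, 1730000), (b55, -3675000), (b58, 612500), (b64, 612500), (b67, -577500), (b68, -1730000), (b69, -612500), (b81, 1730000), (b88, 612500), (b95, 695000), (b96, 1159950), (b97, -1020000), (b99, 47100), (b110, 47100), (b116, -1159950), (b117, 150800), (b119, -47100), (b122, -47100), (b123, 869200), (b129, 47100), (b135, -47100), (b138, -337500), (b139, 70050), (b140, -5190000), (b142, 5086200), (b148, 5086200), (b150, -70050), (b151, -317250), (b152, -5086200), (b154, -5086200), (b155, 5507250), (b157, 5086200), (b159, -5086200), (b160, -192500), (b161, -4232750), (b162, -2450000), (b164, 2413250), (b172, 2413250), (b174, 4232750), (b175, -373450), (b177, -2413250), (b180, -2413250), (b181, 2823450), (b185, 2413250), (b187, -2413250), (b189, 47100), (b195, -47100), (b199, 5086200), (b201, -5086200), (b203, 2413250), (b205, -2413250)],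
  [(b1, 1167500), (b2, 2662500), (b4, -1730000), (b5, -612500), (b21, -1730000), (b22, -612500), (b34, -1167500), (b37, 1730000), (b48, 1730000), (b55, -2662500), (b58, 612500), (b64, 612500), (b68, -1730000), (b69, -612500), (b81, 1730000), (b88, 612500), (b96, 1497450), (b97, -827500), (b99, 47100), (b110, 47100), (b116, -1497450), (b119, -47100), (b122, -47100), (b123, 827500), (b129, 47100), (b135, -47100), (b139, 220850), (b140, -5190000), (b142, 5086200), (b148, 5086200), (b150, -220850), (b152, -5086200), (b154, -5086200), (b155, 5190000), (b157, 5086200), (b159, -5086200), (b161, -4550000), (b162, -2450000), (b164, 2413250), (b172, 2413250), (b174, 4550000), (b177, -2413250), (b180, -2413250), (b181, 2450000), (b185, 2413250), (b187, -2413250), (b189, -326350), (b195, 326350), (b199, 5086200), (b201, -5086200), (b203, 2413250), (b205, -2413250)],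
  [(b0, -625000), (b1, -2833300), (b2, 498750), (b3, 1988500), (b4, 2310000), (b6, -1901900), (b8, -241700), (b9, -293750), (b10, -1988500), (b13, 1901900), (b15, -205000), (b17, -1155000), (b21, 1155000), (b23, -1901900), (b27, 1901900), (b68, 1155000), (b70, -1901900), (b74, 1901900), (b95, -1025000), (b96, 293750), (b98, 385000), (b102, -293750), (b109, 385000), (b128, 385000), (b139, 1988500), (b140, 1155000), (b142, -1901900), (b143, -1988500), (b145, 1901900), (b146, -1155000), (b148, -1901900), (b149, 1901900), (b157, -1901900), (b158, 1901900), (b161, 1155000), (b163, -1901900), (b167, 1901900), (b188, 385000), (b199, -1901900), (b200, 1901900)],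
  [(b0, -625000), (b1, -2050000), (b4, 770000), (b8, -1025000), (b11, 385000), (b21, 770000), (b25, 385000), (b68, 770000), (b72, 385000), (b95, -1025000), (b98, 385000), (b109, 385000), (b128, 385000), (b161, 770000), (b165, 385000), (b188, 385000)],
  [(b0, -625000), (b1, -2291700), (b2, -205000), (b4, 770000), (b8, 241700), (b15, 205000), (b21, 770000), (b34, -1025000), (b35, -293750), (b37, 385000), (b41, 293750), (b48, 385000), (b56, -1988500), (b57, -1155000), (b59, 1901900), (b60, 1988500), (b62, -1901900), (b63, 1155000), (b65, 1901900), (b66, -1901900), (b68, 770000), (b81, 385000), (b89, 1901900), (b90, -1901900), (b95, -1025000), (b96, -293750), (b98, 385000), (b102, 293750), (b109, 385000), (b128, 385000), (b139, -1988500), (b140, -1155000), (b142, 1901900), (b143, 1988500), (b145, -1901900), (b146, 1155000), (b148, 1901900), (b149, -1901900), (b157, 1901900), (b158, -1901900), (b161, 770000), (b174, 385000), (b182, 1901900), (b183, -1901900), (b188, 385000), (b199, 1901900), (b200, -1901900)],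
  [(b0, -1250000), (b1, -3858300), (b2, 498750), (b3, 1988500), (b4, 2695000), (b6, -1901900), (b21, 1540000), (b23, -1901900), (b34, -2291700), (b35, -293750), (b36, -1988500), (b37, 770000), (b39, 1901900), (b48, 770000), (b50, 1901900), (b55, -205000), (b57, -1155000), (b68, 1540000), (b70, -1901900), (b81, 770000), (b83, 1901900), (b95, -2050000), (b96, 293750), (b98, 770000), (b109, 770000), (b116, -293750), (b128, 770000), (b139, 1988500), (b140, 1155000), (b142, -1901900), (b148, -1901900), (b150, -1988500), (b152, 1901900), (b154, 1901900), (b155, -1155000), (b157, -1901900), (b159, 1901900), (b161, 1540000), (b163, -1901900), (b174, 770000), (b176, 1901900), (b188, 770000), (b199, -1901900), (b201, 1901900)],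
  [(b0, -1250000), (b1, -2050000), (b4, 770000), (b8, -2050000), (b11, 770000), (b21, 770000), (b25, 770000), (b34, -2050000), (b37, 770000), (b48, 770000), (b68, 770000), (b72, 770000), (b81, 770000), (b95, -2050000), (b98, 770000), (b109, 770000), (b128, 770000), (b161, 770000), (b165, 770000), (b174, 770000), (b188, 770000)],
  [(b0, -1250000), (b1, -2291700), (b2, -205000), (b4, 770000), (b21, 770000), (b34, -3858300), (b35, -293750), (b37, 1540000), (b48, 1540000), (b55, 498750), (b56, -1988500), (b57, -1155000), (b59, 1901900), (b65, 1901900), (b67, 1988500), (b68, 770000), (b70, -1901900), (b78, -1901900), (b81, 2695000), (b89, 1901900), (b91, -1901900), (b95, -2050000), (b96, -293750), (b98, 770000), (b109, 770000), (b116, 293750), (b128, 770000), (b139, -1988500), (b140, -1155000), (b142, 1901900), (b148, 1901900), (b150, 1988500), (b152, -1901900), (b154, -1901900), (b155, 1155000), (b157, 1901900), (b159, -1901900), (b161, 770000), (b174, 1540000), (b182, 1901900), (b184, -1901900), (b188, 770000), (b199, 1901900), (b201, -1901900)]]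

/-- Coefficient rows, group 14. -/
def rows14 : List Row := [
  [(b0, 1250000), (b1, 3858300), (b2, -498750), (b3, -1988500), (b4, -2695000), (b6, 1901900), (b8, 2050000), (b9, -293750), (b11, -770000), (b16, -1988500), (b17, -1155000), (b19, 1901900), (b21, -1540000), (b23, 1901900), (b25, -770000), (b30, 1901900), (b34, 241700), (b35, 293750), (b36, 1988500), (b39, -1901900), (b41, 293750), (b45, 1988500), (b47, -1901900), (b50, -1901900), (b53, -1901900), (b55, 205000), (b57, 1155000), (b63, 1155000), (b68, -1540000), (b70, 1901900), (b72, -770000), (b77, 1901900), (b83, -1901900), (b86, -1901900), (b95, 2050000), (b98, -770000), (b109, -770000), (b128, -770000), (b161, -1540000), (b163, 1901900), (b165, -770000), (b170, 1901900), (b176, -1901900), (b179, -1901900), (b188, -770000)],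
  [(b0, 3600000), (b1, 4160000), (b2, -1487552), (b3, -6847600), (b5, 3171700), (b9, 1487552), (b10, 2216300), (b12, -3171700), (b16, 2216300), (b20, -2415000), (b22, 3171700), (b26, -3171700), (b35, 1487552), (b36, 2216300), (b38, -3171700), (b41, -1487552), (b44, 3171700), (b45, -2216300), (b49, -3171700), (b52, 3171700), (b56, 2216300), (b60, -2216300), (b67, -2415000), (b69, 3171700), (b73, -3171700), (b82, -3171700), (b85, 3171700), (b95, 2080000), (b160, -2415000), (b162, 3171700), (b166, -3171700), (b175, -3171700), (b178, 3171700)],
  [(b0, 1305000), (b1, -2600000), (b2, -408900), (b3, 1261000), (b9, 408900), (b10, -630500), (b16, -630500), (b35, 408900), (b36, -630500), (b41, -408900), (b45, 630500), (b56, -630500), (b60, 630500), (b95, -1300000)],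
  [(b0, -345000), (b1, -2160000), (b2, 108100), (b3, 5157600), (b5, -2698900), (b9, -108100), (b10, -1551300), (b12, 2698900), (b16, -1551300), (b20, 2055000), (b22, -2698900), (b26, 2698900), (b35, -108100), (b36, -1551300), (b38, 2698900), (b41, 108100), (b44, -2698900), (b45, 1551300), (b49, 2698900), (b52, -2698900), (b56, -1551300), (b60, 1551300), (b67, 2055000), (b69, -2698900), (b73, 2698900), (b82, 2698900), (b85, -2698900), (b95, -1080000), (b160, 2055000), (b162, -2698900), (b166, 2698900), (b175, 2698900), (b178, -2698900)],
  [(b0, -1595000), (b1, -7603300), (b2, 1720600), (b3, 8833900), (b4, 4017300), (b5, -2698900), (b6, -3803800), (b8, -120850), (b9, -401850), (b10, -3239100), (b11, 301350), (b12, 2698900), (b13, 1901900), (b15, -102500), (b16, -1551300), (b17, -853650), (b20, 2055000), (b21, 2310000), (b22, -2698900), (b23, -3803800), (b26, 2698900), (b27, 1901900), (b34, -120850), (b35, -401850), (b36, -3239100), (b37, 301350), (b38, 2698900), (b39, 1901900), (b41, 108100), (b42, -300700), (b44, -2698900), (b45, 1551300), (b46, -301350), (b49, 2698900), (b50, 1901900), (b52, -2698900),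 (b55, -102500), (b56, -1551300), (b57, -853650), (b60, 1551300), (b61, -301350), (b67, 2055000), (b68, 2310000), (b69, -2698900), (b70, -3803800), (b73, 2698900), (b74, 1901900), (b82, 2698900), (b83, 1901900), (b85, -2698900), (b95, -3130000), (b96, 410000), (b98, 770000), (b109, 770000), (b128, 770000), (b160, 2055000), (b161, 2310000), (b162, -2698900), (b163, -3803800), (b166, 2698900), (b167, 1901900), (b175, 2698900), (b176, 1901900), (b178, -2698900), (b188, 770000)],
  [(b0, -345000), (b1, -2280850), (b2, 5600), (b3, 5157600), (b5, -2698900), (b8, 465000), (b9, 418150), (b10, -1852000), (b11, -602700), (b12, 2698900), (b16, -3239100), (b17, -853650), (b19, 1901900), (b20, 2055000), (b21, 301350), (b22, -2698900), (b26, 2698900), (b30, 1901900), (b34, 120850), (b35, -108100), (b36, -1551300), (b38, 2698900), (b41, 401850), (b42, 300700), (b43, 301350), (b44, -2698900), (b45, 3239100), (b47, -1901900), (b48, -301350), (b49, 2698900), (b52, -2698900), (b53, -1901900), (b55, 102500), (b56, -1551300), (b60, 1551300), (b61, 301350), (b63, 853650), (b67, 2055000), (b69, -2698900), (b73, 2698900), (b77,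 1901900), (b82, 2698900), (b85, -2698900), (b86, -1901900), (b95, -1080000), (b102, 410000), (b160, 2055000), (b162, -2698900), (b166, 2698900), (b170, 1901900), (b175, 2698900), (b178, -2698900), (b179, -1901900)],
  [(b0, -345000), (b1, -2280850), (b2, 5600), (b3, 5157600), (b5, -2698900), (b8, 120850), (b9, -108100), (b10, -1551300), (b12, 2698900), (b15, 102500), (b16, -1551300), (b20, 2055000), (b22, -2698900), (b26, 2698900), (b34, 465000), (b35, 418150), (b36, -1852000), (b37, -602700), (b38, 2698900), (b41, 401850), (b42, 300700), (b43, 301350), (b44, -2698900), (b45, 1551300), (b46, 301350), (b49, 2698900), (b52, -2698900), (b56, -3239100), (b57, -853650), (b59, 1901900), (b60, 3239100), (b62, -1901900), (b63, 853650), (b65, 1901900), (b66, -1901900), (b67, 2055000), (b68, 301350), (b69, -2698900), (b72, -301350), (b73, 2698900), (b82, 2698900), (b85, -2698900), (b89, 1901900), (b90, -1901900), (b95, -1080000), (b116, 410000), (b160, 2055000), (b162, -2698900), (b166, 2698900), (b175, 2698900), (b178, -2698900), (b182, 1901900), (b183, -1901900)],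
  [(b0, -970000), (b1, -4210000), (b2, 108100), (b3, 5157600), (b4, 770000), (b5, -2698900), (b9, -108100), (b10, -1551300), (b12, 2698900), (b16, -1551300), (b20, 2055000), (b21, 770000), (b22, -2698900), (b26, 2698900), (b35, -108100), (b36, -1551300), (b38, 2698900), (b41, 108100), (b44, -2698900), (b45, 1551300), (b49, 2698900), (b52, -2698900), (b56, -1551300), (b60, 1551300), (b67, 2055000), (b68, 770000), (b69, -2698900), (b73, 2698900), (b82, 2698900), (b85, -2698900), (b95, -2665000), (b96, 820000), (b97, -300700), (b98, 167300), (b103, 300700), (b104, 301350), (b107, 301350), (b109, 770000), (b117, 300700), (b118, 301350), (b120, -300700), (b121, -301350), (b124, 301350), (b126, -301350), (b128, 770000), (b138, 410000), (b160, 2055000), (b161, 770000), (b162, -2698900), (b166, 2698900), (b175, 2698900), (b178, -2698900), (b188, 770000)],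
  [(b0, 0), (b1, 1808300), (b2, -498750), (b3, -1988500), (b4, -1925000), (b6, 1901900), (b21, -770000), (b23, 1901900), (b34, -1808300), (b36, 1988500), (b37, 770000), (b39, -1901900), (b48, 770000), (b50, -1901900), (b55, 498750), (b56, -1988500), (b59, 1901900), (b65, 1901900), (b67, 1988500), (b68, -770000), (b78, -1901900), (b81, 1925000), (b83, -1901900), (b89, 1901900), (b91, -1901900), (b95, 0), (b98, 0), (b109, 0), (b128, 0), (b161, -770000), (b163, 1901900), (b174, 770000), (b176, -1901900), (b182, 1901900), (b184, -1901900), (b188, 0)],
  [(b0, -1250000), (b1, -241700), (b2, -205000), (b8, -2050000), (b9, -293750), (b11, 770000), (b16, -1988500), (b17, -1155000), (b19, 1901900), (b25, 770000), (b30, 1901900), (b34, -3858300), (b35, -293750), (b37, 1540000), (b41, 293750), (b45, 1988500), (b47, -1901900), (b48, 1540000), (b53, -1901900), (b55, 498750), (b56, -1988500), (b57, -1155000), (b59, 1901900), (b63, 1155000), (b65, 1901900), (b67, 1988500), (b70, -1901900), (b72, 770000), (b77, 1901900), (b78, -1901900), (b81, 2695000), (b86, -1901900), (b89, 1901900), (b91, -1901900), (b95, -2050000),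 (b98, 770000), (b109, 770000), (b128, 770000), (b165, 770000), (b170, 1901900), (b174, 1540000), (b179, -1901900), (b182, 1901900), (b184, -1901900), (b188, 770000)],
  [(b0, 3600000), (b1, 2080000), (b2, -743776), (b3, -4631300), (b5, 1585850), (b20, -2415000), (b22, 1585850), (b34, 2080000), (b35, 1487552), (b36, 2216300), (b38, -3171700), (b49, -3171700), (b55, -743776), (b56, 2216300), (b58, 1585850), (b64, 1585850), (b67, -4631300), (b69, 1585850), (b82, -3171700), (b88, 1585850), (b95, 2080000), (b160, -2415000), (b162, 1585850), (b175, -3171700), (b181, 1585850)],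
  [(b0, 1305000), (b1, -1300000), (b2, -204450), (b3, 630500), (b34, -1300000), (b35, 408900), (b36, -630500), (b55, -204450), (b56, -630500), (b67, 630500), (b95, -1300000)],
  [(b0, -345000), (b1, -1080000), (b2, 54050), (b3, 3606300), (b5, -1349450), (b20, 2055000), (b22, -1349450), (b34, -1080000), (b35, -108100), (b36, -1551300), (b38, 2698900), (b49, 2698900), (b55, 54050), (b56, -1551300), (b58, -1349450), (b64, -1349450), (b67, 3606300), (b69, -1349450), (b82, 2698900), (b88, -1349450), (b95, -1080000), (b160, 2055000), (b162, -1349450), (b175, 2698900), (b181, -1349450)],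
  [(b0, -970000), (b1, -3569150), (b2, 860300), (b3, 5444450), (b4, 2008650), (b5, -1349450), (b6, -1901900), (b20, 2055000), (b21, 1155000), (b22, -1349450), (b23, -1901900), (b34, -1200850), (b35, 8150), (b36, -3239100), (b37, 301350), (b38, 2698900), (b39, 1901900), (b49, 2698900), (b50, 1901900), (b55, -48450), (b56, -1701650), (b57, -853650), (b58, -1349450), (b64, -1349450), (b67, 3606300), (b68, 853650), (b69, -1349450), (b70, -1901900), (b82, 2698900), (b83, 1901900), (b88, -1349450), (b95, -2105000), (b96, 410000), (b98, 385000), (b109, 385000), (b128, 385000), (b160, 2055000), (b161, 1155000), (b162, -1349450), (b163, -1901900), (b175, 2698900), (b176, 1901900), (b181, -1349450), (b188, 385000)],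
  [(b0, -345000), (b1, -1080000), (b2, 54050), (b3, 3606300), (b5, -1349450), (b8, 465000), (b9, 410000), (b10, -150350), (b11, -301350), (b20, 2055000), (b22, -1349450), (b34, -1080000), (b35, -108100), (b36, -1551300), (b38, 2698900), (b41, 410000), (b42, 300700), (b43, 301350), (b49, 2698900), (b55, 54050), (b56, -1551300), (b58, -1349450), (b60, -150350), (b61, 301350), (b64, -1349450), (b67, 3606300), (b69, -1349450), (b72, -301350), (b82, 2698900), (b88, -1349450), (b95, -1080000), (b102, 410000), (b160, 2055000), (b162, -1349450), (b175, 2698900), (b181, -1349450)],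
  [(b0, -970000), (b1, -1200850), (b2, -48450), (b3, 3606300), (b5, -1349450), (b20, 2055000), (b22, -1349450), (b34, -3569150), (b35, 8150), (b36, -1701650), (b37, 853650), (b38, 2698900), (b48, 1155000), (b49, 2698900), (b55, 860300), (b56, -3239100), (b57, -853650), (b58, -1349450), (b59, 1901900), (b64, -1349450), (b65, 1901900), (b67, 5444450), (b68, 301350), (b69, -1349450), (b70, -1901900), (b78, -1901900), (b81, 2008650), (b82, 2698900), (b88, -1349450), (b89, 1901900), (b91, -1901900), (b95, -2105000), (b98, 385000), (b109, 385000), (b116, 410000), (b128, 385000), (b160, 2055000), (b162, -1349450), (b174, 1155000), (b175, 2698900), (b181, -1349450), (b182, 1901900), (b184, -1901900), (b188, 385000)],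
  [(b0, -970000), (b1, -2105000), (b2, 54050), (b3, 3606300), (b4, 385000), (b5, -1349450), (b20, 2055000), (b21, 385000), (b22, -1349450), (b34, -2105000), (b35, -108100), (b36, -1551300), (b37, 385000), (b38, 2698900), (b48, 385000), (b49, 2698900), (b55, 54050), (b56, -1551300), (b58, -1349450), (b64, -1349450), (b67, 3606300), (b68, 385000), (b69, -1349450), (b81, 385000), (b82, 2698900), (b88, -1349450), (b95, -2665000), (b96, 410000), (b97, -150350), (b98, 468650), (b109, 770000), (b116, 410000), (b117, 300700), (b118, 301350), (b123, -150350), (b124, 301350), (b128, 468650), (b138, 410000), (b160, 2055000), (b161, 385000), (b162, -1349450), (b174, 385000), (b175, 2698900), (b181, -1349450), (b188, 770000)],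
  [(b1, -686550), (b2, 1457500), (b4, -732350), (b21, -732350), (b68, -732350), (b95, 686550), (b98, 732350), (b109, 732350), (b128, 732350), (b138, -1457500), (b161, -732350), (b188, 732350)],
  [(b1, -688600), (b2, -2833300), (b3, 498750), (b4, 1988500), (b5, 2310000), (b7, -1901900), (b22, 1155000), (b24, -1901900), (b69, 1155000), (b71, -1901900), (b95, 688600), (b96, 783300), (b97, -293750), (b98, -1988500), (b99, -385000), (b101, 1901900), (b110, -385000), (b112, 1901900), (b129, -385000), (b131, 1901900), (b138, 2050000), (b139, -205000), (b141, -1925000), (b147, -770000), (b156, -770000), (b162, 1155000), (b164, -1901900), (b189, -385000), (b191, 1901900), (b198, -770000)],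
  [(b1, 463750), (b2, -1132500), (b4, 732350), (b21, 732350), (b68, 732350), (b95, -463750), (b98, -732350), (b109, -732350), (b128, -732350), (b138, 1132500), (b161, 732350), (b188, -732350)],
  [(b1, 463750), (b2, -1132500), (b4, 732350), (b21, 732350), (b68, 732350), (b95, -463750), (b98, -732350), (b109, -732350), (b128, -732350), (b138, 1132500), (b161, 732350), (b188, -732350)],
  [(b1, 463750), (b2, -1132500), (b4, 732350), (b21, 732350), (b68, 732350), (b95, -463750), (b98, -732350), (b109, -732350), (b128, -732350), (b138, 1132500), (b161, 732350), (b188, -732350)],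
  [(b1, 463750), (b2, -1132500), (b4, 732350), (b21, 732350), (b68, 732350), (b95, -463750), (b98, -732350), (b109, -732350), (b128, -732350), (b138, 1132500), (b161, 732350), (b188, -732350)],
  [(b1, 463750), (b2, -1132500), (b4, 732350), (b21, 732350), (b68, 732350), (b95, -463750), (b98, -732350), (b109, -732350), (b128, -732350), (b138, 1132500), (b161, 732350), (b188, -732350)],
  [(b1, -1945000), (b2, -1140900), (b3, 5030000), (b4, 3496100), (b5, -5582500), (b6, -2754500), (b7, 2521600), (b21, 675000), (b22, -3662500), (b23, -2754500), (b24, 2521600), (b68, 675000), (b69, -3662500), (b70, -2754500), (b71, 2521600), (b95, 1945000), (b96, 388400), (b97, -840000), (b98, -1676100), (b99, 3022500), (b100, 2369500), (b101, -2521600), (b109, -675000), (b110, 3022500), (b111, 2369500), (b112, -2521600), (b128, -675000), (b129, 3022500), (b130, 2369500), (b131, -2521600), (b138, 752500), (b139, -3165000), (b140, -1820000), (b141, 2560000), (b147, 640000), (b156, 640000), (b160, -1025000), (b161, 675000), (b162, -3662500), (b163, -2369500), (b164, 2521600), (b171, 385000), (b184, 385000), (b188, -675000), (b189,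 3022500), (b190, 2369500), (b191, -2521600), (b198, 640000), (b202, 385000)]]

/-- Coefficient rows, group 15. -/
def rows15 : List Row := [
  [(b1, 67500), (b2, 1094600), (b3, 4050), (b4, -683850), (b95, -67500), (b96, -367100), (b97, -4050), (b98, 683850), (b138, -727500)],
  [(b1, 1167500), (b2, 3822450), (b3, -949950), (b4, -9422750), (b5, -2402900), (b6, 5086200), (b7, 2413250), (b21, -1730000), (b22, -565400), (b23, 5086200), (b24, 2413250), (b68, -1730000), (b69, -565400), (b70, 5086200), (b71, 2413250), (b95, -1167500), (b96, -1159950), (b97, -70050), (b98, 4232750), (b99, -47100), (b100, -5086200), (b101, -2413250), (b109, 1730000), (b110, -47100), (b111, -5086200), (b112, -2413250), (b128, 1730000), (b129, -47100), (b130, -5086200), (b131, -2413250), (b138, -2662500), (b139, 1020000), (b140, 5190000), (b141, 2450000), (b147, 612500), (b156, 612500), (b161, -1730000), (b162, -565400), (b163, 5086200), (b164, 2413250), (b188, 1730000), (b189, -47100), (b190, -5086200), (b191, -2413250), (b198, 612500)],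
  [(b1, 472500), (b2, 4497450), (b3, -414150), (b4, -9740000), (b5, -2776350), (b6, 5086200), (b7, 2413250), (b21, -1730000), (b22, -565400), (b23, 5086200), (b24, 2413250), (b68, -1730000), (b69, -565400), (b70, 5086200), (b71, 2413250), (b95, -1167500), (b96, -1497450), (b97, -220850), (b98, 4550000), (b99, 326350), (b100, -5086200), (b101, -2413250), (b109, 1730000), (b110, -47100), (b111, -5086200), (b112, -2413250), (b128, 1730000), (b129, -47100), (b130, -5086200), (b131, -2413250), (b138, -2662500), (b139, 827500), (b140, 5190000), (b141, 2450000), (b147, 612500), (b156, 612500), (b161, -1730000), (b162, -565400), (b163, 5086200), (b164, 2413250), (b188, 1730000), (b189, -47100), (b190, -5086200), (b191, -2413250), (b198, 612500)],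
  [(b1, 1167500), (b2, 3822450), (b3, -949950), (b4, -9422750), (b5, -2402900), (b6, 5086200), (b7, 2413250), (b9, 337500), (b10, 343300), (b11, -317250), (b12, -373450), (b21, -1730000), (b22, -565400), (b23, 5086200), (b24, 2413250), (b68, -1730000), (b69, -565400), (b70, 5086200), (b71, 2413250), (b95, -1167500), (b96, -1159950), (b97, -70050), (b98, 4232750), (b99, -47100), (b100, -5086200), (b101, -2413250), (b102, -337500), (b103, -150800), (b104, 317250), (b105, 373450), (b109, 1730000), (b110, -47100), (b111, -5086200), (b112, -2413250), (b128, 1730000), (b129, -47100), (b130, -5086200), (b131, -2413250), (b138, -2662500), (b139, 1020000), (b140, 5190000), (b141, 2450000), (b143, -192500), (b147, 612500), (b156, 612500), (b161, -1730000), (b162, -565400), (b163, 5086200), (b164, 2413250), (b188, 1730000), (b189, -47100), (b190, -5086200), (b191, -2413250), (b198, 612500)],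
  [(b1, 1167500), (b2, 3822450), (b3, -949950), (b4, -9422750), (b5, -2402900), (b6, 5086200), (b7, 2413250), (b21, -1730000), (b22, -565400), (b23, 5086200), (b24, 2413250), (b35, 337500), (b36, 343300), (b37, -317250), (b38, -373450), (b68, -1730000), (b69, -565400), (b70, 5086200), (b71, 2413250), (b95, -1167500), (b96, -1159950), (b97, -70050), (b98, 4232750), (b99, -47100), (b100, -5086200), (b101, -2413250), (b109, 1730000), (b110, -47100), (b111, -5086200), (b112, -2413250), (b116, -337500), (b117, -150800), (b118, 317250), (b119, 373450), (b128, 1730000), (b129, -47100), (b130, -5086200), (b131, -2413250), (b138, -2662500), (b139, 1020000), (b140, 5190000), (b141, 2450000), (b147, 612500), (b150, -192500), (b156, 612500), (b161, -1730000), (b162, -565400), (b163, 5086200), (b164, 2413250), (b188, 1730000), (b189, -47100), (b190, -5086200), (b191, -2413250), (b198, 612500)],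
  [(b1, 1862500), (b2, 3484950), (b3, -1142450), (b4, -9422750), (b5, -2402900), (b6, 5086200), (b7, 2413250), (b21, -1730000), (b22, -565400), (b23, 5086200), (b24, 2413250), (b68, -1730000), (b69, -565400), (b70, 5086200), (b71, 2413250), (b95, 222500), (b96, -822450), (b97, 273250), (b98, 3915500), (b99, -420550), (b100, -5086200), (b101, -2413250), (b109, 1730000), (b110, -47100), (b111, -5086200), (b112, -2413250), (b128, 1730000), (b129, -47100), (b130, -5086200), (b131, -2413250), (b138, -3675000), (b139, 869200), (b140, 5507250), (b141, 2823450), (b147, 612500), (b156, 612500), (b160, -577500), (b161, -1730000), (b162, -565400), (b163, 5086200), (b164, 2413250), (b188, 1730000), (b189, -47100), (b190, -5086200), (b191, -2413250), (b198, 612500)],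
  [(b0, 1200000), (b1, 2080000), (b2, -1487552), (b3, -5237600), (b5, 3171700), (b9, 1487552), (b10, 2216300), (b12, -3171700), (b16, 2216300), (b20, -805000), (b22, 3171700), (b26, -3171700), (b67, -805000), (b69, 3171700), (b73, -3171700), (b96, 1487552), (b97, 2216300), (b99, -3171700), (b102, -1487552), (b105, 3171700), (b106, -2216300), (b110, -3171700), (b113, 3171700), (b129, -3171700), (b132, 3171700), (b139, 2216300), (b143, -2216300), (b160, -805000), (b162, 3171700), (b166, -3171700), (b189, -3171700), (b192, 3171700)],
  [(b0, 435000), (b1, -1300000), (b2, -408900), (b3, 1261000), (b9, 408900), (b10, -630500), (b16, -630500), (b96, 408900), (b97, -630500), (b102, -408900), (b106, 630500), (b139, -630500), (b143, 630500)],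
  [(b0, -115000), (b1, -1080000), (b2, 108100), (b3, 3787600), (b5, -2698900), (b9, -108100), (b10, -1551300), (b12, 2698900), (b16, -1551300), (b20, 685000), (b22, -2698900), (b26, 2698900), (b67, 685000), (b69, -2698900), (b73, 2698900), (b96, -108100), (b97, -1551300), (b99, 2698900), (b102, 108100), (b105, -2698900), (b106, 1551300), (b110, 2698900), (b113, -2698900), (b129, 2698900), (b132, -2698900), (b139, -1551300), (b143, 1551300), (b160, 685000), (b162, -2698900), (b166, 2698900), (b189, 2698900), (b192, -2698900)],
  [(b0, -740000), (b1, -4783300), (b2, 1310600), (b3, 7463900), (b4, 3247300), (b5, -2698900), (b6, -3803800), (b8, -120850), (b9, -401850), (b10, -3239100), (b11, 301350), (b12, 2698900), (b13, 1901900), (b15, -102500), (b16, -1551300), (b17, -853650), (b20, 685000), (b21, 1540000), (b22, -2698900), (b23, -3803800), (b26, 2698900), (b27, 1901900), (b67, 685000), (b68, 1540000), (b69, -2698900), (b70, -3803800), (b73, 2698900), (b74, 1901900), (b95, -120850), (b96, -401850), (b97, -3239100), (b98, 301350), (b99, 2698900), (b100, 1901900), (b102, 108100), (b103, -300700), (b105, -2698900),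 (b106, 1551300), (b107, -301350), (b110, 2698900), (b111, 1901900), (b113, -2698900), (b129, 2698900), (b130, 1901900), (b132, -2698900), (b138, -102500), (b139, -1551300), (b140, -853650), (b143, 1551300), (b144, -301350), (b160, 685000), (b161, 1540000), (b162, -2698900), (b163, -3803800), (b166, 2698900), (b167, 1901900), (b189, 2698900), (b190, 1901900), (b192, -2698900)],
  [(b0, -115000), (b1, -1200850), (b2, 5600), (b3, 3787600), (b5, -2698900), (b8, 155000), (b9, 8150), (b10, -1852000), (b11, -602700), (b12, 2698900), (b16, -3239100), (b17, -853650), (b19, 1901900), (b20, 685000), (b21, 301350), (b22, -2698900), (b26, 2698900), (b30, 1901900), (b67, 685000), (b69, -2698900), (b73, 2698900), (b77, 1901900), (b95, 120850), (b96, -108100), (b97, -1551300), (b99, 2698900), (b102, 401850), (b103, 300700), (b104, 301350), (b105, -2698900), (b106, 3239100), (b108, -1901900), (b109, -301350), (b110, 2698900), (b113, -2698900), (b114, -1901900), (b129, 2698900), (b132, -2698900), (b133, -1901900), (b138, 102500), (b139, -1551300), (b143, 1551300), (b144, 301350), (b146, 853650), (b160, 685000), (b162, -2698900),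 (b166, 2698900), (b170, 1901900), (b189, 2698900), (b192, -2698900), (b193, -1901900)],
  [(b0, -115000), (b1, -1080000), (b2, 108100), (b3, 3787600), (b5, -2698900), (b9, -108100), (b10, -1551300), (b12, 2698900), (b16, -1551300), (b20, 685000), (b22, -2698900), (b26, 2698900), (b34, 155000), (b35, 410000), (b36, -300700), (b37, -602700), (b42, 300700), (b43, 301350), (b46, 301350), (b67, 685000), (b69, -2698900), (b73, 2698900), (b96, -108100), (b97, -1551300), (b99, 2698900), (b102, 108100), (b105, -2698900), (b106, 1551300), (b110, 2698900), (b113, -2698900), (b117, 300700), (b118, 301350), (b120, -300700), (b121, -301350), (b129, 2698900), (b132, -2698900), (b139, -1551300), (b143, 1551300), (b151, 301350), (b153, -301350), (b160, 685000), (b162, -2698900), (b166, 2698900), (b189, 2698900), (b192, -2698900)],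
  [(b0, -115000), (b1, -1200850), (b2, 5600), (b3, 3787600), (b5, -2698900), (b8, 120850), (b9, -108100), (b10, -1551300), (b12, 2698900), (b15, 102500), (b16, -1551300), (b20, 685000), (b22, -2698900), (b26, 2698900), (b67, 685000), (b69, -2698900), (b73, 2698900), (b95, 155000), (b96, 8150), (b97, -1852000), (b98, -602700), (b99, 2698900), (b102, 401850), (b103, 300700), (b104, 301350), (b105, -2698900), (b106, 1551300), (b107, 301350), (b110, 2698900), (b113, -2698900), (b129, 2698900), (b132, -2698900), (b139, -3239100), (b140, -853650), (b142, 1901900), (b143, 3239100), (b145, -1901900), (b146, 853650), (b148, 1901900), (b149, -1901900), (b157, 1901900), (b158, -1901900), (b160, 685000), (b161, 301350), (b162, -2698900), (b165, -301350), (b166, 2698900), (b189, 2698900), (b192, -2698900), (b199, 1901900), (b200, -1901900)],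
  [(b0, -625000), (b1, -2833300), (b2, 498750), (b3, 1988500), (b4, 2310000), (b6, -1901900), (b8, -1025000), (b9, 293750), (b11, 385000), (b16, 1988500), (b17, 1155000), (b19, -1901900), (b21, 1155000), (b23, -1901900), (b25, 385000), (b30, -1901900), (b68, 1155000), (b70, -1901900), (b72, 385000), (b77, -1901900), (b95, -241700), (b96, -293750), (b97, -1988500), (b100, 1901900), (b102, -293750), (b106, -1988500), (b108, 1901900), (b111, 1901900), (b114, 1901900), (b130, 1901900), (b133, 1901900), (b138, -205000), (b140, -1155000), (b146, -1155000), (b161, 1155000), (b163, -1901900), (b165, 385000), (b170, -1901900), (b190, 1901900), (b193, 1901900)],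
  [(b1, -241700), (b2, -205000), (b9, -293750), (b16, -1988500), (b17, -1155000), (b19, 1901900), (b30, 1901900), (b35, -293750), (b56, -1988500), (b57, -1155000), (b59, 1901900), (b65, 1901900), (b77, 1901900), (b89, 1901900), (b95, 241700), (b102, 293750), (b106, 1988500), (b108, -1901900), (b114, -1901900), (b116, 293750), (b123, 1988500), (b125, -1901900), (b127, -1901900), (b133, -1901900), (b136, -1901900), (b138, 205000), (b146, 1155000), (b155, 1155000), (b170, 1901900), (b182, 1901900), (b193, -1901900), (b196, -1901900)],
  [(b0, -625000), (b1, -2833300), (b2, 498750), (b3, 1988500), (b4, 2310000), (b6, -1901900), (b21, 1155000), (b23, -1901900), (b34, -1025000), (b35, 293750), (b37, 385000), (b48, 385000), (b56, 1988500), (b57, 1155000), (b59, -1901900), (b65, -1901900), (b68, 1155000), (b70, -1901900), (b81, 385000), (b89, -1901900), (b95, -241700), (b96, -293750), (b97, -1988500), (b100, 1901900), (b111, 1901900), (b116, -293750), (b123, -1988500), (b125, 1901900), (b127, 1901900), (b130, 1901900), (b136, 1901900), (b138, -205000), (b140, -1155000), (b155, -1155000), (b161, 1155000), (b163,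 -1901900), (b174, 385000), (b182, -1901900), (b190, 1901900), (b196, 1901900)],
  [(b0, 1200000), (b1, 2080000), (b2, -1487552), (b3, -5237600), (b5, 3171700), (b20, -805000), (b22, 3171700), (b35, 1487552), (b36, 2216300), (b38, -3171700), (b49, -3171700), (b56, 2216300), (b67, -805000), (b69, 3171700), (b82, -3171700), (b96, 1487552), (b97, 2216300), (b99, -3171700), (b110, -3171700), (b116, -1487552), (b119, 3171700), (b122, 3171700), (b123, -2216300), (b129, -3171700), (b135, 3171700), (b139, 2216300), (b150, -2216300), (b160, -805000), (b162, 3171700), (b175, -3171700), (b189, -3171700), (b195, 3171700)],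
  [(b0, 435000), (b1, -1300000), (b2, -408900), (b3, 1261000), (b35, 408900), (b36, -630500), (b56, -630500), (b96, 408900), (b97, -630500), (b116, -408900), (b123, 630500), (b139, -630500), (b150, 630500)],
  [(b0, -115000), (b1, -1080000), (b2, 108100), (b3, 3787600), (b5, -2698900), (b20, 685000), (b22, -2698900), (b35, -108100), (b36, -1551300), (b38, 2698900), (b49, 2698900), (b56, -1551300), (b67, 685000), (b69, -2698900), (b82, 2698900), (b96, -108100), (b97, -1551300), (b99, 2698900), (b110, 2698900), (b116, 108100), (b119, -2698900), (b122, -2698900), (b123, 1551300), (b129, 2698900), (b135, -2698900), (b139, -1551300), (b150, 1551300), (b160, 685000), (b162, -2698900), (b175, 2698900), (b189, 2698900), (b195, -2698900)],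
  [(b0, -740000), (b1, -4783300), (b2, 1310600), (b3, 7463900), (b4, 3247300), (b5, -2698900), (b6, -3803800), (b20, 685000), (b21, 1540000), (b22, -2698900), (b23, -3803800), (b34, -120850), (b35, -401850), (b36, -3239100), (b37, 301350), (b38, 2698900), (b39, 1901900), (b49, 2698900), (b50, 1901900), (b55, -102500), (b56, -1551300), (b57, -853650), (b67, 685000), (b68, 1540000), (b69, -2698900), (b70, -3803800), (b82, 2698900), (b83, 1901900), (b95, -120850), (b96, -401850), (b97, -3239100), (b98, 301350), (b99, 2698900), (b100, 1901900), (b110, 2698900), (b111, 1901900), (b116, 108100), (b117, -300700), (b119, -2698900), (b122, -2698900), (b123, 1551300), (b124, -301350), (b129, 2698900), (b130, 1901900), (b135, -2698900), (b138, -102500), (b139, -1551300), (b140, -853650), (b150, 1551300), (b151, -301350), (b160, 685000), (b161, 1540000), (b162, -2698900), (b163, -3803800), (b175, 2698900), (b176, 1901900), (b189, 2698900), (b190, 1901900), (b195, -2698900)],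
  [(b0, -115000), (b1, -1080000), (b2, 108100), (b3, 3787600), (b5, -2698900), (b8, 155000), (b9, 410000), (b10, -300700), (b11, -602700), (b20, 685000), (b22, -2698900), (b35, -108100), (b36, -1551300), (b38, 2698900), (b42, 300700), (b43, 301350), (b49, 2698900), (b56, -1551300), (b61, 301350), (b67, 685000), (b69, -2698900), (b82, 2698900), (b96, -108100), (b97, -1551300), (b99, 2698900), (b103, 300700), (b104, 301350), (b110, 2698900), (b116, 108100), (b119, -2698900), (b120, -300700), (b122, -2698900), (b123, 1551300), (b126, -301350), (b129, 2698900), (b135, -2698900), (b139, -1551300), (b144, 301350), (b150, 1551300), (b153, -301350), (b160, 685000), (b162, -2698900), (b175, 2698900), (b189, 2698900), (b195, -2698900)],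
  [(b0, -115000), (b1, -1200850), (b2, 5600), (b3, 3787600), (b5, -2698900), (b20, 685000), (b22, -2698900), (b34, 155000), (b35, 8150), (b36, -1852000), (b37, -602700), (b38, 2698900), (b49, 2698900), (b56, -3239100), (b57, -853650), (b59, 1901900), (b65, 1901900), (b67, 685000), (b68, 301350), (b69, -2698900), (b82, 2698900), (b89, 1901900), (b95, 120850), (b96, -108100), (b97, -1551300), (b99, 2698900), (b110, 2698900), (b116, 401850), (b117, 300700), (b118, 301350), (b119, -2698900), (b122, -2698900), (b123, 3239100), (b125, -1901900), (b127, -1901900), (b128, -301350), (b129, 2698900), (b135, -2698900), (b136, -1901900), (b138, 102500), (b139, -1551300), (b150, 1551300), (b151, 301350), (b155, 853650), (b160, 685000), (b162, -2698900), (b175, 2698900), (b182, 1901900), (b189, 2698900), (b195, -2698900), (b196, -1901900)],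
  [(b0, -115000), (b1, -1200850), (b2, 5600), (b3, 3787600), (b5, -2698900), (b20, 685000), (b22, -2698900), (b34, 120850), (b35, -108100), (b36, -1551300), (b38, 2698900), (b49, 2698900), (b55, 102500), (b56, -1551300), (b67, 685000), (b69, -2698900), (b82, 2698900), (b95, 155000), (b96, 8150), (b97, -1852000), (b98, -602700), (b99, 2698900), (b110, 2698900), (b116, 401850), (b117, 300700), (b118, 301350), (b119, -2698900), (b122, -2698900), (b123, 1551300), (b124, 301350), (b129, 2698900), (b135, -2698900), (b139, -3239100), (b140, -853650), (b142, 1901900), (b148, 1901900), (b150, 3239100), (b152, -1901900), (b154, -1901900), (b155, 853650), (b157, 1901900), (b159, -1901900), (b160, 685000), (b161, 301350), (b162, -2698900), (b174, -301350), (b175, 2698900), (b189, 2698900), (b195, -2698900), (b199, 1901900), (b201, -1901900)],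
  [(b0, -625000), (b1, -2833300), (b2, 498750), (b3, 1988500), (b4, 2310000), (b6, -1901900), (b8, -1025000), (b9, 293750), (b11, 385000), (b16, 1988500), (b17, 1155000), (b19, -1901900), (b21, 1155000), (b23, -1901900), (b25, 385000), (b30, -1901900), (b68, 1155000), (b70, -1901900), (b72, 385000), (b77, -1901900), (b95, -241700), (b96, -293750), (b97, -1988500), (b100, 1901900), (b102, -293750), (b106, -1988500), (b108, 1901900), (b111, 1901900), (b114, 1901900), (b130, 1901900), (b133, 1901900), (b138, -205000), (b140, -1155000), (b146, -1155000), (b161, 1155000), (b163, -1901900), (b165, 385000), (b170, -1901900), (b190, 1901900), (b193, 1901900)],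
  [(b0, -625000), (b1, -2833300), (b2, 498750), (b3, 1988500), (b4, 2310000), (b6, -1901900), (b21, 1155000), (b23, -1901900), (b34, -1025000), (b35, 293750), (b37, 385000), (b48, 385000), (b56, 1988500), (b57, 1155000), (b59, -1901900), (b65, -1901900), (b68, 1155000), (b70, -1901900), (b81, 385000), (b89, -1901900), (b95, -241700), (b96, -293750), (b97, -1988500), (b100, 1901900), (b111, 1901900), (b116, -293750), (b123, -1988500), (b125, 1901900), (b127, 1901900), (b130, 1901900), (b136, 1901900), (b138, -205000), (b140, -1155000), (b155, -1155000), (b161, 1155000), (b163, -1901900), (b174, 385000), (b182, -1901900), (b190, 1901900), (b196, 1901900)]]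

/-- Coefficient rows, group 16. -/
def rows16 : List Row := [
  [(b0, -1250000), (b1, -2291700), (b2, -205000), (b4, 770000), (b8, -2050000), (b9, -293750), (b11, 770000), (b16, -1988500), (b17, -1155000), (b19, 1901900), (b21, 770000), (b25, 770000), (b30, 1901900), (b68, 770000), (b72, 770000), (b77, 1901900), (b95, -3858300), (b96, -293750), (b98, 1540000), (b102, 293750), (b106, 1988500), (b108, -1901900), (b109, 1540000), (b114, -1901900), (b128, 1540000), (b133, -1901900), (b138, 498750), (b139, -1988500), (b140, -1155000), (b142, 1901900), (b146, 1155000), (b148, 1901900), (b157, 1901900), (b160, 1988500), (b161, 770000), (b163, -1901900), (b165, 770000), (b170, 1901900), (b171, -1901900), (b184, -1901900), (b188, 2695000), (b193, -1901900), (b199, 1901900), (b202, -1901900)],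
  [(b0, 625000), (b1, 1025000), (b2, 0), (b3, 0), (b4, -385000), (b6, 0), (b8, 241700), (b9, 293750), (b10, 1988500), (b13, -1901900), (b15, 205000), (b17, 1155000), (b21, -385000), (b23, 0), (b27, -1901900), (b68, -385000), (b70, 0), (b74, -1901900), (b95, 2833300), (b96, -293750), (b97, -1988500), (b98, -1155000), (b100, 1901900), (b102, 293750), (b109, -1155000), (b111, 1901900), (b128, -1155000), (b130, 1901900), (b138, -498750), (b139, 0), (b140, -1155000), (b142, 0), (b143, 1988500), (b145, -1901900), (b146, 1155000), (b148, 0), (b149, -1901900), (b157, 0), (b158, -1901900), (b160, -1988500), (b161, -385000), (b163, 1901900), (b167, -1901900), (b171, 1901900), (b184, 1901900), (b188, -2310000), (b190, 1901900), (b199, 0), (b200, -1901900), (b202, 1901900)],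
  [(b0, -1250000), (b1, -2291700), (b2, -205000), (b4, 770000), (b21, 770000), (b34, -2050000), (b35, -293750), (b37, 770000), (b48, 770000), (b56, -1988500), (b57, -1155000), (b59, 1901900), (b65, 1901900), (b68, 770000), (b81, 770000), (b89, 1901900), (b95, -3858300), (b96, -293750), (b98, 1540000), (b109, 1540000), (b116, 293750), (b123, 1988500), (b125, -1901900), (b127, -1901900), (b128, 1540000), (b136, -1901900), (b138, 498750), (b139, -1988500), (b140, -1155000), (b142, 1901900), (b148, 1901900), (b155, 1155000), (b157, 1901900), (b160, 1988500), (b161, 770000), (b163, -1901900), (b171, -1901900), (b174, 770000), (b182, 1901900), (b184, -1901900), (b188, 2695000), (b196, -1901900), (b199, 1901900), (b202, -1901900)],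
  [(b0, 625000), (b1, 1025000), (b2, 0), (b3, 0), (b4, -385000), (b6, 0), (b21, -385000), (b23, 0), (b34, 241700), (b35, 293750), (b36, 1988500), (b39, -1901900), (b50, -1901900), (b55, 205000), (b57, 1155000), (b68, -385000), (b70, 0), (b83, -1901900), (b95, 2833300), (b96, -293750), (b97, -1988500), (b98, -1155000), (b100, 1901900), (b109, -1155000), (b111, 1901900), (b116, 293750), (b128, -1155000), (b130, 1901900), (b138, -498750), (b139, 0), (b140, -1155000), (b142, 0), (b148, 0), (b150, 1988500), (b152, -1901900), (b154, -1901900), (b155, 1155000), (b157, 0), (b159, -1901900), (b160, -1988500), (b161, -385000), (b163, 1901900), (b171, 1901900), (b176, -1901900), (b184, 1901900), (b188, -2310000), (b190, 1901900), (b199, 0), (b201, -1901900), (b202, 1901900)],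
  [(b0, 2400000), (b1, 2080000), (b2, -743776), (b3, -3826300), (b5, 1585850), (b20, -1610000), (b22, 1585850), (b67, -1610000), (b69, 1585850), (b95, 2080000), (b96, 1487552), (b97, 2216300), (b99, -3171700), (b110, -3171700), (b129, -3171700), (b138, -743776), (b139, 2216300), (b141, 1585850), (b147, 1585850), (b156, 1585850), (b160, -3826300), (b162, 1585850), (b189, -3171700), (b198, 1585850)],
  [(b0, 870000), (b1, -1300000), (b2, -204450), (b3, 630500), (b95, -1300000), (b96, 408900), (b97, -630500), (b138, -204450), (b139, -630500), (b160, 630500)],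
  [(b0, -230000), (b1, -1080000), (b2, 54050), (b3, 2921300), (b5, -1349450), (b20, 1370000), (b22, -1349450), (b67, 1370000), (b69, -1349450), (b95, -1080000), (b96, -108100), (b97, -1551300), (b99, 2698900), (b110, 2698900), (b129, 2698900), (b138, 54050), (b139, -1551300), (b141, -1349450), (b147, -1349450), (b156, -1349450), (b160, 2921300), (b162, -1349450), (b189, 2698900), (b198, -1349450)],
  [(b0, -855000), (b1, -3724150), (b2, 860300), (b3, 4759450), (b4, 2008650), (b5, -1349450), (b6, -1901900), (b20, 1370000), (b21, 1155000), (b22, -1349450), (b23, -1901900), (b67, 1370000), (b68, 1155000), (b69, -1349450), (b70, -1901900), (b95, -2225850), (b96, 8150), (b97, -3239100), (b98, 686350), (b99, 2698900), (b100, 1901900), (b109, 385000), (b110, 2698900), (b111, 1901900), (b128, 385000), (b129, 2698900), (b130, 1901900), (b138, -48450), (b139, -1701650), (b140, -853650), (b141, -1349450), (b147, -1349450), (b156, -1349450), (b160, 2921300), (b161, 853650), (b162, -1349450), (b163, -1901900), (b188, 385000), (b189, 2698900), (b190, 1901900), (b198, -1349450)],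
  [(b0, -230000), (b1, -1080000), (b2, 54050), (b3, 2921300), (b5, -1349450), (b8, 310000), (b9, 410000), (b10, -150350), (b11, -301350), (b20, 1370000), (b22, -1349450), (b67, 1370000), (b69, -1349450), (b95, -1080000), (b96, -108100), (b97, -1551300), (b99, 2698900), (b102, 410000), (b103, 300700), (b104, 301350), (b110, 2698900), (b129, 2698900), (b138, 54050), (b139, -1551300), (b141, -1349450), (b143, -150350), (b144, 301350), (b147, -1349450), (b156, -1349450), (b160, 2921300), (b162, -1349450), (b165, -301350), (b189, 2698900), (b198, -1349450)],
  [(b0, -230000), (b1, -1080000), (b2, 54050), (b3, 2921300), (b5, -1349450), (b20, 1370000), (b22, -1349450), (b34, 310000), (b35, 410000), (b36, -150350), (b37, -301350), (b67, 1370000), (b69, -1349450), (b95, -1080000), (b96, -108100), (b97, -1551300), (b99, 2698900), (b110, 2698900), (b116, 410000), (b117, 300700), (b118, 301350), (b129, 2698900), (b138, 54050), (b139, -1551300), (b141, -1349450), (b147, -1349450), (b150, -150350), (b151, 301350), (b156, -1349450), (b160, 2921300), (b162, -1349450), (b174, -301350), (b189, 2698900), (b198, -1349450)],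
  [(b0, -855000), (b1, -2225850), (b2, -48450), (b3, 2921300), (b4, 385000), (b5, -1349450), (b20, 1370000), (b21, 385000), (b22, -1349450), (b67, 1370000), (b68, 385000), (b69, -1349450), (b95, -3724150), (b96, 8150), (b97, -1701650), (b98, 853650), (b99, 2698900), (b109, 1155000), (b110, 2698900), (b128, 1155000), (b129, 2698900), (b138, 860300), (b139, -3239100), (b140, -853650), (b141, -1349450), (b142, 1901900), (b147, -1349450), (b148, 1901900), (b156, -1349450), (b157, 1901900), (b160, 4759450), (b161, 686350), (b162, -1349450), (b163, -1901900), (b171, -1901900), (b184, -1901900), (b188, 2008650), (b189, 2698900), (b198, -1349450), (b199, 1901900), (b202, -1901900)],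
  [(b1, -686550), (b2, 1457500), (b4, -732350), (b21, -732350), (b68, -732350), (b95, 686550), (b98, 732350), (b109, 732350), (b128, 732350), (b138, -1457500), (b161, -732350), (b188, 732350)],
  [(b1, -688600), (b2, -2050000), (b5, 770000), (b9, -783300), (b10, 205000), (b12, 385000), (b16, 293750), (b21, 1988500), (b22, 1925000), (b24, -1901900), (b26, 385000), (b32, -1901900), (b69, 770000), (b73, 385000), (b79, -1901900), (b95, 688600), (b102, 783300), (b105, -385000), (b106, -293750), (b109, -1988500), (b112, 1901900), (b113, -385000), (b115, 1901900), (b132, -385000), (b134, 1901900), (b138, 2050000), (b141, -770000), (b143, -205000), (b147, -1925000), (b156, -770000), (b162, 770000), (b166, 385000), (b172, -1901900), (b192, -385000), (b194, 1901900), (b198, -770000)],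
  [(b1, 463750), (b2, -1132500), (b4, 732350), (b21, 732350), (b68, 732350), (b95, -463750), (b98, -732350), (b109, -732350), (b128, -732350), (b138, 1132500), (b161, 732350), (b188, -732350)],
  [(b1, 463750), (b2, -1132500), (b4, 732350), (b21, 732350), (b68, 732350), (b95, -463750), (b98, -732350), (b109, -732350), (b128, -732350), (b138, 1132500), (b161, 732350), (b188, -732350)],
  [(b1, 463750), (b2, -1132500), (b4, 732350), (b21, 732350), (b68, 732350), (b95, -463750), (b98, -732350), (b109, -732350), (b128, -732350), (b138, 1132500), (b161, 732350), (b188, -732350)],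
  [(b1, 463750), (b2, -1132500), (b4, 732350), (b21, 732350), (b68, 732350), (b95, -463750), (b98, -732350), (b109, -732350), (b128, -732350), (b138, 1132500), (b161, 732350), (b188, -732350)],
  [(b1, 463750), (b2, -1132500), (b4, 732350), (b21, 732350), (b68, 732350), (b95, -463750), (b98, -732350), (b109, -732350), (b128, -732350), (b138, 1132500), (b161, 732350), (b188, -732350)],
  [(b1, -1945000), (b2, -752500), (b3, 1025000), (b4, 675000), (b5, -640000), (b6, -385000), (b9, -388400), (b10, 3165000), (b12, -3022500), (b16, 840000), (b17, 1820000), (b19, -2369500), (b21, 1676100), (b22, -2560000), (b23, -385000), (b24, 2521600), (b26, -3022500), (b30, -2369500), (b32, 2521600), (b68, 675000), (b69, -640000), (b70, -385000), (b73, -3022500), (b77, -2369500), (b79, 2521600), (b95, 1945000), (b98, -675000), (b102, 388400), (b105, 3022500), (b106, -840000), (b108, 2369500), (b109, -1676100), (b112, -2521600), (b113, 3022500), (b114, 2369500), (b115, -2521600), (b128, -675000), (b132, 3022500), (b133, 2369500), (b134, -2521600), (b138, 752500), (b141, 640000), (b143, -3165000), (b146, -1820000), (b147, 2560000),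 (b156, 640000), (b160, -1025000), (b161, 675000), (b162, -640000), (b163, 0), (b166, -3022500), (b170, -2369500), (b171, 385000), (b172, 2521600), (b184, 385000), (b188, -675000), (b192, 3022500), (b193, 2369500), (b194, -2521600), (b198, 640000), (b202, 385000)],
  [(b1, 67500), (b2, 727500), (b9, 367100), (b16, 4050), (b21, -683850), (b95, -67500), (b102, -367100), (b106, -4050), (b109, 683850), (b138, -727500)],
  [(b1, 1167500), (b2, 2662500), (b4, -1730000), (b5, -612500), (b9, 1159950), (b10, -1020000), (b12, 47100), (b16, 70050), (b17, -5190000), (b19, 5086200), (b21, -4232750), (b22, -2450000), (b24, 2413250), (b26, 47100), (b30, 5086200), (b32, 2413250), (b68, -1730000), (b69, -612500), (b73, 47100), (b77, 5086200), (b79, 2413250), (b95, -1167500), (b98, 1730000), (b102, -1159950), (b105, -47100), (b106, -70050), (b108, -5086200), (b109, 4232750), (b112, -2413250), (b113, -47100), (b114, -5086200), (b115, -2413250), (b128, 1730000), (b132, -47100), (b133, -5086200), (b134, -2413250), (b138, -2662500), (b141, 612500), (b143, 1020000), (b146, 5190000), (b147, 2450000), (b156, 612500), (b161, -1730000),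 (b162, -612500), (b166, 47100), (b170, 5086200), (b172, 2413250), (b188, 1730000), (b192, -47100), (b193, -5086200), (b194, -2413250), (b198, 612500)],
  [(b1, -222500), (b2, 3675000), (b3, 577500), (b4, -1730000), (b5, -612500), (b8, -695000), (b9, 1159950), (b10, -869200), (b12, 47100), (b15, 337500), (b16, 70050), (b17, -5507250), (b19, 5086200), (b20, 192500), (b21, -4232750), (b22, -2823450), (b24, 2413250), (b26, 47100), (b30, 5086200), (b32, 2413250), (b68, -1730000), (b69, -612500), (b73, 47100), (b77, 5086200), (b79, 2413250), (b95, -1167500), (b96, -337500), (b98, 1730000), (b102, -1159950), (b103, -150800), (b105, -47100), (b106, -70050), (b107, 317250), (b108, -5086200), (b109, 4232750), (b110, 373450), (b112, -2413250), (b113, -47100), (b114, -5086200), (b115, -2413250), (b128, 1730000), (b132, -47100), (b133, -5086200), (b134, -2413250), (b138, -2662500), (b139, -192500), (b141, 612500), (b143, 1020000), (b146, 5190000), (b147, 2450000), (b156, 612500), (b161, -1730000), (b162, -612500), (b166, 47100), (b170, 5086200), (b172, 2413250), (b188, 1730000), (b192, -47100), (b193, -5086200), (b194,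 -2413250), (b198, 612500)],
  [(b1, 1167500), (b2, 2662500), (b4, -1730000), (b5, -612500), (b9, 1497450), (b10, -827500), (b12, 47100), (b16, 220850), (b17, -5190000), (b19, 5086200), (b21, -4550000), (b22, -2450000), (b24, 2413250), (b26, -326350), (b30, 5086200), (b32, 2413250), (b68, -1730000), (b69, -612500), (b73, 47100), (b77, 5086200), (b79, 2413250), (b95, -1167500), (b98, 1730000), (b102, -1497450), (b105, -47100), (b106, -220850), (b108, -5086200), (b109, 4550000), (b112, -2413250), (b113, 326350), (b114, -5086200), (b115, -2413250), (b128, 1730000), (b132, -47100), (b133, -5086200), (b134, -2413250), (b138, -2662500), (b141, 612500), (b143, 827500), (b146, 5190000), (b147, 2450000), (b156, 612500), (b161, -1730000), (b162, -612500), (b166, 47100), (b170, 5086200), (b172, 2413250), (b188, 1730000), (b192, -47100), (b193, -5086200), (b194, -2413250), (b198, 612500)],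
  [(b1, 1167500), (b2, 2662500), (b4, -1730000), (b5, -612500), (b9, 1159950), (b10, -1020000), (b12, 47100), (b16, 70050), (b17, -5190000), (b19, 5086200), (b21, -4232750), (b22, -2450000), (b24, 2413250), (b26, 47100), (b30, 5086200), (b32, 2413250), (b35, 337500), (b36, 192500), (b42, 150800), (b46, -317250), (b49, -373450), (b68, -1730000), (b69, -612500), (b73, 47100), (b77, 5086200), (b79, 2413250), (b95, -1167500), (b98, 1730000), (b102, -1159950), (b105, -47100), (b106, -70050), (b108, -5086200), (b109, 4232750), (b112, -2413250), (b113, -47100), (b114, -5086200), (b115, -2413250), (b116, -337500), (b120, -150800), (b121, 317250), (b122, 373450), (b128, 1730000), (b132, -47100), (b133, -5086200), (b134, -2413250), (b138, -2662500), (b141, 612500), (b143, 1020000), (b146, 5190000), (b147, 2450000), (b150, -192500), (b156, 612500), (b161, -1730000), (b162, -612500), (b166, 47100), (b170, 5086200), (b172, 2413250), (b188, 1730000), (b192, -47100), (b193, -5086200), (b194, -2413250), (b198, 612500)],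
  [(b1, 1167500), (b2, 2662500), (b4, -1730000), (b5, -612500), (b8, 695000), (b9, 1159950), (b10, -1020000), (b12, 47100), (b15, -337500), (b16, 70050), (b17, -5190000), (b19, 5086200), (b20, -192500), (b21, -4232750), (b22, -2450000), (b24, 2413250), (b26, 47100), (b30, 5086200), (b32, 2413250), (b68, -1730000), (b69, -612500), (b73, 47100), (b77, 5086200), (b79, 2413250), (b95, 222500), (b96, 337500), (b97, 192500), (b98, 1730000), (b102, -1159950), (b103, 150800), (b105, -47100), (b106, -70050), (b107, -317250), (b108, -5086200), (b109, 4232750), (b110, -373450), (b112, -2413250), (b113, -47100), (b114, -5086200), (b115, -2413250), (b128, 1730000), (b132, -47100), (b133, -5086200), (b134, -2413250), (b138, -3675000), (b141, 612500), (b143, 869200), (b146, 5507250), (b147, 2823450), (b156, 612500), (b160, -577500), (b161, -1730000), (b162, -612500), (b166, 47100), (b170, 5086200), (b172, 2413250), (b188, 1730000), (b192, -47100), (b193, -5086200), (b194, -2413250), (b198, 612500)]]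

/-- Coefficient rows, group 17. -/
def rows17 : List Row := [
  [(b0, 625000), (b1, 1025000), (b2, 0), (b3, 0), (b4, -385000), (b6, 0), (b8, 2833300), (b9, -293750), (b10, -1988500), (b11, -1155000), (b13, 1901900), (b15, -498750), (b16, 0), (b17, -1155000), (b19, 0), (b20, -1988500), (b21, -385000), (b23, 1901900), (b25, -2310000), (b27, 1901900), (b30, 0), (b31, 1901900), (b68, -385000), (b70, 0), (b72, -1155000), (b74, 1901900), (b77, 0), (b78, 1901900), (b95, 241700), (b96, 293750), (b97, 1988500), (b100, -1901900), (b102, 293750), (b106, 1988500), (b108, -1901900), (b111, -1901900), (b114, -1901900), (b130, -1901900), (b133, -1901900), (b138, 205000), (b140, 1155000), (b146, 1155000), (b161, -385000), (b163, 0), (b165, -1155000), (b167, 1901900), (b170, 0), (b171, 1901900), (b190, -1901900), (b193, -1901900)],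
  [(b0, 3600000), (b1, 4160000), (b2, -1487552), (b3, -6847600), (b5, 3171700), (b8, 2080000), (b9, 1487552), (b10, 2216300), (b12, -3171700), (b16, 2216300), (b20, -2415000), (b22, 3171700), (b26, -3171700), (b67, -2415000), (b69, 3171700), (b73, -3171700), (b96, 1487552), (b97, 2216300), (b99, -3171700), (b102, -1487552), (b105, 3171700), (b106, -2216300), (b110, -3171700), (b113, 3171700), (b129, -3171700), (b132, 3171700), (b139, 2216300), (b143, -2216300), (b160, -2415000), (b162, 3171700), (b166, -3171700), (b189, -3171700), (b192, 3171700)],
  [(b0, 1305000), (b1, -2600000), (b2, -408900), (b3, 1261000), (b8, -1300000), (b9, 408900), (b10, -630500), (b16, -630500), (b96, 408900), (b97, -630500), (b102, -408900), (b106, 630500), (b139, -630500), (b143, 630500)],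
  [(b0, -345000), (b1, -2160000), (b2, 108100), (b3, 5157600), (b5, -2698900), (b8, -1080000), (b9, -108100), (b10, -1551300), (b12, 2698900), (b16, -1551300), (b20, 2055000), (b22, -2698900), (b26, 2698900), (b67, 2055000), (b69, -2698900), (b73, 2698900), (b96, -108100), (b97, -1551300), (b99, 2698900), (b102, 108100), (b105, -2698900), (b106, 1551300), (b110, 2698900), (b113, -2698900), (b129, 2698900), (b132, -2698900), (b139, -1551300), (b143, 1551300), (b160, 2055000), (b162, -2698900), (b166, 2698900), (b189, 2698900), (b192, -2698900)],
  [(b0, -1595000), (b1, -7603300), (b2, 1720600), (b3, 8833900), (b4, 4017300), (b5, -2698900), (b6, -3803800), (b8, -3250850), (b9, 8150), (b10, -3239100), (b11, 1071350), (b12, 2698900), (b13, 1901900), (b15, -102500), (b16, -1551300), (b17, -853650), (b20, 2055000), (b21, 2310000), (b22, -2698900), (b23, -3803800), (b25, 770000), (b26, 2698900), (b27, 1901900), (b67, 2055000), (b68, 2310000), (b69, -2698900), (b70, -3803800), (b72, 770000), (b73, 2698900), (b74, 1901900), (b95, -120850), (b96, -401850), (b97, -3239100), (b98, 301350), (b99, 2698900), (b100, 1901900),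 (b102, 108100), (b103, -300700), (b105, -2698900), (b106, 1551300), (b107, -301350), (b110, 2698900), (b111, 1901900), (b113, -2698900), (b129, 2698900), (b130, 1901900), (b132, -2698900), (b138, -102500), (b139, -1551300), (b140, -853650), (b143, 1551300), (b144, -301350), (b160, 2055000), (b161, 2310000), (b162, -2698900), (b163, -3803800), (b165, 770000), (b166, 2698900), (b167, 1901900), (b189, 2698900), (b190, 1901900), (b192, -2698900)],
  [(b0, -970000), (b1, -4330850), (b2, 5600), (b3, 5157600), (b4, 770000), (b5, -2698900), (b8, -2665000), (b9, 418150), (b10, -1852000), (b11, 167300), (b12, 2698900), (b15, 410000), (b16, -3239100), (b17, -853650), (b19, 1901900), (b20, 2055000), (b21, 1071350), (b22, -2698900), (b25, 770000), (b26, 2698900), (b30, 1901900), (b67, 2055000), (b68, 770000), (b69, -2698900), (b72, 770000), (b73, 2698900), (b77, 1901900), (b95, 120850), (b96, -108100), (b97, -1551300), (b99, 2698900), (b102, 401850), (b103, 300700), (b104, 301350), (b105, -2698900), (b106, 3239100), (b108, -1901900), (b109, -301350), (b110, 2698900), (b113, -2698900), (b114, -1901900), (b129, 2698900),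 (b132, -2698900), (b133, -1901900), (b138, 102500), (b139, -1551300), (b143, 1551300), (b144, 301350), (b146, 853650), (b160, 2055000), (b161, 770000), (b162, -2698900), (b165, 770000), (b166, 2698900), (b170, 1901900), (b189, 2698900), (b192, -2698900), (b193, -1901900)],
  [(b0, -345000), (b1, -2160000), (b2, 108100), (b3, 5157600), (b5, -2698900), (b8, -1080000), (b9, -108100), (b10, -1551300), (b12, 2698900), (b16, -1551300), (b20, 2055000), (b22, -2698900), (b26, 2698900), (b34, 465000), (b35, 820000), (b36, -300700), (b37, -602700), (b41, 410000), (b42, 300700), (b43, 301350), (b46, 301350), (b67, 2055000), (b69, -2698900), (b73, 2698900), (b96, -108100), (b97, -1551300), (b99, 2698900), (b102, 108100), (b105, -2698900), (b106, 1551300), (b110, 2698900), (b113, -2698900), (b117, 300700), (b118, 301350), (b120, -300700), (b121, -301350), (b129, 2698900), (b132, -2698900), (b139, -1551300), (b143, 1551300), (b151, 301350), (b153, -301350), (b160, 2055000), (b162, -2698900), (b166, 2698900), (b189, 2698900), (b192, -2698900)],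
  [(b0, -345000), (b1, -2280850), (b2, 5600), (b3, 5157600), (b5, -2698900), (b8, -959150), (b9, -108100), (b10, -1551300), (b12, 2698900), (b15, 102500), (b16, -1551300), (b20, 2055000), (b22, -2698900), (b26, 2698900), (b67, 2055000), (b69, -2698900), (b73, 2698900), (b95, 465000), (b96, 418150), (b97, -1852000), (b98, -602700), (b99, 2698900), (b102, 811850), (b103, 300700), (b104, 301350), (b105, -2698900), (b106, 1551300), (b107, 301350), (b110, 2698900), (b113, -2698900), (b129, 2698900), (b132, -2698900), (b139, -3239100), (b140, -853650), (b142, 1901900), (b143, 3239100), (b145, -1901900), (b146, 853650), (b148, 1901900), (b149, -1901900), (b157, 1901900), (b158, -1901900), (b160, 2055000), (b161, 301350), (b162, -2698900), (b165, -301350), (b166, 2698900), (b189, 2698900), (b192, -2698900), (b199, 1901900), (b200, -1901900)],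
  [(b0, 1250000), (b1, 3858300), (b2, -498750), (b3, -1988500), (b4, -2695000), (b6, 1901900), (b8, 2050000), (b11, -770000), (b21, -1540000), (b23, 1901900), (b25, -770000), (b34, 2050000), (b35, -293750), (b37, -770000), (b48, -770000), (b56, -1988500), (b57, -1155000), (b59, 1901900), (b65, 1901900), (b68, -1540000), (b70, 1901900), (b72, -770000), (b81, -770000), (b89, 1901900), (b95, 241700), (b96, 293750), (b97, 1988500), (b100, -1901900), (b111, -1901900), (b116, 293750), (b123, 1988500), (b125, -1901900), (b127, -1901900), (b130, -1901900), (b136, -1901900), (b138, 205000), (b140, 1155000), (b155, 1155000), (b161, -1540000), (b163, 1901900), (b165, -770000), (b174, -770000), (b182, 1901900), (b190, -1901900), (b196, -1901900)],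
  [(b0, -625000), (b1, -2291700), (b2, -205000), (b4, 770000), (b8, -1025000), (b9, -293750), (b11, 385000), (b16, -1988500), (b17, -1155000), (b19, 1901900), (b21, 770000), (b25, 385000), (b30, 1901900), (b34, -1025000), (b35, -293750), (b37, 385000), (b48, 385000), (b56, -1988500), (b57, -1155000), (b59, 1901900), (b65, 1901900), (b68, 770000), (b72, 385000), (b77, 1901900), (b81, 385000), (b89, 1901900), (b95, 241700), (b102, 293750), (b106, 1988500), (b108, -1901900), (b114, -1901900), (b116, 293750), (b123, 1988500), (b125, -1901900), (b127, -1901900), (b133, -1901900), (b136, -1901900), (b138, 205000), (b146, 1155000), (b155, 1155000), (b161, 770000), (b165, 385000), (b170, 1901900), (b174, 385000), (b182, 1901900), (b193, -1901900), (b196, -1901900)],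
  [(b0, -625000), (b1, -2833300), (b2, 498750), (b3, 1988500), (b4, 2310000), (b6, -1901900), (b8, -1025000), (b9, 293750), (b11, 385000), (b16, 1988500), (b17, 1155000), (b19, -1901900), (b21, 1155000), (b23, -1901900), (b25, 385000), (b30, -1901900), (b34, -241700), (b35, -293750), (b36, -1988500), (b39, 1901900), (b41, -293750), (b45, -1988500), (b47, 1901900), (b50, 1901900), (b53, 1901900), (b55, -205000), (b57, -1155000), (b63, -1155000), (b68, 1155000), (b70, -1901900), (b72, 385000), (b77, -1901900), (b83, 1901900), (b86, 1901900), (b161, 1155000), (b163, -1901900), (b165, 385000), (b170, -1901900), (b176, 1901900), (b179, 1901900)],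
  [(b0, 3600000), (b1, 4160000), (b2, -1487552), (b3, -6847600), (b5, 3171700), (b8, 2080000), (b20, -2415000), (b22, 3171700), (b35, 1487552), (b36, 2216300), (b38, -3171700), (b49, -3171700), (b56, 2216300), (b67, -2415000), (b69, 3171700), (b82, -3171700), (b96, 1487552), (b97, 2216300), (b99, -3171700), (b110, -3171700), (b116, -1487552), (b119, 3171700), (b122, 3171700), (b123, -2216300), (b129, -3171700), (b135, 3171700), (b139, 2216300), (b150, -2216300), (b160, -2415000), (b162, 3171700), (b175, -3171700), (b189, -3171700), (b195, 3171700)],
  [(b0, 1305000), (b1, -2600000), (b2, -408900), (b3, 1261000), (b8, -1300000), (b35, 408900), (b36, -630500), (b56, -630500), (b96, 408900), (b97, -630500), (b116, -408900), (b123, 630500), (b139, -630500), (b150, 630500)],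
  [(b0, -345000), (b1, -2160000), (b2, 108100), (b3, 5157600), (b5, -2698900), (b8, -1080000), (b20, 2055000), (b22, -2698900), (b35, -108100), (b36, -1551300), (b38, 2698900), (b49, 2698900), (b56, -1551300), (b67, 2055000), (b69, -2698900), (b82, 2698900), (b96, -108100), (b97, -1551300), (b99, 2698900), (b110, 2698900), (b116, 108100), (b119, -2698900), (b122, -2698900), (b123, 1551300), (b129, 2698900), (b135, -2698900), (b139, -1551300), (b150, 1551300), (b160, 2055000), (b162, -2698900), (b175, 2698900), (b189, 2698900), (b195, -2698900)],
  [(b0, -1595000), (b1, -7603300), (b2, 1720600), (b3, 8833900), (b4, 4017300), (b5, -2698900), (b6, -3803800), (b8, -3130000), (b9, 410000), (b11, 770000), (b20, 2055000), (b21, 2310000), (b22, -2698900), (b23, -3803800), (b25, 770000), (b34, -120850), (b35, -401850), (b36, -3239100), (b37, 301350), (b38, 2698900), (b39, 1901900), (b49, 2698900), (b50, 1901900), (b55, -102500), (b56, -1551300), (b57, -853650), (b67, 2055000), (b68, 2310000), (b69, -2698900), (b70, -3803800), (b72, 770000), (b82, 2698900), (b83, 1901900), (b95, -120850), (b96, -401850), (b97, -3239100),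 (b98, 301350), (b99, 2698900), (b100, 1901900), (b110, 2698900), (b111, 1901900), (b116, 108100), (b117, -300700), (b119, -2698900), (b122, -2698900), (b123, 1551300), (b124, -301350), (b129, 2698900), (b130, 1901900), (b135, -2698900), (b138, -102500), (b139, -1551300), (b140, -853650), (b150, 1551300), (b151, -301350), (b160, 2055000), (b161, 2310000), (b162, -2698900), (b163, -3803800), (b165, 770000), (b175, 2698900), (b176, 1901900), (b189, 2698900), (b190, 1901900), (b195, -2698900)],
  [(b0, -970000), (b1, -4210000), (b2, 108100), (b3, 5157600), (b4, 770000), (b5, -2698900), (b8, -2665000), (b9, 820000), (b10, -300700), (b11, 167300), (b15, 410000), (b20, 2055000), (b21, 770000), (b22, -2698900), (b25, 770000), (b35, -108100), (b36, -1551300), (b38, 2698900), (b42, 300700), (b43, 301350), (b49, 2698900), (b56, -1551300), (b61, 301350), (b67, 2055000), (b68, 770000), (b69, -2698900), (b72, 770000), (b82, 2698900), (b96, -108100), (b97, -1551300), (b99, 2698900), (b103, 300700), (b104, 301350), (b110, 2698900), (b116, 108100), (b119, -2698900), (b120, -300700), (b122, -2698900), (b123, 1551300), (b126,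 -301350), (b129, 2698900), (b135, -2698900), (b139, -1551300), (b144, 301350), (b150, 1551300), (b153, -301350), (b160, 2055000), (b161, 770000), (b162, -2698900), (b165, 770000), (b175, 2698900), (b189, 2698900), (b195, -2698900)],
  [(b0, -345000), (b1, -2280850), (b2, 5600), (b3, 5157600), (b5, -2698900), (b8, -1080000), (b20, 2055000), (b22, -2698900), (b34, 465000), (b35, 418150), (b36, -1852000), (b37, -602700), (b38, 2698900), (b41, 410000), (b49, 2698900), (b56, -3239100), (b57, -853650), (b59, 1901900), (b65, 1901900), (b67, 2055000), (b68, 301350), (b69, -2698900), (b82, 2698900), (b89, 1901900), (b95, 120850), (b96, -108100), (b97, -1551300), (b99, 2698900), (b110, 2698900), (b116, 401850), (b117, 300700), (b118, 301350), (b119, -2698900), (b122, -2698900), (b123, 3239100), (b125, -1901900), (b127, -1901900), (b128, -301350), (b129, 2698900), (b135, -2698900), (b136, -1901900), (b138, 102500), (b139, -1551300), (b150, 1551300), (b151, 301350), (b155, 853650), (b160, 2055000), (b162, -2698900), (b175, 2698900), (b182, 1901900), (b189, 2698900), (b195, -2698900), (b196, -1901900)],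
  [(b0, -345000), (b1, -2280850), (b2, 5600), (b3, 5157600), (b5, -2698900), (b8, -1080000), (b20, 2055000), (b22, -2698900), (b34, 120850), (b35, -108100), (b36, -1551300), (b38, 2698900), (b49, 2698900), (b55, 102500), (b56, -1551300), (b67, 2055000), (b69, -2698900), (b82, 2698900), (b95, 465000), (b96, 418150), (b97, -1852000), (b98, -602700), (b99, 2698900), (b102, 410000), (b110, 2698900), (b116, 401850), (b117, 300700), (b118, 301350), (b119, -2698900), (b122, -2698900), (b123, 1551300), (b124, 301350), (b129, 2698900), (b135, -2698900), (b139, -3239100), (b140, -853650), (b142, 1901900), (b148, 1901900), (b150, 3239100), (b152, -1901900), (b154, -1901900), (b155, 853650), (b157, 1901900), (b159, -1901900), (b160, 2055000), (b161, 301350), (b162, -2698900), (b174, -301350), (b175, 2698900), (b189, 2698900), (b195, -2698900), (b199, 1901900), (b201, -1901900)],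
  [(b0, -625000), (b1, -2050000), (b4, 770000), (b8, -1025000), (b11, 385000), (b21, 770000), (b25, 385000), (b34, -1025000), (b37, 385000), (b48, 385000), (b68, 770000), (b72, 385000), (b81, 385000), (b161, 770000), (b165, 385000), (b174, 385000)],
  [(b0, 0), (b1, 1808300), (b2, -498750), (b3, -1988500), (b4, -1925000), (b6, 1901900), (b8, 0), (b11, 0), (b21, -770000), (b23, 1901900), (b25, 0), (b68, -770000), (b70, 1901900), (b72, 0), (b95, -1808300), (b97, 1988500), (b98, 770000), (b100, -1901900), (b109, 770000), (b111, -1901900), (b128, 770000), (b130, -1901900), (b138, 498750), (b139, -1988500), (b142, 1901900), (b148, 1901900), (b157, 1901900), (b160, 1988500), (b161, -770000), (b165, 0), (b171, -1901900), (b184, -1901900), (b188, 1925000), (b190, -1901900), (b199, 1901900), (b202, -1901900)],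
  [(b0, -1875000), (b1, -2533400), (b2, -410000), (b4, 770000), (b8, -4883300), (b9, -587500), (b11, 1925000), (b15, 498750), (b16, -3977000), (b17, -2310000), (b19, 3803800), (b20, 1988500), (b21, 770000), (b23, -1901900), (b25, 3080000), (b30, 3803800), (b31, -1901900), (b68, 770000), (b72, 1925000), (b77, 3803800), (b78, -1901900), (b95, -4883300), (b96, -587500), (b98, 1925000), (b102, 587500), (b106, 1988500), (b108, -1901900), (b109, 1925000), (b114, -1901900), (b128, 1925000), (b133, -1901900), (b138, 498750), (b139, -3977000), (b140, -2310000), (b142, 3803800), (b143, 1988500), (b145, -1901900), (b146, 2310000), (b148, 3803800), (b149, -1901900), (b157, 3803800), (b158, -1901900), (b160, 1988500), (b161, 770000), (b163, -1901900), (b165, 1925000), (b170, 3803800), (b171, -3803800), (b184, -1901900), (b188, 3080000), (b193, -1901900), (b199, 3803800), (b200, -1901900), (b202, -1901900)],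
  [(b0, -1250000), (b1, -241700), (b2, -205000), (b8, -2050000), (b11, 770000), (b25, 770000), (b34, -2050000), (b35, -293750), (b37, 770000), (b48, 770000), (b56, -1988500), (b57, -1155000), (b59, 1901900), (b65, 1901900), (b72, 770000), (b81, 770000), (b89, 1901900), (b95, -3858300), (b96, -293750), (b98, 1540000), (b109, 1540000), (b116, 293750), (b123, 1988500), (b125, -1901900), (b127, -1901900), (b128, 1540000), (b136, -1901900), (b138, 498750), (b139, -1988500), (b140, -1155000), (b142, 1901900), (b148, 1901900), (b155, 1155000), (b157, 1901900), (b160, 1988500), (b163, -1901900), (b165, 770000), (b171, -1901900), (b174, 770000), (b182, 1901900), (b184, -1901900), (b188, 2695000), (b196, -1901900), (b199, 1901900), (b202, -1901900)],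
  [(b0, -625000), (b1, -2291700), (b2, -205000), (b4, 770000), (b8, -1025000), (b9, -293750), (b11, 385000), (b16, -1988500), (b17, -1155000), (b19, 1901900), (b21, 770000), (b25, 385000), (b30, 1901900), (b34, 241700), (b41, 293750), (b45, 1988500), (b47, -1901900), (b53, -1901900), (b55, 205000), (b63, 1155000), (b68, 770000), (b72, 385000), (b77, 1901900), (b86, -1901900), (b95, -1025000), (b96, -293750), (b98, 385000), (b109, 385000), (b116, 293750), (b128, 385000), (b139, -1988500), (b140, -1155000), (b142, 1901900), (b148, 1901900), (b150, 1988500), (b152, -1901900), (b154, -1901900), (b155, 1155000), (b157, 1901900), (b159, -1901900), (b161, 770000), (b165, 385000), (b170, 1901900), (b179, -1901900), (b188, 385000), (b199, 1901900), (b201, -1901900)],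
  [(b0, -1250000), (b1, -3858300), (b2, 498750), (b3, 1988500), (b4, 2695000), (b6, -1901900), (b8, -2050000), (b9, 293750), (b11, 770000), (b16, 1988500), (b17, 1155000), (b19, -1901900), (b21, 1540000), (b23, -1901900), (b25, 770000), (b30, -1901900), (b68, 1540000), (b70, -1901900), (b72, 770000), (b77, -1901900), (b95, -2291700), (b96, -293750), (b97, -1988500), (b98, 770000), (b100, 1901900), (b102, -293750), (b106, -1988500), (b108, 1901900), (b109, 770000), (b111, 1901900), (b114, 1901900), (b128, 770000), (b130, 1901900), (b133, 1901900), (b138, -205000), (b140, -1155000), (b146, -1155000), (b161, 1540000), (b163, -1901900), (b165, 770000), (b170, -1901900), (b188, 770000), (b190, 1901900), (b193, 1901900)],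
  [(b0, 3600000), (b1, 2080000), (b2, -743776), (b3, -4631300), (b5, 1585850), (b8, 2080000), (b20, -2415000), (b22, 1585850), (b67, -2415000), (b69, 1585850), (b95, 2080000), (b96, 1487552), (b97, 2216300), (b99, -3171700), (b110, -3171700), (b129, -3171700), (b138, -743776), (b139, 2216300), (b141, 1585850), (b147, 1585850), (b156, 1585850), (b160, -4631300), (b162, 1585850), (b189, -3171700), (b198, 1585850)]]

/-- Coefficient rows, group 18. -/
def rows18 : List Row := [
  [(b0, 1305000), (b1, -1300000), (b2, -204450), (b3, 630500), (b8, -1300000), (b95, -1300000), (b96, 408900), (b97, -630500), (b138, -204450), (b139, -630500), (b160, 630500)],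
  [(b0, -345000), (b1, -1080000), (b2, 54050), (b3, 3606300), (b5, -1349450), (b8, -1080000), (b20, 2055000), (b22, -1349450), (b67, 2055000), (b69, -1349450), (b95, -1080000), (b96, -108100), (b97, -1551300), (b99, 2698900), (b110, 2698900), (b129, 2698900), (b138, 54050), (b139, -1551300), (b141, -1349450), (b147, -1349450), (b156, -1349450), (b160, 3606300), (b162, -1349450), (b189, 2698900), (b198, -1349450)],
  [(b0, -970000), (b1, -3569150), (b2, 860300), (b3, 5444450), (b4, 2008650), (b5, -1349450), (b6, -1901900), (b8, -2105000), (b9, 410000), (b11, 385000), (b20, 2055000), (b21, 1155000), (b22, -1349450), (b23, -1901900), (b25, 385000), (b67, 2055000), (b68, 1155000), (b69, -1349450), (b70, -1901900), (b72, 385000), (b95, -1200850), (b96, 8150), (b97, -3239100), (b98, 301350), (b99, 2698900), (b100, 1901900), (b110, 2698900), (b111, 1901900), (b129, 2698900), (b130, 1901900), (b138, -48450), (b139, -1701650), (b140, -853650), (b141, -1349450), (b147, -1349450), (b156, -1349450), (b160, 3606300), (b161, 853650), (b162, -1349450), (b163, -1901900), (b165, 385000), (b189, 2698900), (b190, 1901900),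 (b198, -1349450)],
  [(b0, -970000), (b1, -2105000), (b2, 54050), (b3, 3606300), (b4, 385000), (b5, -1349450), (b8, -2665000), (b9, 410000), (b10, -150350), (b11, 468650), (b15, 410000), (b20, 2055000), (b21, 385000), (b22, -1349450), (b25, 770000), (b67, 2055000), (b68, 385000), (b69, -1349450), (b72, 770000), (b95, -2105000), (b96, -108100), (b97, -1551300), (b98, 385000), (b99, 2698900), (b102, 410000), (b103, 300700), (b104, 301350), (b109, 385000), (b110, 2698900), (b128, 385000), (b129, 2698900), (b138, 54050), (b139, -1551300), (b141, -1349450), (b143, -150350), (b144, 301350), (b147, -1349450), (b156, -1349450), (b160, 3606300), (b161, 385000), (b162, -1349450), (b165, 468650), (b188, 385000), (b189, 2698900), (b198, -1349450)],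
  [(b0, -345000), (b1, -1080000), (b2, 54050), (b3, 3606300), (b5, -1349450), (b8, -1080000), (b20, 2055000), (b22, -1349450), (b34, 465000), (b35, 410000), (b36, -150350), (b37, -301350), (b41, 410000), (b67, 2055000), (b69, -1349450), (b95, -1080000), (b96, -108100), (b97, -1551300), (b99, 2698900), (b110, 2698900), (b116, 410000), (b117, 300700), (b118, 301350), (b129, 2698900), (b138, 54050), (b139, -1551300), (b141, -1349450), (b147, -1349450), (b150, -150350), (b151, 301350), (b156, -1349450), (b160, 3606300), (b162, -1349450), (b174, -301350), (b189, 2698900), (b198, -1349450)],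
  [(b0, -970000), (b1, -1200850), (b2, -48450), (b3, 3606300), (b5, -1349450), (b8, -2105000), (b11, 385000), (b20, 2055000), (b22, -1349450), (b25, 385000), (b67, 2055000), (b69, -1349450), (b72, 385000), (b95, -3569150), (b96, 8150), (b97, -1701650), (b98, 853650), (b99, 2698900), (b102, 410000), (b109, 1155000), (b110, 2698900), (b128, 1155000), (b129, 2698900), (b138, 860300), (b139, -3239100), (b140, -853650), (b141, -1349450), (b142, 1901900), (b147, -1349450), (b148, 1901900), (b156, -1349450), (b157, 1901900), (b160, 5444450), (b161, 301350), (b162, -1349450), (b163, -1901900), (b165, 385000), (b171, -1901900), (b184, -1901900), (b188, 2008650), (b189, 2698900), (b198, -1349450), (b199, 1901900), (b202, -1901900)],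
  [(b1, -686550), (b2, 1457500), (b4, -732350), (b21, -732350), (b68, -732350), (b95, 686550), (b98, 732350), (b109, 732350), (b128, 732350), (b138, -1457500), (b161, -732350), (b188, 732350)],
  [(b1, -688600), (b2, -2050000), (b5, 770000), (b22, 770000), (b35, -783300), (b36, 205000), (b38, 385000), (b49, 385000), (b56, 293750), (b68, 1988500), (b69, 1925000), (b71, -1901900), (b79, -1901900), (b82, 385000), (b92, -1901900), (b95, 688600), (b116, 783300), (b119, -385000), (b122, -385000), (b123, -293750), (b128, -1988500), (b131, 1901900), (b134, 1901900), (b135, -385000), (b137, 1901900), (b138, 2050000), (b141, -770000), (b147, -770000), (b150, -205000), (b156, -1925000), (b162, 770000), (b175, 385000), (b185, -1901900), (b195, -385000), (b197, 1901900), (b198, -770000)],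
  [(b1, 463750), (b2, -1132500), (b4, 732350), (b21, 732350), (b68, 732350), (b95, -463750), (b98, -732350), (b109, -732350), (b128, -732350), (b138, 1132500), (b161, 732350), (b188, -732350)],
  [(b1, 463750), (b2, -1132500), (b4, 732350), (b21, 732350), (b68, 732350), (b95, -463750), (b98, -732350), (b109, -732350), (b128, -732350), (b138, 1132500), (b161, 732350), (b188, -732350)],
  [(b1, 463750), (b2, -1132500), (b4, 732350), (b21, 732350), (b68, 732350), (b95, -463750), (b98, -732350), (b109, -732350), (b128, -732350), (b138, 1132500), (b161, 732350), (b188, -732350)],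
  [(b1, 463750), (b2, -1132500), (b4, 732350), (b21, 732350), (b68, 732350), (b95, -463750), (b98, -732350), (b109, -732350), (b128, -732350), (b138, 1132500), (b161, 732350), (b188, -732350)],
  [(b1, 463750), (b2, -1132500), (b4, 732350), (b21, 732350), (b68, 732350), (b95, -463750), (b98, -732350), (b109, -732350), (b128, -732350), (b138, 1132500), (b161, 732350), (b188, -732350)],
  [(b1, -1945000), (b2, -752500), (b3, 1025000), (b4, 675000), (b5, -640000), (b6, -385000), (b21, 675000), (b22, -640000), (b23, -385000), (b35, -388400), (b36, 3165000), (b38, -3022500), (b49, -3022500), (b56, 840000), (b57, 1820000), (b59, -2369500), (b65, -2369500), (b68, 1676100), (b69, -2560000), (b70, -385000), (b71, 2521600), (b79, 2521600), (b82, -3022500), (b89, -2369500), (b92, 2521600), (b95, 1945000), (b98, -675000), (b109, -675000), (b116, 388400), (b119, 3022500), (b122, 3022500), (b123, -840000), (b125, 2369500), (b127, 2369500), (b128, -1676100), (b131, -2521600), (b134, -2521600), (b135, 3022500), (b136, 2369500), (b137, -2521600), (b138, 752500), (b141, 640000), (b147, 640000), (b150, -3165000), (b155, -1820000),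 (b156, 2560000), (b160, -1025000), (b161, 675000), (b162, -640000), (b163, 0), (b171, 385000), (b175, -3022500), (b182, -2369500), (b184, 385000), (b185, 2521600), (b188, -675000), (b195, 3022500), (b196, 2369500), (b197, -2521600), (b198, 640000), (b202, 385000)],
  [(b1, 67500), (b2, 727500), (b35, 367100), (b56, 4050), (b68, -683850), (b95, -67500), (b116, -367100), (b123, -4050), (b128, 683850), (b138, -727500)],
  [(b1, 1167500), (b2, 2662500), (b4, -1730000), (b5, -612500), (b21, -1730000), (b22, -612500), (b35, 1159950), (b36, -1020000), (b38, 47100), (b49, 47100), (b56, 70050), (b57, -5190000), (b59, 5086200), (b65, 5086200), (b68, -4232750), (b69, -2450000), (b71, 2413250), (b79, 2413250), (b82, 47100), (b89, 5086200), (b92, 2413250), (b95, -1167500), (b98, 1730000), (b109, 1730000), (b116, -1159950), (b119, -47100), (b122, -47100), (b123, -70050), (b125, -5086200), (b127, -5086200), (b128, 4232750), (b131, -2413250), (b134, -2413250), (b135, -47100), (b136, -5086200), (b137, -2413250), (b138, -2662500), (b141, 612500), (b147, 612500), (b150, 1020000), (b155, 5190000), (b156, 2450000), (b161, -1730000),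 (b162, -612500), (b175, 47100), (b182, 5086200), (b185, 2413250), (b188, 1730000), (b195, -47100), (b196, -5086200), (b197, -2413250), (b198, 612500)],
  [(b1, -222500), (b2, 3675000), (b3, 577500), (b4, -1730000), (b5, -612500), (b21, -1730000), (b22, -612500), (b34, -695000), (b35, 1159950), (b36, -869200), (b38, 47100), (b49, 47100), (b55, 337500), (b56, 70050), (b57, -5507250), (b59, 5086200), (b65, 5086200), (b67, 192500), (b68, -4232750), (b69, -2823450), (b71, 2413250), (b79, 2413250), (b82, 47100), (b89, 5086200), (b92, 2413250), (b95, -1167500), (b96, -337500), (b98, 1730000), (b109, 1730000), (b116, -1159950), (b117, -150800), (b119, -47100), (b122, -47100), (b123, -70050), (b124, 317250), (b125, -5086200), (b127, -5086200), (b128, 4232750), (b129, 373450), (b131, -2413250), (b134, -2413250), (b135, -47100), (b136, -5086200), (b137, -2413250), (b138, -2662500), (b139, -192500), (b141, 612500), (b147, 612500), (b150, 1020000), (b155, 5190000), (b156, 2450000), (b161, -1730000), (b162, -612500), (b175, 47100), (b182, 5086200), (b185, 2413250), (b188, 1730000), (b195, -47100), (b196, -5086200), (b197,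 -2413250), (b198, 612500)],
  [(b1, 1167500), (b2, 2662500), (b4, -1730000), (b5, -612500), (b9, 337500), (b10, 192500), (b21, -1730000), (b22, -612500), (b35, 1159950), (b36, -1020000), (b38, 47100), (b42, 150800), (b49, 47100), (b56, 70050), (b57, -5190000), (b59, 5086200), (b61, -317250), (b65, 5086200), (b68, -4232750), (b69, -2450000), (b71, 2413250), (b73, -373450), (b79, 2413250), (b82, 47100), (b89, 5086200), (b92, 2413250), (b95, -1167500), (b98, 1730000), (b102, -337500), (b109, 1730000), (b116, -1159950), (b119, -47100), (b120, -150800), (b122, -47100), (b123, -70050), (b125, -5086200), (b126, 317250), (b127, -5086200), (b128, 4232750), (b131, -2413250), (b132, 373450), (b134, -2413250), (b135, -47100), (b136, -5086200), (b137, -2413250), (b138, -2662500), (b141, 612500), (b143, -192500), (b147, 612500), (b150, 1020000), (b155, 5190000), (b156, 2450000), (b161, -1730000), (b162, -612500), (b175, 47100), (b182, 5086200), (b185, 2413250), (b188, 1730000), (b195, -47100), (b196, -5086200), (b197, -2413250), (b198, 612500)],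
  [(b1, 1167500), (b2, 2662500), (b4, -1730000), (b5, -612500), (b21, -1730000), (b22, -612500), (b35, 1497450), (b36, -827500), (b38, 47100), (b49, 47100), (b56, 220850), (b57, -5190000), (b59, 5086200), (b65, 5086200), (b68, -4550000), (b69, -2450000), (b71, 2413250), (b79, 2413250), (b82, -326350), (b89, 5086200), (b92, 2413250), (b95, -1167500), (b98, 1730000), (b109, 1730000), (b116, -1497450), (b119, -47100), (b122, -47100), (b123, -220850), (b125, -5086200), (b127, -5086200), (b128, 4550000), (b131, -2413250), (b134, -2413250), (b135, 326350), (b136, -5086200), (b137, -2413250), (b138, -2662500), (b141, 612500), (b147, 612500), (b150, 827500), (b155, 5190000), (b156, 2450000), (b161, -1730000), (b162, -612500), (b175, 47100), (b182, 5086200), (b185, 2413250), (b188, 1730000), (b195, -47100), (b196, -5086200), (b197, -2413250), (b198, 612500)],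
  [(b1, 1167500), (b2, 2662500), (b4, -1730000), (b5, -612500), (b21, -1730000), (b22, -612500), (b34, 695000), (b35, 1159950), (b36, -1020000), (b38, 47100), (b49, 47100), (b55, -337500), (b56, 70050), (b57, -5190000), (b59, 5086200), (b65, 5086200), (b67, -192500), (b68, -4232750), (b69, -2450000), (b71, 2413250), (b79, 2413250), (b82, 47100), (b89, 5086200), (b92, 2413250), (b95, 222500), (b96, 337500), (b97, 192500), (b98, 1730000), (b109, 1730000), (b116, -1159950), (b117, 150800), (b119, -47100), (b122, -47100), (b123, -70050), (b124, -317250), (b125, -5086200), (b127, -5086200), (b128, 4232750), (b129, -373450), (b131, -2413250), (b134, -2413250), (b135, -47100), (b136, -5086200), (b137, -2413250), (b138, -3675000), (b141, 612500), (b147, 612500), (b150, 869200), (b155, 5507250), (b156, 2823450), (b160, -577500), (b161, -1730000), (b162, -612500), (b175, 47100), (b182, 5086200), (b185, 2413250), (b188, 1730000), (b195, -47100), (b196, -5086200), (b197, -2413250), (b198, 612500)],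
  [(b0, -625000), (b1, -2833300), (b2, 498750), (b3, 1988500), (b4, 2310000), (b6, -1901900), (b8, -241700), (b9, -293750), (b10, -1988500), (b13, 1901900), (b15, -205000), (b17, -1155000), (b21, 1155000), (b23, -1901900), (b27, 1901900), (b34, -1025000), (b35, 293750), (b37, 385000), (b41, -293750), (b48, 385000), (b56, 1988500), (b57, 1155000), (b59, -1901900), (b60, -1988500), (b62, 1901900), (b63, -1155000), (b65, -1901900), (b66, 1901900), (b68, 1155000), (b70, -1901900), (b74, 1901900), (b81, 385000), (b89, -1901900), (b90, 1901900), (b161, 1155000), (b163, -1901900), (b167, 1901900), (b174, 385000), (b182, -1901900), (b183, 1901900)],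
  [(b0, -625000), (b1, -2050000), (b4, 770000), (b8, -1025000), (b11, 385000), (b21, 770000), (b25, 385000), (b34, -1025000), (b37, 385000), (b48, 385000), (b68, 770000), (b72, 385000), (b81, 385000), (b161, 770000), (b165, 385000), (b174, 385000)],
  [(b0, 1250000), (b1, 3858300), (b2, -498750), (b3, -1988500), (b4, -2695000), (b6, 1901900), (b8, 2050000), (b9, -293750), (b11, -770000), (b16, -1988500), (b17, -1155000), (b19, 1901900), (b21, -1540000), (b23, 1901900), (b25, -770000), (b30, 1901900), (b34, 2050000), (b37, -770000), (b48, -770000), (b68, -1540000), (b70, 1901900), (b72, -770000), (b77, 1901900), (b81, -770000), (b95, 241700), (b96, 293750), (b97, 1988500), (b100, -1901900), (b102, 293750), (b106, 1988500), (b108, -1901900), (b111, -1901900), (b114, -1901900), (b130, -1901900), (b133, -1901900), (b138, 205000), (b140, 1155000), (b146, 1155000), (b161, -1540000), (b163, 1901900), (b165, -770000), (b170, 1901900), (b174, -770000), (b190, -1901900), (b193, -1901900)],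
  [(b0, 3600000), (b1, 4160000), (b2, -1487552), (b3, -6847600), (b5, 3171700), (b9, 1487552), (b10, 2216300), (b12, -3171700), (b16, 2216300), (b20, -2415000), (b22, 3171700), (b26, -3171700), (b34, 2080000), (b67, -2415000), (b69, 3171700), (b73, -3171700), (b96, 1487552), (b97, 2216300), (b99, -3171700), (b102, -1487552), (b105, 3171700), (b106, -2216300), (b110, -3171700), (b113, 3171700), (b129, -3171700), (b132, 3171700), (b139, 2216300), (b143, -2216300), (b160, -2415000), (b162, 3171700), (b166, -3171700), (b189, -3171700), (b192, 3171700)],
  [(b0, 1305000), (b1, -2600000), (b2, -408900), (b3, 1261000), (b9, 408900), (b10, -630500), (b16, -630500), (b34, -1300000), (b96, 408900), (b97, -630500), (b102, -408900), (b106, 630500), (b139, -630500), (b143, 630500)]]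

/-- Coefficient rows, group 19. -/
def rows19 : List Row := [
  [(b0, -345000), (b1, -2160000), (b2, 108100), (b3, 5157600), (b5, -2698900), (b9, -108100), (b10, -1551300), (b12, 2698900), (b16, -1551300), (b20, 2055000), (b22, -2698900), (b26, 2698900), (b34, -1080000), (b67, 2055000), (b69, -2698900), (b73, 2698900), (b96, -108100), (b97, -1551300), (b99, 2698900), (b102, 108100), (b105, -2698900), (b106, 1551300), (b110, 2698900), (b113, -2698900), (b129, 2698900), (b132, -2698900), (b139, -1551300), (b143, 1551300), (b160, 2055000), (b162, -2698900), (b166, 2698900), (b189, 2698900), (b192, -2698900)],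
  [(b0, -1595000), (b1, -7603300), (b2, 1720600), (b3, 8833900), (b4, 4017300), (b5, -2698900), (b6, -3803800), (b8, -120850), (b9, -401850), (b10, -3239100), (b11, 301350), (b12, 2698900), (b13, 1901900), (b15, -102500), (b16, -1551300), (b17, -853650), (b20, 2055000), (b21, 2310000), (b22, -2698900), (b23, -3803800), (b26, 2698900), (b27, 1901900), (b34, -3130000), (b35, 410000), (b37, 770000), (b48, 770000), (b67, 2055000), (b68, 2310000), (b69, -2698900), (b70, -3803800), (b73, 2698900), (b74, 1901900), (b81, 770000), (b95, -120850), (b96, -401850), (b97, -3239100), (b98, 301350), (b99, 2698900), (b100, 1901900), (b102, 108100), (b103, -300700), (b105, -2698900), (b106, 1551300), (b107, -301350), (b110, 2698900), (b111, 1901900), (b113, -2698900), (b129, 2698900), (b130, 1901900), (b132, -2698900), (b138, -102500), (b139, -1551300), (b140, -853650), (b143, 1551300), (b144, -301350), (b160, 2055000), (b161, 2310000), (b162, -2698900), (b163, -3803800), (b166, 2698900), (b167, 1901900), (b174, 770000), (b189, 2698900), (b190, 1901900), (b192, -2698900)],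
  [(b0, -345000), (b1, -2280850), (b2, 5600), (b3, 5157600), (b5, -2698900), (b8, 465000), (b9, 418150), (b10, -1852000), (b11, -602700), (b12, 2698900), (b16, -3239100), (b17, -853650), (b19, 1901900), (b20, 2055000), (b21, 301350), (b22, -2698900), (b26, 2698900), (b30, 1901900), (b34, -1080000), (b41, 410000), (b67, 2055000), (b69, -2698900), (b73, 2698900), (b77, 1901900), (b95, 120850), (b96, -108100), (b97, -1551300), (b99, 2698900), (b102, 401850), (b103, 300700), (b104, 301350), (b105, -2698900), (b106, 3239100), (b108, -1901900), (b109, -301350), (b110, 2698900), (b113, -2698900), (b114, -1901900), (b129, 2698900), (b132, -2698900), (b133, -1901900), (b138, 102500), (b139, -1551300), (b143, 1551300), (b144, 301350), (b146, 853650), (b160, 2055000), (b162, -2698900), (b166, 2698900), (b170, 1901900), (b189, 2698900), (b192, -2698900), (b193, -1901900)],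
  [(b0, -970000), (b1, -4210000), (b2, 108100), (b3, 5157600), (b4, 770000), (b5, -2698900), (b9, -108100), (b10, -1551300), (b12, 2698900), (b16, -1551300), (b20, 2055000), (b21, 770000), (b22, -2698900), (b26, 2698900), (b34, -2665000), (b35, 820000), (b36, -300700), (b37, 167300), (b42, 300700), (b43, 301350), (b46, 301350), (b48, 770000), (b55, 410000), (b67, 2055000), (b68, 770000), (b69, -2698900), (b73, 2698900), (b81, 770000), (b96, -108100), (b97, -1551300), (b99, 2698900), (b102, 108100), (b105, -2698900), (b106, 1551300), (b110, 2698900), (b113, -2698900), (b117, 300700), (b118, 301350), (b120, -300700), (b121, -301350), (b129, 2698900), (b132, -2698900), (b139, -1551300), (b143, 1551300), (b151, 301350), (b153, -301350), (b160, 2055000), (b161, 770000), (b162, -2698900), (b166, 2698900), (b174, 770000), (b189, 2698900), (b192, -2698900)],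
  [(b0, -345000), (b1, -2280850), (b2, 5600), (b3, 5157600), (b5, -2698900), (b8, 120850), (b9, -108100), (b10, -1551300), (b12, 2698900), (b15, 102500), (b16, -1551300), (b20, 2055000), (b22, -2698900), (b26, 2698900), (b34, -1080000), (b67, 2055000), (b69, -2698900), (b73, 2698900), (b95, 465000), (b96, 418150), (b97, -1852000), (b98, -602700), (b99, 2698900), (b102, 401850), (b103, 300700), (b104, 301350), (b105, -2698900), (b106, 1551300), (b107, 301350), (b110, 2698900), (b113, -2698900), (b116, 410000), (b129, 2698900), (b132, -2698900), (b139, -3239100), (b140, -853650), (b142, 1901900), (b143, 3239100), (b145, -1901900), (b146, 853650), (b148, 1901900), (b149, -1901900), (b157, 1901900), (b158, -1901900), (b160, 2055000), (b161, 301350), (b162, -2698900), (b165, -301350), (b166, 2698900), (b189, 2698900), (b192, -2698900), (b199, 1901900), (b200, -1901900)],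
  [(b0, 625000), (b1, 1025000), (b2, 0), (b3, 0), (b4, -385000), (b6, 0), (b21, -385000), (b23, 0), (b34, 2833300), (b35, -293750), (b36, -1988500), (b37, -1155000), (b39, 1901900), (b48, -1155000), (b50, 1901900), (b55, -498750), (b56, 0), (b57, -1155000), (b59, 0), (b65, 0), (b67, -1988500), (b68, -385000), (b70, 1901900), (b78, 1901900), (b81, -2310000), (b83, 1901900), (b89, 0), (b91, 1901900), (b95, 241700), (b96, 293750), (b97, 1988500), (b100, -1901900), (b111, -1901900), (b116, 293750), (b123, 1988500), (b125, -1901900), (b127, -1901900), (b130, -1901900), (b136, -1901900), (b138, 205000), (b140, 1155000), (b155, 1155000), (b161, -385000), (b163, 0), (b174, -1155000), (b176, 1901900), (b182, 0), (b184, 1901900), (b190, -1901900), (b196, -1901900)],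
  [(b0, -625000), (b1, -2291700), (b2, -205000), (b4, 770000), (b8, -1025000), (b9, -293750), (b11, 385000), (b16, -1988500), (b17, -1155000), (b19, 1901900), (b21, 770000), (b25, 385000), (b30, 1901900), (b34, -1025000), (b35, -293750), (b37, 385000), (b48, 385000), (b56, -1988500), (b57, -1155000), (b59, 1901900), (b65, 1901900), (b68, 770000), (b72, 385000), (b77, 1901900), (b81, 385000), (b89, 1901900), (b95, 241700), (b102, 293750), (b106, 1988500), (b108, -1901900), (b114, -1901900), (b116, 293750), (b123, 1988500), (b125, -1901900), (b127, -1901900), (b133, -1901900), (b136, -1901900), (b138, 205000), (b146, 1155000), (b155, 1155000), (b161, 770000), (b165, 385000), (b170, 1901900), (b174, 385000), (b182, 1901900), (b193, -1901900), (b196, -1901900)],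
  [(b0, 3600000), (b1, 4160000), (b2, -1487552), (b3, -6847600), (b5, 3171700), (b20, -2415000), (b22, 3171700), (b34, 2080000), (b35, 1487552), (b36, 2216300), (b38, -3171700), (b49, -3171700), (b56, 2216300), (b67, -2415000), (b69, 3171700), (b82, -3171700), (b96, 1487552), (b97, 2216300), (b99, -3171700), (b110, -3171700), (b116, -1487552), (b119, 3171700), (b122, 3171700), (b123, -2216300), (b129, -3171700), (b135, 3171700), (b139, 2216300), (b150, -2216300), (b160, -2415000), (b162, 3171700), (b175, -3171700), (b189, -3171700), (b195, 3171700)],
  [(b0, 1305000), (b1, -2600000), (b2, -408900), (b3, 1261000), (b34, -1300000), (b35, 408900), (b36, -630500), (b56, -630500), (b96, 408900), (b97, -630500), (b116, -408900), (b123, 630500), (b139, -630500), (b150, 630500)],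
  [(b0, -345000), (b1, -2160000), (b2, 108100), (b3, 5157600), (b5, -2698900), (b20, 2055000), (b22, -2698900), (b34, -1080000), (b35, -108100), (b36, -1551300), (b38, 2698900), (b49, 2698900), (b56, -1551300), (b67, 2055000), (b69, -2698900), (b82, 2698900), (b96, -108100), (b97, -1551300), (b99, 2698900), (b110, 2698900), (b116, 108100), (b119, -2698900), (b122, -2698900), (b123, 1551300), (b129, 2698900), (b135, -2698900), (b139, -1551300), (b150, 1551300), (b160, 2055000), (b162, -2698900), (b175, 2698900), (b189, 2698900), (b195, -2698900)],
  [(b0, -1595000), (b1, -7603300), (b2, 1720600), (b3, 8833900), (b4, 4017300), (b5, -2698900), (b6, -3803800), (b20, 2055000), (b21, 2310000), (b22, -2698900), (b23, -3803800), (b34, -3250850), (b35, 8150), (b36, -3239100), (b37, 1071350), (b38, 2698900), (b39, 1901900), (b48, 770000), (b49, 2698900), (b50, 1901900), (b55, -102500), (b56, -1551300), (b57, -853650), (b67, 2055000), (b68, 2310000), (b69, -2698900), (b70, -3803800), (b81, 770000), (b82, 2698900), (b83, 1901900), (b95, -120850), (b96, -401850), (b97, -3239100), (b98, 301350), (b99, 2698900), (b100,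 1901900), (b110, 2698900), (b111, 1901900), (b116, 108100), (b117, -300700), (b119, -2698900), (b122, -2698900), (b123, 1551300), (b124, -301350), (b129, 2698900), (b130, 1901900), (b135, -2698900), (b138, -102500), (b139, -1551300), (b140, -853650), (b150, 1551300), (b151, -301350), (b160, 2055000), (b161, 2310000), (b162, -2698900), (b163, -3803800), (b174, 770000), (b175, 2698900), (b176, 1901900), (b189, 2698900), (b190, 1901900), (b195, -2698900)],
  [(b0, -345000), (b1, -2160000), (b2, 108100), (b3, 5157600), (b5, -2698900), (b8, 465000), (b9, 820000), (b10, -300700), (b11, -602700), (b20, 2055000), (b22, -2698900), (b34, -1080000), (b35, -108100), (b36, -1551300), (b38, 2698900), (b41, 410000), (b42, 300700), (b43, 301350), (b49, 2698900), (b56, -1551300), (b61, 301350), (b67, 2055000), (b69, -2698900), (b82, 2698900), (b96, -108100), (b97, -1551300), (b99, 2698900), (b103, 300700), (b104, 301350), (b110, 2698900), (b116, 108100), (b119, -2698900), (b120, -300700), (b122, -2698900), (b123, 1551300), (b126, -301350), (b129, 2698900), (b135, -2698900), (b139, -1551300), (b144, 301350), (b150, 1551300),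 (b153, -301350), (b160, 2055000), (b162, -2698900), (b175, 2698900), (b189, 2698900), (b195, -2698900)],
  [(b0, -970000), (b1, -4330850), (b2, 5600), (b3, 5157600), (b4, 770000), (b5, -2698900), (b20, 2055000), (b21, 770000), (b22, -2698900), (b34, -2665000), (b35, 418150), (b36, -1852000), (b37, 167300), (b38, 2698900), (b48, 770000), (b49, 2698900), (b55, 410000), (b56, -3239100), (b57, -853650), (b59, 1901900), (b65, 1901900), (b67, 2055000), (b68, 1071350), (b69, -2698900), (b81, 770000), (b82, 2698900), (b89, 1901900), (b95, 120850), (b96, -108100), (b97, -1551300), (b99, 2698900), (b110, 2698900), (b116, 401850), (b117, 300700), (b118, 301350), (b119, -2698900), (b122, -2698900), (b123, 3239100), (b125, -1901900), (b127, -1901900), (b128, -301350), (b129, 2698900), (b135, -2698900), (b136, -1901900), (b138, 102500), (b139, -1551300), (b150, 1551300), (b151, 301350), (b155, 853650), (b160, 2055000), (b161, 770000), (b162, -2698900), (b174, 770000), (b175, 2698900), (b182, 1901900), (b189, 2698900), (b195, -2698900), (b196, -1901900)],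
  [(b0, -345000), (b1, -2280850), (b2, 5600), (b3, 5157600), (b5, -2698900), (b20, 2055000), (b22, -2698900), (b34, -959150), (b35, -108100), (b36, -1551300), (b38, 2698900), (b49, 2698900), (b55, 102500), (b56, -1551300), (b67, 2055000), (b69, -2698900), (b82, 2698900), (b95, 465000), (b96, 418150), (b97, -1852000), (b98, -602700), (b99, 2698900), (b110, 2698900), (b116, 811850), (b117, 300700), (b118, 301350), (b119, -2698900), (b122, -2698900), (b123, 1551300), (b124, 301350), (b129, 2698900), (b135, -2698900), (b139, -3239100), (b140, -853650), (b142, 1901900), (b148, 1901900), (b150, 3239100), (b152, -1901900), (b154, -1901900), (b155, 853650), (b157, 1901900), (b159, -1901900), (b160, 2055000), (b161, 301350), (b162, -2698900), (b174, -301350), (b175, 2698900), (b189, 2698900), (b195, -2698900), (b199, 1901900), (b201, -1901900)],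
  [(b0, -625000), (b1, -2291700), (b2, -205000), (b4, 770000), (b8, 241700), (b15, 205000), (b21, 770000), (b34, -1025000), (b35, -293750), (b37, 385000), (b41, 293750), (b48, 385000), (b56, -1988500), (b57, -1155000), (b59, 1901900), (b60, 1988500), (b62, -1901900), (b63, 1155000), (b65, 1901900), (b66, -1901900), (b68, 770000), (b81, 385000), (b89, 1901900), (b90, -1901900), (b95, -1025000), (b96, -293750), (b98, 385000), (b102, 293750), (b109, 385000), (b128, 385000), (b139, -1988500), (b140, -1155000), (b142, 1901900), (b143, 1988500), (b145, -1901900), (b146, 1155000), (b148, 1901900), (b149, -1901900), (b157, 1901900), (b158, -1901900), (b161, 770000), (b174, 385000), (b182, 1901900), (b183, -1901900), (b188, 385000), (b199, 1901900), (b200, -1901900)],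
  [(b0, 0), (b1, 1808300), (b2, -498750), (b3, -1988500), (b4, -1925000), (b6, 1901900), (b21, -770000), (b23, 1901900), (b34, 0), (b37, 0), (b48, 0), (b68, -770000), (b70, 1901900), (b81, 0), (b95, -1808300), (b97, 1988500), (b98, 770000), (b100, -1901900), (b109, 770000), (b111, -1901900), (b128, 770000), (b130, -1901900), (b138, 498750), (b139, -1988500), (b142, 1901900), (b148, 1901900), (b157, 1901900), (b160, 1988500), (b161, -770000), (b171, -1901900), (b174, 0), (b184, -1901900), (b188, 1925000), (b190, -1901900), (b199, 1901900), (b202, -1901900)],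
  [(b0, -1250000), (b1, -241700), (b2, -205000), (b8, -2050000), (b9, -293750), (b11, 770000), (b16, -1988500), (b17, -1155000), (b19, 1901900), (b25, 770000), (b30, 1901900), (b34, -2050000), (b37, 770000), (b48, 770000), (b72, 770000), (b77, 1901900), (b81, 770000), (b95, -3858300), (b96, -293750), (b98, 1540000), (b102, 293750), (b106, 1988500), (b108, -1901900), (b109, 1540000), (b114, -1901900), (b128, 1540000), (b133, -1901900), (b138, 498750), (b139, -1988500), (b140, -1155000), (b142, 1901900), (b146, 1155000), (b148, 1901900), (b157, 1901900), (b160, 1988500), (b163, -1901900), (b165, 770000), (b170, 1901900), (b171, -1901900), (b174, 770000), (b184, -1901900), (b188, 2695000), (b193, -1901900), (b199, 1901900), (b202, -1901900)],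
  [(b0, -1875000), (b1, -2533400), (b2, -410000), (b4, 770000), (b21, 770000), (b34, -4883300), (b35, -587500), (b37, 1925000), (b48, 1925000), (b55, 498750), (b56, -3977000), (b57, -2310000), (b59, 3803800), (b65, 3803800), (b67, 1988500), (b68, 770000), (b70, -1901900), (b78, -1901900), (b81, 3080000), (b89, 3803800), (b91, -1901900), (b95, -4883300), (b96, -587500), (b98, 1925000), (b109, 1925000), (b116, 587500), (b123, 1988500), (b125, -1901900), (b127, -1901900), (b128, 1925000), (b136, -1901900), (b138, 498750), (b139, -3977000), (b140, -2310000), (b142, 3803800), (b148, 3803800), (b150, 1988500), (b152, -1901900), (b154, -1901900), (b155, 2310000), (b157, 3803800), (b159, -1901900), (b160, 1988500), (b161, 770000), (b163, -1901900), (b171, -1901900), (b174, 1925000), (b182, 3803800), (b184, -3803800), (b188, 3080000), (b196, -1901900), (b199, 3803800), (b201, -1901900), (b202, -1901900)],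
  [(b0, -1250000), (b1, -3858300), (b2, 498750), (b3, 1988500), (b4, 2695000), (b6, -1901900), (b21, 1540000), (b23, -1901900), (b34, -2050000), (b35, 293750), (b37, 770000), (b48, 770000), (b56, 1988500), (b57, 1155000), (b59, -1901900), (b65, -1901900), (b68, 1540000), (b70, -1901900), (b81, 770000), (b89, -1901900), (b95, -2291700), (b96, -293750), (b97, -1988500), (b98, 770000), (b100, 1901900), (b109, 770000), (b111, 1901900), (b116, -293750), (b123, -1988500), (b125, 1901900), (b127, 1901900), (b128, 770000), (b130, 1901900), (b136, 1901900), (b138, -205000), (b140, -1155000), (b155, -1155000), (b161, 1540000), (b163, -1901900), (b174, 770000), (b182, -1901900), (b188, 770000), (b190, 1901900), (b196, 1901900)],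
  [(b0, -1250000), (b1, -2050000), (b4, 770000), (b8, -2050000), (b11, 770000), (b21, 770000), (b25, 770000), (b34, -2050000), (b37, 770000), (b48, 770000), (b68, 770000), (b72, 770000), (b81, 770000), (b95, -2050000), (b98, 770000), (b109, 770000), (b128, 770000), (b161, 770000), (b165, 770000), (b174, 770000), (b188, 770000)],
  [(b0, 3600000), (b1, 2080000), (b2, -743776), (b3, -4631300), (b5, 1585850), (b20, -2415000), (b22, 1585850), (b34, 2080000), (b67, -2415000), (b69, 1585850), (b95, 2080000), (b96, 1487552), (b97, 2216300), (b99, -3171700), (b110, -3171700), (b129, -3171700), (b138, -743776), (b139, 2216300), (b141, 1585850), (b147, 1585850), (b156, 1585850), (b160, -4631300), (b162, 1585850), (b189, -3171700), (b198, 1585850)],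
  [(b0, 1305000), (b1, -1300000), (b2, -204450), (b3, 630500), (b34, -1300000), (b95, -1300000), (b96, 408900), (b97, -630500), (b138, -204450), (b139, -630500), (b160, 630500)],
  [(b0, -345000), (b1, -1080000), (b2, 54050), (b3, 3606300), (b5, -1349450), (b20, 2055000), (b22, -1349450), (b34, -1080000), (b67, 2055000), (b69, -1349450), (b95, -1080000), (b96, -108100), (b97, -1551300), (b99, 2698900), (b110, 2698900), (b129, 2698900), (b138, 54050), (b139, -1551300), (b141, -1349450), (b147, -1349450), (b156, -1349450), (b160, 3606300), (b162, -1349450), (b189, 2698900), (b198, -1349450)],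
  [(b0, -970000), (b1, -3569150), (b2, 860300), (b3, 5444450), (b4, 2008650), (b5, -1349450), (b6, -1901900), (b20, 2055000), (b21, 1155000), (b22, -1349450), (b23, -1901900), (b34, -2105000), (b35, 410000), (b37, 385000), (b48, 385000), (b67, 2055000), (b68, 1155000), (b69, -1349450), (b70, -1901900), (b81, 385000), (b95, -1200850), (b96, 8150), (b97, -3239100), (b98, 301350), (b99, 2698900), (b100, 1901900), (b110, 2698900), (b111, 1901900), (b129, 2698900), (b130, 1901900), (b138, -48450), (b139, -1701650), (b140, -853650), (b141, -1349450), (b147, -1349450), (b156, -1349450), (b160, 3606300), (b161, 853650), (b162, -1349450), (b163, -1901900), (b174, 385000), (b189, 2698900), (b190, 1901900), (b198, -1349450)],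
  [(b0, -345000), (b1, -1080000), (b2, 54050), (b3, 3606300), (b5, -1349450), (b8, 465000), (b9, 410000), (b10, -150350), (b11, -301350), (b20, 2055000), (b22, -1349450), (b34, -1080000), (b41, 410000), (b67, 2055000), (b69, -1349450), (b95, -1080000), (b96, -108100), (b97, -1551300), (b99, 2698900), (b102, 410000), (b103, 300700), (b104, 301350), (b110, 2698900), (b129, 2698900), (b138, 54050), (b139, -1551300), (b141, -1349450), (b143, -150350), (b144, 301350), (b147, -1349450), (b156, -1349450), (b160, 3606300), (b162, -1349450), (b165, -301350), (b189, 2698900), (b198, -1349450)]]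

/-- Coefficient rows, group 20. -/
def rows20 : List Row := [
  [(b0, -970000), (b1, -2105000), (b2, 54050), (b3, 3606300), (b4, 385000), (b5, -1349450), (b20, 2055000), (b21, 385000), (b22, -1349450), (b34, -2665000), (b35, 410000), (b36, -150350), (b37, 468650), (b48, 770000), (b55, 410000), (b67, 2055000), (b68, 385000), (b69, -1349450), (b81, 770000), (b95, -2105000), (b96, -108100), (b97, -1551300), (b98, 385000), (b99, 2698900), (b109, 385000), (b110, 2698900), (b116, 410000), (b117, 300700), (b118, 301350), (b128, 385000), (b129, 2698900), (b138, 54050), (b139, -1551300), (b141, -1349450), (b147, -1349450), (b150, -150350), (b151, 301350), (b156, -1349450), (b160, 3606300), (b161, 385000), (b162, -1349450), (b174, 468650), (b188, 385000), (b189, 2698900), (b198, -1349450)],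
  [(b0, -970000), (b1, -1200850), (b2, -48450), (b3, 3606300), (b5, -1349450), (b20, 2055000), (b22, -1349450), (b34, -2105000), (b37, 385000), (b48, 385000), (b67, 2055000), (b69, -1349450), (b81, 385000), (b95, -3569150), (b96, 8150), (b97, -1701650), (b98, 853650), (b99, 2698900), (b109, 1155000), (b110, 2698900), (b116, 410000), (b128, 1155000), (b129, 2698900), (b138, 860300), (b139, -3239100), (b140, -853650), (b141, -1349450), (b142, 1901900), (b147, -1349450), (b148, 1901900), (b156, -1349450), (b157, 1901900), (b160, 5444450), (b161, 301350), (b162, -1349450), (b163, -1901900), (b171, -1901900), (b174, 385000), (b184, -1901900), (b188, 2008650), (b189, 2698900), (b198, -1349450), (b199, 1901900), (b202, -1901900)],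
  [(b1, -686550), (b2, 1457500), (b4, -732350), (b21, -732350), (b68, -732350), (b95, 686550), (b98, 732350), (b109, 732350), (b128, 732350), (b138, -1457500), (b161, -732350), (b188, 732350)],
  [(b1, -688600), (b2, -2050000), (b5, 770000), (b22, 770000), (b69, 770000), (b95, 688600), (b96, -783300), (b97, 205000), (b99, 385000), (b110, 385000), (b129, 385000), (b138, 2833300), (b139, 293750), (b141, -1155000), (b147, -1155000), (b156, -1155000), (b160, -498750), (b161, 1988500), (b162, 1925000), (b164, -1901900), (b172, -1901900), (b185, -1901900), (b188, -1988500), (b189, 385000), (b191, 1901900), (b194, 1901900), (b197, 1901900), (b198, -2310000), (b203, -1901900), (b206, 1901900)],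
  [(b1, 463750), (b2, -1132500), (b4, 732350), (b21, 732350), (b68, 732350), (b95, -463750), (b98, -732350), (b109, -732350), (b128, -732350), (b138, 1132500), (b161, 732350), (b188, -732350)],
  [(b1, 463750), (b2, -1132500), (b4, 732350), (b21, 732350), (b68, 732350), (b95, -463750), (b98, -732350), (b109, -732350), (b128, -732350), (b138, 1132500), (b161, 732350), (b188, -732350)],
  [(b1, 463750), (b2, -1132500), (b4, 732350), (b21, 732350), (b68, 732350), (b95, -463750), (b98, -732350), (b109, -732350), (b128, -732350), (b138, 1132500), (b161, 732350), (b188, -732350)],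
  [(b1, 463750), (b2, -1132500), (b4, 732350), (b21, 732350), (b68, 732350), (b95, -463750), (b98, -732350), (b109, -732350), (b128, -732350), (b138, 1132500), (b161, 732350), (b188, -732350)],
  [(b1, 463750), (b2, -1132500), (b4, 732350), (b21, 732350), (b68, 732350), (b95, -463750), (b98, -732350), (b109, -732350), (b128, -732350), (b138, 1132500), (b161, 732350), (b188, -732350)],
  [(b1, -1945000), (b2, -752500), (b3, 1025000), (b4, 675000), (b5, -640000), (b6, -385000), (b21, 675000), (b22, -640000), (b23, -385000), (b68, 675000), (b69, -640000), (b70, -385000), (b95, 1945000), (b96, -388400), (b97, 3165000), (b98, -675000), (b99, -3022500), (b109, -675000), (b110, -3022500), (b128, -675000), (b129, -3022500), (b138, 1140900), (b139, 840000), (b140, 1820000), (b141, 3662500), (b142, -2369500), (b147, 3662500), (b148, -2369500), (b156, 3662500), (b157, -2369500), (b160, -5030000), (b161, 1676100), (b162, -2560000), (b163, 2369500), (b164, 2521600), (b171, 2754500), (b172, 2521600), (b184, 2754500), (b185, 2521600), (b188, -3496100), (b189, -3022500), (b191, -2521600), (b194, -2521600), (b197, -2521600),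 (b198, 5582500), (b199, -2369500), (b202, 2754500), (b203, 2521600), (b206, -2521600)],
  [(b1, 67500), (b2, 727500), (b95, -67500), (b96, 367100), (b138, -1094600), (b139, 4050), (b160, -4050), (b161, -683850), (b188, 683850)],
  [(b1, 1167500), (b2, 2662500), (b4, -1730000), (b5, -612500), (b21, -1730000), (b22, -612500), (b68, -1730000), (b69, -612500), (b95, -1167500), (b96, 1159950), (b97, -1020000), (b98, 1730000), (b99, 47100), (b109, 1730000), (b110, 47100), (b128, 1730000), (b129, 47100), (b138, -3822450), (b139, 70050), (b140, -5190000), (b141, 565400), (b142, 5086200), (b147, 565400), (b148, 5086200), (b156, 565400), (b157, 5086200), (b160, 949950), (b161, -4232750), (b162, -2450000), (b163, -5086200), (b164, 2413250), (b171, -5086200), (b172, 2413250), (b184, -5086200), (b185, 2413250), (b188, 9422750), (b189, 47100), (b191, -2413250), (b194, -2413250), (b197, -2413250), (b198, 2402900), (b199, 5086200), (b202, -5086200), (b203, 2413250), (b206, -2413250)],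
  [(b1, -222500), (b2, 3675000), (b3, 577500), (b4, -1730000), (b5, -612500), (b21, -1730000), (b22, -612500), (b68, -1730000), (b69, -612500), (b95, -1862500), (b96, 822450), (b97, -869200), (b98, 1730000), (b99, 47100), (b109, 1730000), (b110, 47100), (b128, 1730000), (b129, 47100), (b138, -3484950), (b139, -273250), (b140, -5507250), (b141, 565400), (b142, 5086200), (b147, 565400), (b148, 5086200), (b156, 565400), (b157, 5086200), (b160, 1142450), (b161, -3915500), (b162, -2823450), (b163, -5086200), (b164, 2413250), (b171, -5086200), (b172, 2413250), (b184, -5086200), (b185, 2413250), (b188, 9422750), (b189, 420550), (b191, -2413250), (b194, -2413250), (b197, -2413250), (b198, 2402900), (b199, 5086200), (b202, -5086200), (b203, 2413250), (b206, -2413250)],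
  [(b1, 1167500), (b2, 2662500), (b4, -1730000), (b5, -612500), (b9, 337500), (b10, 192500), (b21, -1730000), (b22, -612500), (b68, -1730000), (b69, -612500), (b95, -1167500), (b96, 1159950), (b97, -1020000), (b98, 1730000), (b99, 47100), (b102, -337500), (b103, 150800), (b109, 1730000), (b110, 47100), (b128, 1730000), (b129, 47100), (b138, -3822450), (b139, 70050), (b140, -5190000), (b141, 565400), (b142, 5086200), (b143, -343300), (b144, -317250), (b147, 565400), (b148, 5086200), (b156, 565400), (b157, 5086200), (b160, 949950), (b161, -4232750), (b162, -2450000), (b163, -5086200), (b164, 2413250), (b165, 317250), (b166, -373450), (b171, -5086200), (b172, 2413250), (b184, -5086200), (b185, 2413250), (b188, 9422750), (b189, 47100), (b191, -2413250), (b192, 373450), (b194, -2413250), (b197, -2413250), (b198, 2402900), (b199, 5086200), (b202, -5086200), (b203, 2413250), (b206, -2413250)],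
  [(b1, 1167500), (b2, 2662500), (b4, -1730000), (b5, -612500), (b21, -1730000), (b22, -612500), (b35, 337500), (b36, 192500), (b68, -1730000), (b69, -612500), (b95, -1167500), (b96, 1159950), (b97, -1020000), (b98, 1730000), (b99, 47100), (b109, 1730000), (b110, 47100), (b116, -337500), (b117, 150800), (b128, 1730000), (b129, 47100), (b138, -3822450), (b139, 70050), (b140, -5190000), (b141, 565400), (b142, 5086200), (b147, 565400), (b148, 5086200), (b150, -343300), (b151, -317250), (b156, 565400), (b157, 5086200), (b160, 949950), (b161, -4232750), (b162, -2450000), (b163, -5086200), (b164, 2413250), (b171, -5086200), (b172, 2413250), (b174, 317250), (b175, -373450), (b184, -5086200), (b185, 2413250), (b188, 9422750), (b189, 47100), (b191, -2413250), (b194, -2413250), (b195, 373450), (b197, -2413250), (b198, 2402900), (b199, 5086200), (b202, -5086200), (b203, 2413250), (b206, -2413250)],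
  [(b1, 1167500), (b2, 2662500), (b4, -1730000), (b5, -612500), (b21, -1730000), (b22, -612500), (b68, -1730000), (b69, -612500), (b95, -472500), (b96, 1497450), (b97, -827500), (b98, 1730000), (b99, 47100), (b109, 1730000), (b110, 47100), (b128, 1730000), (b129, 47100), (b138, -4497450), (b139, 220850), (b140, -5190000), (b141, 565400), (b142, 5086200), (b147, 565400), (b148, 5086200), (b156, 565400), (b157, 5086200), (b160, 414150), (b161, -4550000), (b162, -2450000), (b163, -5086200), (b164, 2413250), (b171, -5086200), (b172, 2413250), (b184, -5086200), (b185, 2413250), (b188, 9740000), (b189, -326350), (b191, -2413250), (b194, -2413250), (b197, -2413250), (b198, 2776350), (b199, 5086200), (b202, -5086200), (b203, 2413250), (b206, -2413250)],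
  [(b0, -625000), (b1, -2833300), (b2, 498750), (b3, 1988500), (b4, 2310000), (b6, -1901900), (b8, -241700), (b9, -293750), (b10, -1988500), (b13, 1901900), (b15, -205000), (b17, -1155000), (b21, 1155000), (b23, -1901900), (b27, 1901900), (b68, 1155000), (b70, -1901900), (b74, 1901900), (b95, -1025000), (b96, 293750), (b98, 385000), (b102, -293750), (b109, 385000), (b128, 385000), (b139, 1988500), (b140, 1155000), (b142, -1901900), (b143, -1988500), (b145, 1901900), (b146, -1155000), (b148, -1901900), (b149, 1901900), (b157, -1901900), (b158, 1901900), (b161, 1155000), (b163, -1901900), (b167, 1901900), (b188, 385000), (b199, -1901900), (b200, 1901900)],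
  [(b0, -625000), (b1, -2050000), (b4, 770000), (b8, -1025000), (b11, 385000), (b21, 770000), (b25, 385000), (b68, 770000), (b72, 385000), (b95, -1025000), (b98, 385000), (b109, 385000), (b128, 385000), (b161, 770000), (b165, 385000), (b188, 385000)],
  [(b0, -625000), (b1, -2050000), (b4, 770000), (b21, 770000), (b34, -1025000), (b37, 385000), (b48, 385000), (b68, 770000), (b81, 385000), (b95, -1025000), (b98, 385000), (b109, 385000), (b128, 385000), (b161, 770000), (b174, 385000), (b188, 385000)],
  [(b0, -625000), (b1, -2833300), (b2, 498750), (b3, 1988500), (b4, 2310000), (b6, -1901900), (b21, 1155000), (b23, -1901900), (b34, -241700), (b35, -293750), (b36, -1988500), (b39, 1901900), (b50, 1901900), (b55, -205000), (b57, -1155000), (b68, 1155000), (b70, -1901900), (b83, 1901900), (b95, -1025000), (b96, 293750), (b98, 385000), (b109, 385000), (b116, -293750), (b128, 385000), (b139, 1988500), (b140, 1155000), (b142, -1901900), (b148, -1901900), (b150, -1988500), (b152, 1901900), (b154, 1901900), (b155, -1155000), (b157, -1901900), (b159, 1901900), (b161, 1155000), (b163, -1901900), (b176, 1901900), (b188,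 385000), (b199, -1901900), (b201, 1901900)],
  [(b0, -625000), (b1, -2050000), (b4, 770000), (b8, -1025000), (b11, 385000), (b21, 770000), (b25, 385000), (b68, 770000), (b72, 385000), (b95, -1025000), (b98, 385000), (b109, 385000), (b128, 385000), (b161, 770000), (b165, 385000), (b188, 385000)],
  [(b0, -625000), (b1, -2050000), (b4, 770000), (b21, 770000), (b34, -1025000), (b37, 385000), (b48, 385000), (b68, 770000), (b81, 385000), (b95, -1025000), (b98, 385000), (b109, 385000), (b128, 385000), (b161, 770000), (b174, 385000), (b188, 385000)],
  [(b0, 1250000), (b1, 3858300), (b2, -498750), (b3, -1988500), (b4, -2695000), (b6, 1901900), (b8, 2050000), (b9, -293750), (b11, -770000), (b16, -1988500), (b17, -1155000), (b19, 1901900), (b21, -1540000), (b23, 1901900), (b25, -770000), (b30, 1901900), (b68, -1540000), (b70, 1901900), (b72, -770000), (b77, 1901900), (b95, 2291700), (b96, 293750), (b97, 1988500), (b98, -770000), (b100, -1901900), (b102, 293750), (b106, 1988500), (b108, -1901900), (b109, -770000), (b111, -1901900), (b114, -1901900), (b128, -770000), (b130, -1901900), (b133, -1901900), (b138, 205000),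 (b140, 1155000), (b146, 1155000), (b161, -1540000), (b163, 1901900), (b165, -770000), (b170, 1901900), (b188, -770000), (b190, -1901900), (b193, -1901900)],
  [(b0, 3600000), (b1, 4160000), (b2, -1487552), (b3, -6847600), (b5, 3171700), (b9, 1487552), (b10, 2216300), (b12, -3171700), (b16, 2216300), (b20, -2415000), (b22, 3171700), (b26, -3171700), (b67, -2415000), (b69, 3171700), (b73, -3171700), (b95, 2080000), (b96, 1487552), (b97, 2216300), (b99, -3171700), (b102, -1487552), (b105, 3171700), (b106, -2216300), (b110, -3171700), (b113, 3171700), (b129, -3171700), (b132, 3171700), (b139, 2216300), (b143, -2216300), (b160, -2415000), (b162, 3171700), (b166, -3171700), (b189, -3171700), (b192, 3171700)],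
  [(b0, 1305000), (b1, -2600000), (b2, -408900), (b3, 1261000), (b9, 408900), (b10, -630500), (b16, -630500), (b95, -1300000), (b96, 408900), (b97, -630500), (b102, -408900), (b106, 630500), (b139, -630500), (b143, 630500)]]

/-- Coefficient rows, group 21. -/
def rows21 : List Row := [
  [(b0, -345000), (b1, -2160000), (b2, 108100), (b3, 5157600), (b5, -2698900), (b9, -108100), (b10, -1551300), (b12, 2698900), (b16, -1551300), (b20, 2055000), (b22, -2698900), (b26, 2698900), (b67, 2055000), (b69, -2698900), (b73, 2698900), (b95, -1080000), (b96, -108100), (b97, -1551300), (b99, 2698900), (b102, 108100), (b105, -2698900), (b106, 1551300), (b110, 2698900), (b113, -2698900), (b129, 2698900), (b132, -2698900), (b139, -1551300), (b143, 1551300), (b160, 2055000), (b162, -2698900), (b166, 2698900), (b189, 2698900), (b192, -2698900)],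
  [(b0, -1595000), (b1, -7603300), (b2, 1720600), (b3, 8833900), (b4, 4017300), (b5, -2698900), (b6, -3803800), (b8, -120850), (b9, -401850), (b10, -3239100), (b11, 301350), (b12, 2698900), (b13, 1901900), (b15, -102500), (b16, -1551300), (b17, -853650), (b20, 2055000), (b21, 2310000), (b22, -2698900), (b23, -3803800), (b26, 2698900), (b27, 1901900), (b67, 2055000), (b68, 2310000), (b69, -2698900), (b70, -3803800), (b73, 2698900), (b74, 1901900), (b95, -3250850), (b96, 8150), (b97, -3239100), (b98, 1071350), (b99, 2698900), (b100, 1901900), (b102, 108100), (b103, -300700), (b105, -2698900), (b106, 1551300), (b107, -301350), (b109, 770000), (b110, 2698900), (b111, 1901900), (b113, -2698900), (b128, 770000), (b129, 2698900), (b130, 1901900), (b132, -2698900), (b138, -102500), (b139, -1551300), (b140, -853650), (b143, 1551300), (b144, -301350), (b160, 2055000), (b161, 2310000), (b162, -2698900), (b163, -3803800), (b166, 2698900), (b167, 1901900), (b188, 770000), (b189, 2698900), (b190, 1901900), (b192, -2698900)],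
  [(b0, -345000), (b1, -2280850), (b2, 5600), (b3, 5157600), (b5, -2698900), (b8, 465000), (b9, 418150), (b10, -1852000), (b11, -602700), (b12, 2698900), (b16, -3239100), (b17, -853650), (b19, 1901900), (b20, 2055000), (b21, 301350), (b22, -2698900), (b26, 2698900), (b30, 1901900), (b67, 2055000), (b69, -2698900), (b73, 2698900), (b77, 1901900), (b95, -959150), (b96, -108100), (b97, -1551300), (b99, 2698900), (b102, 811850), (b103, 300700), (b104, 301350), (b105, -2698900), (b106, 3239100), (b108, -1901900), (b109, -301350), (b110, 2698900), (b113, -2698900), (b114, -1901900), (b129, 2698900), (b132, -2698900), (b133, -1901900), (b138, 102500), (b139, -1551300), (b143, 1551300), (b144, 301350), (b146, 853650), (b160, 2055000), (b162, -2698900), (b166, 2698900), (b170, 1901900), (b189, 2698900), (b192, -2698900), (b193, -1901900)],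
  [(b0, -345000), (b1, -2160000), (b2, 108100), (b3, 5157600), (b5, -2698900), (b9, -108100), (b10, -1551300), (b12, 2698900), (b16, -1551300), (b20, 2055000), (b22, -2698900), (b26, 2698900), (b34, 465000), (b35, 820000), (b36, -300700), (b37, -602700), (b42, 300700), (b43, 301350), (b46, 301350), (b67, 2055000), (b69, -2698900), (b73, 2698900), (b95, -1080000), (b96, -108100), (b97, -1551300), (b99, 2698900), (b102, 108100), (b105, -2698900), (b106, 1551300), (b110, 2698900), (b113, -2698900), (b116, 410000), (b117, 300700), (b118, 301350), (b120, -300700), (b121, -301350), (b129, 2698900), (b132, -2698900), (b139, -1551300), (b143, 1551300), (b151, 301350), (b153, -301350), (b160, 2055000), (b162, -2698900), (b166, 2698900), (b189, 2698900), (b192, -2698900)],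
  [(b0, -970000), (b1, -4330850), (b2, 5600), (b3, 5157600), (b4, 770000), (b5, -2698900), (b8, 120850), (b9, -108100), (b10, -1551300), (b12, 2698900), (b15, 102500), (b16, -1551300), (b20, 2055000), (b21, 770000), (b22, -2698900), (b26, 2698900), (b67, 2055000), (b68, 770000), (b69, -2698900), (b73, 2698900), (b95, -2665000), (b96, 418150), (b97, -1852000), (b98, 167300), (b99, 2698900), (b102, 401850), (b103, 300700), (b104, 301350), (b105, -2698900), (b106, 1551300), (b107, 301350), (b109, 770000), (b110, 2698900), (b113, -2698900), (b128, 770000), (b129, 2698900), (b132, -2698900), (b138, 410000), (b139, -3239100), (b140, -853650), (b142, 1901900), (b143, 3239100), (b145, -1901900), (b146, 853650), (b148, 1901900), (b149, -1901900), (b157, 1901900), (b158, -1901900), (b160, 2055000), (b161, 1071350), (b162, -2698900), (b165, -301350), (b166, 2698900), (b188, 770000), (b189, 2698900), (b192, -2698900), (b199, 1901900), (b200, -1901900)],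
  [(b0, 1250000), (b1, 3858300), (b2, -498750), (b3, -1988500), (b4, -2695000), (b6, 1901900), (b21, -1540000), (b23, 1901900), (b34, 2050000), (b35, -293750), (b37, -770000), (b48, -770000), (b56, -1988500), (b57, -1155000), (b59, 1901900), (b65, 1901900), (b68, -1540000), (b70, 1901900), (b81, -770000), (b89, 1901900), (b95, 2291700), (b96, 293750), (b97, 1988500), (b98, -770000), (b100, -1901900), (b109, -770000), (b111, -1901900), (b116, 293750), (b123, 1988500), (b125, -1901900), (b127, -1901900), (b128, -770000), (b130, -1901900), (b136, -1901900), (b138, 205000), (b140, 1155000), (b155, 1155000), (b161, -1540000), (b163, 1901900), (b174, -770000), (b182, 1901900), (b188, -770000), (b190, -1901900), (b196, -1901900)],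
  [(b1, -241700), (b2, -205000), (b9, -293750), (b16, -1988500), (b17, -1155000), (b19, 1901900), (b30, 1901900), (b35, -293750), (b56, -1988500), (b57, -1155000), (b59, 1901900), (b65, 1901900), (b77, 1901900), (b89, 1901900), (b95, 241700), (b102, 293750), (b106, 1988500), (b108, -1901900), (b114, -1901900), (b116, 293750), (b123, 1988500), (b125, -1901900), (b127, -1901900), (b133, -1901900), (b136, -1901900), (b138, 205000), (b146, 1155000), (b155, 1155000), (b170, 1901900), (b182, 1901900), (b193, -1901900), (b196, -1901900)],
  [(b0, 3600000), (b1, 4160000), (b2, -1487552), (b3, -6847600), (b5, 3171700), (b20, -2415000), (b22, 3171700), (b35, 1487552), (b36, 2216300), (b38, -3171700), (b49, -3171700), (b56, 2216300), (b67, -2415000), (b69, 3171700), (b82, -3171700), (b95, 2080000), (b96, 1487552), (b97, 2216300), (b99, -3171700), (b110, -3171700), (b116, -1487552), (b119, 3171700), (b122, 3171700), (b123, -2216300), (b129, -3171700), (b135, 3171700), (b139, 2216300), (b150, -2216300), (b160, -2415000), (b162, 3171700), (b175, -3171700), (b189, -3171700), (b195, 3171700)],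
  [(b0, 1305000), (b1, -2600000), (b2, -408900), (b3, 1261000), (b35, 408900), (b36, -630500), (b56, -630500), (b95, -1300000), (b96, 408900), (b97, -630500), (b116, -408900), (b123, 630500), (b139, -630500), (b150, 630500)],
  [(b0, -345000), (b1, -2160000), (b2, 108100), (b3, 5157600), (b5, -2698900), (b20, 2055000), (b22, -2698900), (b35, -108100), (b36, -1551300), (b38, 2698900), (b49, 2698900), (b56, -1551300), (b67, 2055000), (b69, -2698900), (b82, 2698900), (b95, -1080000), (b96, -108100), (b97, -1551300), (b99, 2698900), (b110, 2698900), (b116, 108100), (b119, -2698900), (b122, -2698900), (b123, 1551300), (b129, 2698900), (b135, -2698900), (b139, -1551300), (b150, 1551300), (b160, 2055000), (b162, -2698900), (b175, 2698900), (b189, 2698900), (b195, -2698900)],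
  [(b0, -1595000), (b1, -7603300), (b2, 1720600), (b3, 8833900), (b4, 4017300), (b5, -2698900), (b6, -3803800), (b20, 2055000), (b21, 2310000), (b22, -2698900), (b23, -3803800), (b34, -120850), (b35, -401850), (b36, -3239100), (b37, 301350), (b38, 2698900), (b39, 1901900), (b49, 2698900), (b50, 1901900), (b55, -102500), (b56, -1551300), (b57, -853650), (b67, 2055000), (b68, 2310000), (b69, -2698900), (b70, -3803800), (b82, 2698900), (b83, 1901900), (b95, -3250850), (b96, 8150), (b97, -3239100), (b98, 1071350), (b99, 2698900), (b100, 1901900), (b109, 770000), (b110, 2698900), (b111, 1901900), (b116, 108100), (b117, -300700), (b119, -2698900), (b122, -2698900), (b123, 1551300), (b124, -301350), (b128, 770000), (b129, 2698900), (b130, 1901900), (b135, -2698900), (b138, -102500), (b139, -1551300), (b140, -853650), (b150, 1551300), (b151, -301350), (b160, 2055000), (b161, 2310000), (b162, -2698900), (b163, -3803800), (b175, 2698900), (b176, 1901900), (b188, 770000), (b189, 2698900), (b190, 1901900), (b195, -2698900)],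
  [(b0, -345000), (b1, -2160000), (b2, 108100), (b3, 5157600), (b5, -2698900), (b8, 465000), (b9, 820000), (b10, -300700), (b11, -602700), (b20, 2055000), (b22, -2698900), (b35, -108100), (b36, -1551300), (b38, 2698900), (b42, 300700), (b43, 301350), (b49, 2698900), (b56, -1551300), (b61, 301350), (b67, 2055000), (b69, -2698900), (b82, 2698900), (b95, -1080000), (b96, -108100), (b97, -1551300), (b99, 2698900), (b102, 410000), (b103, 300700), (b104, 301350), (b110, 2698900), (b116, 108100), (b119, -2698900), (b120, -300700), (b122, -2698900), (b123, 1551300), (b126, -301350), (b129, 2698900), (b135, -2698900), (b139, -1551300), (b144, 301350), (b150, 1551300), (b153, -301350), (b160, 2055000), (b162, -2698900), (b175, 2698900), (b189, 2698900), (b195, -2698900)],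
  [(b0, -345000), (b1, -2280850), (b2, 5600), (b3, 5157600), (b5, -2698900), (b20, 2055000), (b22, -2698900), (b34, 465000), (b35, 418150), (b36, -1852000), (b37, -602700), (b38, 2698900), (b49, 2698900), (b56, -3239100), (b57, -853650), (b59, 1901900), (b65, 1901900), (b67, 2055000), (b68, 301350), (b69, -2698900), (b82, 2698900), (b89, 1901900), (b95, -959150), (b96, -108100), (b97, -1551300), (b99, 2698900), (b110, 2698900), (b116, 811850), (b117, 300700), (b118, 301350), (b119, -2698900), (b122, -2698900), (b123, 3239100), (b125, -1901900), (b127, -1901900), (b128, -301350), (b129, 2698900), (b135, -2698900), (b136, -1901900), (b138, 102500), (b139, -1551300), (b150, 1551300), (b151, 301350), (b155, 853650), (b160, 2055000), (b162, -2698900), (b175, 2698900), (b182, 1901900), (b189, 2698900), (b195, -2698900), (b196, -1901900)],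
  [(b0, -970000), (b1, -4330850), (b2, 5600), (b3, 5157600), (b4, 770000), (b5, -2698900), (b20, 2055000), (b21, 770000), (b22, -2698900), (b34, 120850), (b35, -108100), (b36, -1551300), (b38, 2698900), (b49, 2698900), (b55, 102500), (b56, -1551300), (b67, 2055000), (b68, 770000), (b69, -2698900), (b82, 2698900), (b95, -2665000), (b96, 418150), (b97, -1852000), (b98, 167300), (b99, 2698900), (b109, 770000), (b110, 2698900), (b116, 401850), (b117, 300700), (b118, 301350), (b119, -2698900), (b122, -2698900), (b123, 1551300), (b124, 301350), (b128, 770000), (b129, 2698900), (b135, -2698900), (b138, 410000), (b139, -3239100), (b140, -853650), (b142, 1901900), (b148, 1901900), (b150, 3239100), (b152, -1901900), (b154, -1901900), (b155, 853650), (b157, 1901900), (b159, -1901900), (b160, 2055000), (b161, 1071350), (b162, -2698900), (b174, -301350), (b175, 2698900), (b188, 770000), (b189, 2698900), (b195, -2698900), (b199, 1901900), (b201, -1901900)],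
  [(b1, 0), (b2, 0), (b3, 0), (b4, 0), (b6, 0), (b21, 0), (b23, 0), (b68, 0), (b70, 0), (b95, 0), (b97, 0), (b98, 0), (b100, 0), (b109, 0), (b111, 0), (b128, 0), (b130, 0), (b138, 0), (b139, 0), (b142, 0), (b148, 0), (b157, 0), (b160, 0), (b161, 0), (b171, 0), (b184, 0), (b188, 0), (b190, 0), (b199, 0), (b202, 0)],
  [(b0, -1250000), (b1, -2291700), (b2, -205000), (b4, 770000), (b8, -2050000), (b9, -293750), (b11, 770000), (b16, -1988500), (b17, -1155000), (b19, 1901900), (b21, 770000), (b25, 770000), (b30, 1901900), (b68, 770000), (b72, 770000), (b77, 1901900), (b95, -3858300), (b96, -293750), (b98, 1540000), (b102, 293750), (b106, 1988500), (b108, -1901900), (b109, 1540000), (b114, -1901900), (b128, 1540000), (b133, -1901900), (b138, 498750), (b139, -1988500), (b140, -1155000), (b142, 1901900), (b146, 1155000), (b148, 1901900), (b157, 1901900), (b160, 1988500), (b161, 770000), (b163, -1901900), (b165, 770000), (b170, 1901900), (b171, -1901900), (b184, -1901900), (b188, 2695000), (b193, -1901900), (b199, 1901900), (b202, -1901900)],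
  [(b0, -1250000), (b1, -2291700), (b2, -205000), (b4, 770000), (b21, 770000), (b34, -2050000), (b35, -293750), (b37, 770000), (b48, 770000), (b56, -1988500), (b57, -1155000), (b59, 1901900), (b65, 1901900), (b68, 770000), (b81, 770000), (b89, 1901900), (b95, -3858300), (b96, -293750), (b98, 1540000), (b109, 1540000), (b116, 293750), (b123, 1988500), (b125, -1901900), (b127, -1901900), (b128, 1540000), (b136, -1901900), (b138, 498750), (b139, -1988500), (b140, -1155000), (b142, 1901900), (b148, 1901900), (b155, 1155000), (b157, 1901900), (b160, 1988500), (b161, 770000), (b163, -1901900), (b171, -1901900), (b174, 770000), (b182, 1901900), (b184, -1901900), (b188, 2695000), (b196, -1901900), (b199, 1901900), (b202, -1901900)],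
  [(b0, 2400000), (b1, 2080000), (b2, -743776), (b3, -3826300), (b5, 1585850), (b20, -1610000), (b22, 1585850), (b67, -1610000), (b69, 1585850), (b95, 2080000), (b96, 1487552), (b97, 2216300), (b99, -3171700), (b110, -3171700), (b129, -3171700), (b138, -743776), (b139, 2216300), (b141, 1585850), (b147, 1585850), (b156, 1585850), (b160, -3826300), (b162, 1585850), (b189, -3171700), (b198, 1585850)],
  [(b0, 870000), (b1, -1300000), (b2, -204450), (b3, 630500), (b95, -1300000), (b96, 408900), (b97, -630500), (b138, -204450), (b139, -630500), (b160, 630500)],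
  [(b0, -230000), (b1, -1080000), (b2, 54050), (b3, 2921300), (b5, -1349450), (b20, 1370000), (b22, -1349450), (b67, 1370000), (b69, -1349450), (b95, -1080000), (b96, -108100), (b97, -1551300), (b99, 2698900), (b110, 2698900), (b129, 2698900), (b138, 54050), (b139, -1551300), (b141, -1349450), (b147, -1349450), (b156, -1349450), (b160, 2921300), (b162, -1349450), (b189, 2698900), (b198, -1349450)],
  [(b0, -855000), (b1, -3724150), (b2, 860300), (b3, 4759450), (b4, 2008650), (b5, -1349450), (b6, -1901900), (b20, 1370000), (b21, 1155000), (b22, -1349450), (b23, -1901900), (b67, 1370000), (b68, 1155000), (b69, -1349450), (b70, -1901900), (b95, -2225850), (b96, 8150), (b97, -3239100), (b98, 686350), (b99, 2698900), (b100, 1901900), (b109, 385000), (b110, 2698900), (b111, 1901900), (b128, 385000), (b129, 2698900), (b130, 1901900), (b138, -48450), (b139, -1701650), (b140, -853650), (b141, -1349450), (b147, -1349450), (b156, -1349450), (b160, 2921300), (b161, 853650), (b162, -1349450), (b163, -1901900), (b188, 385000), (b189, 2698900), (b190, 1901900), (b198, -1349450)],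
  [(b0, -230000), (b1, -1080000), (b2, 54050), (b3, 2921300), (b5, -1349450), (b8, 310000), (b9, 410000), (b10, -150350), (b11, -301350), (b20, 1370000), (b22, -1349450), (b67, 1370000), (b69, -1349450), (b95, -1080000), (b96, -108100), (b97, -1551300), (b99, 2698900), (b102, 410000), (b103, 300700), (b104, 301350), (b110, 2698900), (b129, 2698900), (b138, 54050), (b139, -1551300), (b141, -1349450), (b143, -150350), (b144, 301350), (b147, -1349450), (b156, -1349450), (b160, 2921300), (b162, -1349450), (b165, -301350), (b189, 2698900), (b198, -1349450)],
  [(b0, -230000), (b1, -1080000), (b2, 54050), (b3, 2921300), (b5, -1349450), (b20, 1370000), (b22, -1349450), (b34, 310000), (b35, 410000), (b36, -150350), (b37, -301350), (b67, 1370000), (b69, -1349450), (b95, -1080000), (b96, -108100), (b97, -1551300), (b99, 2698900), (b110, 2698900), (b116, 410000), (b117, 300700), (b118, 301350), (b129, 2698900), (b138, 54050), (b139, -1551300), (b141, -1349450), (b147, -1349450), (b150, -150350), (b151, 301350), (b156, -1349450), (b160, 2921300), (b162, -1349450), (b174, -301350), (b189, 2698900), (b198, -1349450)],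
  [(b0, -855000), (b1, -2225850), (b2, -48450), (b3, 2921300), (b4, 385000), (b5, -1349450), (b20, 1370000), (b21, 385000), (b22, -1349450), (b67, 1370000), (b68, 385000), (b69, -1349450), (b95, -3724150), (b96, 8150), (b97, -1701650), (b98, 853650), (b99, 2698900), (b109, 1155000), (b110, 2698900), (b128, 1155000), (b129, 2698900), (b138, 860300), (b139, -3239100), (b140, -853650), (b141, -1349450), (b142, 1901900), (b147, -1349450), (b148, 1901900), (b156, -1349450), (b157, 1901900), (b160, 4759450), (b161, 686350), (b162, -1349450), (b163, -1901900), (b171, -1901900), (b184, -1901900), (b188, 2008650), (b189, 2698900), (b198, -1349450), (b199, 1901900), (b202, -1901900)]]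

/-- The layout. -/
def layout : Layout :=
  ⟨549, gam, gam.flatten, blocks, pos, rows0 ++ rows1 ++ rows2 ++ rows3 ++ rows4 ++ rows5 ++ rows6 ++ rows7 ++ rows8 ++ rows9 ++ rows10 ++ rows11 ++ rows12 ++ rows13 ++ rows14 ++ rows15 ++ rows16 ++ rows17 ++ rows18 ++ rows19 ++ rows20 ++ rows21⟩

end Vale.Agent.P098.Exact.Sos.Data
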