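import Vale.Agent.P098.Exact.Sos.Data.Struct
import Vale.Agent.P098.Exact.Sos.Walk

/-! Generated literals for the dimension five interior check. -/

namespace Vale.Agent.P098.Exact.Sos.Data

/-- Rows of part 2, group 0. -/
def p2_0 : List Row := [
  [(b15, 1200000), (b18, -805000), (b20, 1040000), (b29, -805000), (b76, -805000), (b169, -805000)],
  [(b15, 435000), (b20, -650000)],
  [(b15, -427500), (b18, 685000), (b20, -1565000), (b23, 385000), (b29, 685000), (b31, 385000), (b76, 685000), (b78, 385000), (b169, 685000), (b171, 385000)],
  [],
  [],
  [(b15, -115000), (b16, 155000), (b18, 685000), (b20, -540000), (b21, 205000), (b29, 685000), (b76, 685000), (b169, 685000)],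
  [],
  [],
  [],
  [(b0, 60000), (b15, -427500), (b18, 685000), (b20, -1410000), (b23, 385000), (b25, 205000), (b29, 685000), (b31, 385000), (b76, 685000), (b78, 385000), (b169, 685000), (b171, 385000)],
  [],
  [],
  [],
  [],
  [(b15, -115000), (b18, 685000), (b20, -540000), (b29, 685000), (b45, 155000), (b48, 205000), (b76, 685000), (b169, 685000)],
  [],
  [],
  [],
  [],
  [],
  [(b15, -115000), (b18, 685000), (b20, -540000), (b29, 685000), (b76, 685000), (b106, 155000), (b109, 205000), (b169, 685000)],
  [],
  [],
  [],
  []]

/-- Rows of part 2, group 1. -/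
def p2_1 : List Row := [
  [],
  [],
  [],
  [(b15, -1945000), (b18, 675000), (b20, -752500), (b23, -640000), (b25, 1025000), (b28, -385000), (b29, 675000), (b31, -640000), (b33, -385000), (b76, 675000), (b78, -640000), (b80, -385000), (b169, 675000), (b171, -640000), (b173, -385000)],
  [(b15, 67500), (b20, 727500)],
  [(b15, 1167500), (b18, -1730000), (b20, 2662500), (b23, -612500), (b29, -1730000), (b31, -612500), (b76, -1730000), (b78, -612500), (b169, -1730000), (b171, -612500)],
  [],
  [],
  [(b15, 1167500), (b16, 337500), (b18, -1730000), (b20, 2662500), (b21, 192500), (b23, -612500), (b29, -1730000), (b31, -612500), (b76, -1730000), (b78, -612500), (b169, -1730000), (b171, -612500)],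
  [],
  [],
  [(b8, -535000), (b11, 755000), (b15, -67500), (b20, -727500), (b25, 755000), (b72, 755000), (b165, 755000)],
  [(b15, -222500), (b18, -1730000), (b20, 3675000), (b23, -612500), (b25, 577500), (b29, -1730000), (b31, -612500), (b76, -1730000), (b78, -612500), (b169, -1730000), (b171, -612500)],
  [],
  [],
  [],
  [],
  [(b15, 1167500), (b18, -1730000), (b20, 2662500), (b23, -612500), (b29, -1730000), (b31, -612500), (b45, 337500), (b48, 192500), (b76, -1730000), (b78, -612500), (b169, -1730000), (b171, -612500)],
  [],
  [],
  [],
  [],
  [],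
  [(b15, 1167500), (b18, -1730000), (b20, 2662500), (b23, -612500), (b29, -1730000), (b31, -612500), (b76, -1730000), (b78, -612500), (b106, 337500), (b109, 192500), (b169, -1730000), (b171, -612500)],
  []]

/-- Rows of part 2, group 2. -/
def p2_2 : List Row := [
  [],
  [],
  [],
  [],
  [(b15, -235000), (b18, -875000), (b20, 500000), (b23, -675000), (b25, 1065000), (b28, 640000), (b29, -875000), (b31, -675000), (b33, 640000), (b76, -875000), (b78, -675000), (b80, 640000), (b169, -875000), (b171, -675000), (b173, 640000)],
  [(b15, 340000), (b20, -67500), (b25, -727500)],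
  [(b15, 1417500), (b18, 340000), (b20, -1167500), (b23, 1730000), (b25, -2662500), (b28, 612500), (b29, 340000), (b31, 1730000), (b33, 612500), (b76, 340000), (b78, 1730000), (b80, 612500), (b169, 340000), (b171, 1730000), (b173, 612500)],
  [],
  [],
  [(b15, 1417500), (b16, 695000), (b18, 340000), (b20, -1167500), (b21, -337500), (b23, 1730000), (b25, -2662500), (b26, -192500), (b28, 612500), (b29, 340000), (b31, 1730000), (b33, 612500), (b76, 340000), (b78, 1730000), (b80, 612500), (b169, 340000), (b171, 1730000), (b173, 612500)],
  [],
  [],
  [],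
  [(b15, 4252500), (b18, 1020000), (b20, -1417500), (b23, 5190000), (b25, -9000000), (b28, 1837500), (b29, 442500), (b31, 5190000), (b33, 1837500), (b76, 1020000), (b78, 5190000), (b80, 1837500), (b169, 1020000), (b171, 5190000), (b173, 1837500)],
  [],
  [],
  [],
  [],
  [(b15, 1417500), (b18, 340000), (b20, -1167500), (b23, 1730000), (b25, -2662500), (b28, 612500), (b29, 340000), (b31, 1730000), (b33, 612500), (b45, 695000), (b48, -337500), (b52, -192500), (b76, 340000), (b78, 1730000), (b80, 612500), (b169, 340000), (b171, 1730000), (b173, 612500)],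
  [],
  [],
  [],
  [],
  [],
  [(b15, 1417500), (b18, 340000), (b20, -1167500), (b23, 1730000), (b25, -2662500), (b28, 612500), (b29, 340000), (b31, 1730000), (b33, 612500), (b76, 340000), (b78, 1730000), (b80, 612500), (b106, 695000), (b109, -337500), (b113, -192500), (b169, 340000), (b171, 1730000), (b173, 612500)]]

/-- Rows of part 2, group 3. -/
def p2_3 : List Row := [
  [],
  [],
  [],
  [],
  [],
  [],
  [],
  [(b8, 625000), (b9, 1025000), (b12, -385000), (b15, 2050000), (b18, -770000), (b26, -385000), (b29, -770000), (b73, -385000), (b76, -770000), (b166, -385000), (b169, -770000)],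
  [],
  [],
  [],
  [],
  [],
  [(b8, 1945000), (b9, 752500), (b10, -1025000), (b11, -675000), (b12, 640000), (b13, 385000), (b15, 752500), (b18, 640000), (b20, -1025000), (b23, 385000), (b25, -675000), (b26, 640000), (b27, 385000), (b29, 640000), (b31, 385000), (b72, -675000), (b73, 640000), (b74, 385000), (b76, 640000), (b78, 385000), (b165, -675000), (b166, 640000), (b167, 385000), (b169, 640000), (b171, 385000)],
  [(b8, -67500), (b9, -727500), (b15, -727500)],
  [(b8, -1167500), (b9, -2662500), (b11, 1730000), (b12, 612500), (b15, -2662500), (b18, 612500), (b25, 1730000), (b26, 612500), (b29, 612500), (b72, 1730000), (b73, 612500), (b76, 612500), (b165, 1730000), (b166, 612500), (b169, 612500)],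
  [(b8, -1167500), (b9, -3000000), (b10, -192500), (b11, 1730000), (b12, 612500), (b15, -2662500), (b16, -192500), (b18, 612500), (b25, 1730000), (b26, 612500), (b29, 612500), (b72, 1730000), (b73, 612500), (b76, 612500), (b165, 1730000), (b166, 612500), (b169, 612500)],
  [(b8, 222500), (b9, -2662500), (b11, 1730000), (b12, 612500), (b15, -3675000), (b16, -192500), (b18, 612500), (b20, -577500), (b25, 1730000), (b26, 612500), (b29, 612500), (b72, 1730000), (b73, 612500), (b76, 612500), (b165, 1730000), (b166, 612500), (b169, 612500)],
  [(b8, -1167500), (b9, -2662500), (b11, 1730000), (b12, 612500), (b15, -2662500), (b18, 612500), (b25, 1730000), (b26, 612500), (b29, 612500), (b41, -337500), (b42, -192500), (b45, -192500), (b72, 1730000), (b73, 612500), (b76, 612500), (b165, 1730000), (b166, 612500), (b169, 612500)],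
  [(b8, -1167500), (b9, -2662500), (b11, 1730000), (b12, 612500), (b15, -2662500), (b18, 612500), (b25, 1730000), (b26, 612500), (b29, 612500), (b72, 1730000), (b73, 612500), (b76, 612500), (b102, -337500), (b103, -192500), (b106, -192500), (b165, 1730000), (b166, 612500), (b169, 612500)],
  [(b0, 1200000), (b1, 1040000), (b3, -805000), (b8, 1040000), (b20, -805000), (b67, -805000), (b160, -805000)],
  [(b0, 435000), (b1, -650000), (b8, -650000)],
  [(b0, -115000), (b1, -540000), (b3, 685000), (b8, -540000), (b20, 685000), (b67, 685000), (b160, 685000)],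
  [(b0, -427500), (b1, -1410000), (b2, 205000), (b3, 685000), (b4, 385000), (b8, -1565000), (b9, 205000), (b11, 385000), (b20, 685000), (b21, 385000), (b25, 385000), (b67, 685000), (b68, 385000), (b72, 385000), (b160, 685000), (b161, 385000), (b165, 385000)],
  [(b0, -427500), (b1, -1565000), (b3, 685000), (b4, 385000), (b8, -1410000), (b9, 205000), (b11, 385000), (b15, 205000), (b20, 685000), (b21, 385000), (b25, 385000), (b67, 685000), (b68, 385000), (b72, 385000), (b160, 685000), (b161, 385000), (b165, 385000)]]

/-- Rows of part 2, group 4. -/
def p2_4 : List Row := [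
  [(b0, -115000), (b1, -540000), (b3, 685000), (b8, -540000), (b20, 685000), (b34, 155000), (b35, 205000), (b41, 205000), (b67, 685000), (b160, 685000)],
  [(b0, -115000), (b1, -540000), (b3, 685000), (b8, -540000), (b20, 685000), (b67, 685000), (b95, 155000), (b96, 205000), (b102, 205000), (b160, 685000)],
  [(b1, -686550), (b2, 1457500), (b4, -732350), (b8, 686550), (b11, 732350), (b15, -1457500), (b21, -732350), (b25, 732350), (b68, -732350), (b72, 732350), (b161, -732350), (b165, 732350)],
  [(b1, -63600), (b8, 688600), (b9, 241700), (b10, 205000), (b15, 2833300), (b16, 293750), (b18, -1155000), (b20, -498750), (b21, 1988500), (b22, 1155000), (b24, -1901900), (b25, -1988500), (b28, 1901900), (b29, -2310000), (b32, -1901900), (b33, 1901900), (b76, -1155000), (b79, -1901900), (b80, 1901900), (b169, -1155000), (b172, -1901900), (b173, 1901900)],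
  [(b1, 463750), (b2, -1132500), (b4, 732350), (b8, -463750), (b11, -732350), (b15, 1132500), (b21, 732350), (b25, -732350), (b68, 732350), (b72, -732350), (b161, 732350), (b165, -732350)],
  [(b1, 463750), (b2, -1132500), (b4, 732350), (b8, -463750), (b11, -732350), (b15, 1132500), (b21, 732350), (b25, -732350), (b68, 732350), (b72, -732350), (b161, 732350), (b165, -732350)],
  [(b1, 463750), (b2, -1132500), (b4, 732350), (b8, -463750), (b11, -732350), (b15, 1132500), (b21, 732350), (b25, -732350), (b68, 732350), (b72, -732350), (b161, 732350), (b165, -732350)],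
  [(b1, 463750), (b2, -1132500), (b4, 732350), (b8, -463750), (b11, -732350), (b15, 1132500), (b21, 732350), (b25, -732350), (b68, 732350), (b72, -732350), (b161, 732350), (b165, -732350)],
  [(b1, 463750), (b2, -1132500), (b4, 732350), (b8, -463750), (b11, -732350), (b15, 1132500), (b21, 732350), (b25, -732350), (b68, 732350), (b72, -732350), (b161, 732350), (b165, -732350)],
  [(b8, 1945000), (b9, 364100), (b10, 3165000), (b11, -675000), (b12, -2382500), (b15, 1140900), (b16, -185000), (b17, 1820000), (b18, 3662500), (b19, -1984500), (b20, -5030000), (b21, 1001100), (b22, -1920000), (b23, 2754500), (b24, 2521600), (b25, -3496100), (b26, -2382500), (b28, -2521600), (b29, 5582500), (b30, -1984500), (b31, 2754500), (b32, 2521600), (b33, -2521600), (b72, -675000), (b73, -2382500), (b76, 3662500), (b77, -1984500), (b78, 2754500), (b79, 2521600), (b80, -2521600), (b165, -675000), (b166, -2382500), (b169, 3662500), (b170, -1984500), (b171, 2754500), (b172, 2521600), (b173, -2521600)],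
  [(b8, -67500), (b9, -360400), (b15, -1094600), (b16, 4050), (b20, -4050), (b21, -683850), (b25, 683850)],
  [(b8, -1167500), (b9, -1502550), (b10, -1020000), (b11, 1730000), (b12, 659600), (b15, -3822450), (b16, 70050), (b17, -5190000), (b18, 565400), (b19, 5086200), (b20, 949950), (b21, -2502750), (b22, -1837500), (b23, -5086200), (b24, 2413250), (b25, 9422750), (b26, 659600), (b28, -2413250), (b29, 2402900), (b30, 5086200), (b31, -5086200), (b32, 2413250), (b33, -2413250), (b72, 1730000), (b73, 659600), (b76, 565400), (b77, 5086200), (b78, -5086200), (b79, 2413250), (b80, -2413250), (b165, 1730000), (b166, 659600), (b169, 565400), (b170, 5086200), (b171, -5086200), (b172, 2413250), (b173, -2413250)],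
  [(b8, -1862500), (b9, -1840050), (b10, -1061700), (b11, 1730000), (b12, 659600), (b15, -3484950), (b16, -273250), (b17, -5507250), (b18, 565400), (b19, 5086200), (b20, 1142450), (b21, -2185500), (b22, -2210950), (b23, -5086200), (b24, 2413250), (b25, 9422750), (b26, 1033050), (b28, -2413250), (b29, 2402900), (b30, 5086200), (b31, -5086200), (b32, 2413250), (b33, -2413250), (b72, 1730000), (b73, 659600), (b76, 565400), (b77, 5086200), (b78, -5086200), (b79, 2413250), (b80, -2413250), (b165, 1730000), (b166, 659600), (b169, 565400), (b170, 5086200), (b171, -5086200), (b172, 2413250), (b173, -2413250)],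
  [(b8, -472500), (b9, -1502550), (b10, -1020000), (b11, 1730000), (b12, 659600), (b15, -4497450), (b16, 28350), (b17, -5190000), (b18, 565400), (b19, 5086200), (b20, 414150), (b21, -2820000), (b22, -1837500), (b23, -5086200), (b24, 2413250), (b25, 9740000), (b26, 286150), (b28, -2413250), (b29, 2776350), (b30, 5086200), (b31, -5086200), (b32, 2413250), (b33, -2413250), (b72, 1730000), (b73, 659600), (b76, 565400), (b77, 5086200), (b78, -5086200), (b79, 2413250), (b80, -2413250), (b165, 1730000), (b166, 659600), (b169, 565400), (b170, 5086200), (b171, -5086200), (b172, 2413250), (b173, -2413250)],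
  [(b8, -1167500), (b9, -1502550), (b10, -1020000), (b11, 1730000), (b12, 659600), (b15, -3822450), (b16, 70050), (b17, -5190000), (b18, 565400), (b19, 5086200), (b20, 949950), (b21, -2502750), (b22, -1837500), (b23, -5086200), (b24, 2413250), (b25, 9422750), (b26, 659600), (b28, -2413250), (b29, 2402900), (b30, 5086200), (b31, -5086200), (b32, 2413250), (b33, -2413250), (b41, -337500), (b42, -41700), (b45, -343300), (b46, -317250), (b48, 317250), (b49, -373450), (b52, 373450), (b72, 1730000), (b73, 659600), (b76, 565400), (b77, 5086200), (b78, -5086200), (b79, 2413250), (b80, -2413250), (b165, 1730000), (b166, 659600), (b169, 565400), (b170, 5086200), (b171, -5086200), (b172, 2413250), (b173, -2413250)],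
  [(b8, -1167500), (b9, -1502550), (b10, -1020000), (b11, 1730000), (b12, 659600), (b15, -3822450), (b16, 70050), (b17, -5190000), (b18, 565400), (b19, 5086200), (b20, 949950), (b21, -2502750), (b22, -1837500), (b23, -5086200), (b24, 2413250), (b25, 9422750), (b26, 659600), (b28, -2413250), (b29, 2402900), (b30, 5086200), (b31, -5086200), (b32, 2413250), (b33, -2413250), (b72, 1730000), (b73, 659600), (b76, 565400), (b77, 5086200), (b78, -5086200), (b79, 2413250), (b80, -2413250), (b102, -337500), (b103, -41700), (b106, -343300), (b107, -317250), (b109, 317250), (b110, -373450), (b113, 373450), (b165, 1730000), (b166, 659600), (b169, 565400), (b170, 5086200), (b171, -5086200), (b172, 2413250), (b173, -2413250)],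
  [(b1, 1808300), (b2, -498750), (b3, -1988500), (b4, -1925000), (b6, 1901900), (b8, -1808300), (b10, 1988500), (b11, 770000), (b13, -1901900), (b15, 498750), (b16, -1988500), (b19, 1901900), (b20, 1988500), (b21, -770000), (b25, 1925000), (b27, -1901900), (b30, 1901900), (b31, -1901900), (b68, -770000), (b70, 1901900), (b72, 770000), (b74, -1901900), (b77, 1901900), (b78, -1901900), (b161, -770000), (b163, 1901900), (b165, 770000), (b167, -1901900), (b170, 1901900), (b171, -1901900)],
  [(b0, 1200000), (b1, 1040000), (b2, -743776), (b3, -3021300), (b5, 1585850), (b8, 1040000), (b9, 1487552), (b10, 2216300), (b12, -3171700), (b15, -743776), (b16, 2216300), (b18, 1585850), (b20, -3021300), (b22, 1585850), (b26, -3171700), (b29, 1585850), (b67, -805000), (b69, 1585850), (b73, -3171700), (b76, 1585850), (b160, -805000), (b162, 1585850), (b166, -3171700), (b169, 1585850)],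
  [(b0, 435000), (b1, -650000), (b2, -204450), (b3, 630500), (b8, -650000), (b9, 408900), (b10, -630500), (b15, -204450), (b16, -630500), (b20, 630500)],
  [(b0, -115000), (b1, -540000), (b2, 54050), (b3, 2236300), (b5, -1349450), (b8, -540000), (b9, -108100), (b10, -1551300), (b12, 2698900), (b15, 54050), (b16, -1551300), (b18, -1349450), (b20, 2236300), (b22, -1349450), (b26, 2698900), (b29, -1349450), (b67, 685000), (b69, -1349450), (b73, 2698900), (b76, -1349450), (b160, 685000), (b162, -1349450), (b166, 2698900), (b169, -1349450)],
  [(b0, -427500), (b1, -2314150), (b2, 655300), (b3, 4074450), (b4, 1623650), (b5, -1349450), (b6, -1901900), (b8, -660850), (b9, -196850), (b10, -3239100), (b11, 301350), (b12, 2698900), (b13, 1901900), (b15, -48450), (b16, -1701650), (b17, -853650), (b18, -1349450), (b20, 2236300), (b21, 468650), (b22, -1349450), (b23, -1901900), (b26, 2698900), (b27, 1901900), (b29, -1349450), (b67, 685000), (b68, 770000), (b69, -1349450), (b70, -1901900), (b73, 2698900), (b74, 1901900), (b76, -1349450), (b160, 685000), (b161, 770000), (b162, -1349450), (b163, -1901900), (b166,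 2698900), (b167, 1901900), (b169, -1349450)],
  [(b0, -427500), (b1, -660850), (b2, -48450), (b3, 2236300), (b5, -1349450), (b8, -2314150), (b9, -196850), (b10, -1701650), (b11, 468650), (b12, 2698900), (b15, 655300), (b16, -3239100), (b17, -853650), (b18, -1349450), (b19, 1901900), (b20, 4074450), (b21, 301350), (b22, -1349450), (b23, -1901900), (b25, 1623650), (b26, 2698900), (b29, -1349450), (b30, 1901900), (b31, -1901900), (b67, 685000), (b69, -1349450), (b72, 770000), (b73, 2698900), (b76, -1349450), (b77, 1901900), (b78, -1901900), (b160, 685000), (b162, -1349450), (b165, 770000), (b166, 2698900), (b169, -1349450), (b170, 1901900), (b171, -1901900)],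
  [(b0, -115000), (b1, -540000), (b2, 54050), (b3, 2236300), (b5, -1349450), (b8, -540000), (b9, -108100), (b10, -1551300), (b12, 2698900), (b15, 54050), (b16, -1551300), (b18, -1349450), (b20, 2236300), (b22, -1349450), (b26, 2698900), (b29, -1349450), (b34, 155000), (b35, 205000), (b36, -150350), (b37, -301350), (b41, 205000), (b42, 300700), (b43, 301350), (b45, -150350), (b46, 301350), (b48, -301350), (b67, 685000), (b69, -1349450), (b73, 2698900), (b76, -1349450), (b160, 685000), (b162, -1349450), (b166, 2698900), (b169, -1349450)],
  [(b0, -115000), (b1, -540000), (b2, 54050), (b3, 2236300), (b5, -1349450), (b8, -540000), (b9, -108100), (b10, -1551300), (b12, 2698900), (b15, 54050), (b16, -1551300), (b18, -1349450), (b20, 2236300), (b22, -1349450), (b26, 2698900), (b29, -1349450), (b67, 685000), (b69, -1349450), (b73, 2698900), (b76, -1349450), (b95, 155000), (b96, 205000), (b97, -150350), (b98, -301350), (b102, 205000), (b103, 300700), (b104, 301350), (b106, -150350), (b107, 301350), (b109, -301350), (b160, 685000), (b162, -1349450), (b166, 2698900), (b169, -1349450)],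
  []]

/-- Rows of part 2, group 5. -/
def p2_5 : List Row := [
  [(b8, 1390000), (b15, -675000), (b20, -385000)],
  [(b0, -625000), (b1, -2050000), (b4, 770000), (b8, -1025000), (b11, 385000), (b21, 770000), (b25, 385000), (b34, -1025000), (b37, 385000), (b48, 385000), (b68, 770000), (b72, 385000), (b81, 385000), (b161, 770000), (b165, 385000), (b174, 385000)],
  [(b0, 625000), (b1, 2833300), (b2, -498750), (b3, -1988500), (b4, -2310000), (b6, 1901900), (b8, 241700), (b9, 293750), (b10, 1988500), (b13, -1901900), (b15, 205000), (b17, 1155000), (b21, -1155000), (b23, 1901900), (b27, -1901900), (b34, 1025000), (b35, -293750), (b37, -385000), (b41, 293750), (b48, -385000), (b56, -1988500), (b57, -1155000), (b59, 1901900), (b60, 1988500), (b62, -1901900), (b63, 1155000), (b65, 1901900), (b66, -1901900), (b68, -1155000), (b70, 1901900), (b74, -1901900), (b81, -385000), (b89, 1901900), (b90, -1901900), (b161, -1155000), (b163, 1901900), (b167, -1901900), (b174, -385000), (b182, 1901900), (b183, -1901900)],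
  [(b0, 1200000), (b1, 1040000), (b3, -805000), (b20, -805000), (b34, 1040000), (b67, -805000), (b160, -805000)],
  [(b0, 435000), (b1, -650000), (b34, -650000)],
  [(b0, -115000), (b1, -540000), (b3, 685000), (b20, 685000), (b34, -540000), (b67, 685000), (b160, 685000)],
  [(b0, -427500), (b1, -1410000), (b2, 205000), (b3, 685000), (b4, 385000), (b20, 685000), (b21, 385000), (b34, -1565000), (b35, 205000), (b37, 385000), (b48, 385000), (b67, 685000), (b68, 385000), (b81, 385000), (b160, 685000), (b161, 385000), (b174, 385000)],
  [(b0, -115000), (b1, -540000), (b3, 685000), (b8, 155000), (b9, 205000), (b20, 685000), (b34, -540000), (b41, 205000), (b67, 685000), (b160, 685000)],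
  [(b0, -427500), (b1, -1565000), (b3, 685000), (b4, 385000), (b20, 685000), (b21, 385000), (b34, -1410000), (b35, 205000), (b37, 385000), (b48, 385000), (b55, 205000), (b67, 685000), (b68, 385000), (b81, 385000), (b160, 685000), (b161, 385000), (b174, 385000)],
  [(b0, -115000), (b1, -540000), (b3, 685000), (b20, 685000), (b34, -540000), (b67, 685000), (b95, 155000), (b96, 205000), (b116, 205000), (b160, 685000)],
  [],
  [(b8, 625000), (b15, 2050000), (b18, -770000), (b29, -770000), (b41, 1025000), (b44, -385000), (b52, -385000), (b76, -770000), (b85, -385000), (b169, -770000), (b178, -385000)],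
  [],
  [],
  [],
  [],
  [],
  [(b8, 1945000), (b11, -675000), (b15, 752500), (b18, 640000), (b20, -1025000), (b23, 385000), (b25, -675000), (b29, 640000), (b31, 385000), (b41, 752500), (b44, 640000), (b52, 640000), (b60, -1025000), (b62, 385000), (b66, 385000), (b72, -675000), (b76, 640000), (b78, 385000), (b85, 640000), (b90, 385000), (b165, -675000), (b169, 640000), (b171, 385000), (b178, 640000), (b183, 385000)],
  [(b8, -67500), (b15, -727500), (b41, -727500)],
  [(b8, -1167500), (b11, 1730000), (b15, -2662500), (b18, 612500), (b25, 1730000), (b29, 612500), (b41, -2662500), (b44, 612500), (b52, 612500), (b72, 1730000), (b76, 612500), (b85, 612500), (b165, 1730000), (b169, 612500), (b178, 612500)],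
  [(b8, -1167500), (b9, -337500), (b11, 1730000), (b15, -2662500), (b16, -192500), (b18, 612500), (b25, 1730000), (b29, 612500), (b41, -2662500), (b42, -192500), (b44, 612500), (b52, 612500), (b72, 1730000), (b76, 612500), (b85, 612500), (b165, 1730000), (b169, 612500), (b178, 612500)],
  [(b8, 222500), (b11, 1730000), (b15, -3675000), (b18, 612500), (b20, -577500), (b25, 1730000), (b29, 612500), (b41, -2662500), (b44, 612500), (b45, -192500), (b52, 612500), (b72, 1730000), (b76, 612500), (b85, 612500), (b165, 1730000), (b169, 612500), (b178, 612500)],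
  [(b8, -1167500), (b11, 1730000), (b15, -2662500), (b18, 612500), (b25, 1730000), (b29, 612500), (b41, -3000000), (b44, 612500), (b45, -192500), (b52, 612500), (b60, -192500), (b72, 1730000), (b76, 612500), (b85, 612500), (b165, 1730000), (b169, 612500), (b178, 612500)],
  [(b8, -1167500), (b11, 1730000), (b15, -2662500), (b18, 612500), (b25, 1730000), (b29, 612500), (b41, -2662500), (b44, 612500), (b52, 612500), (b72, 1730000), (b76, 612500), (b85, 612500), (b102, -337500), (b106, -192500), (b120, -192500), (b165, 1730000), (b169, 612500), (b178, 612500)],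
  [(b0, -625000), (b1, -1025000), (b4, 385000), (b8, -2050000), (b11, 770000), (b21, 385000), (b25, 770000), (b34, -1025000), (b37, 385000), (b48, 385000), (b68, 385000), (b72, 770000), (b81, 385000), (b161, 385000), (b165, 770000), (b174, 385000)]]

/-- Rows of part 2, group 6. -/
def p2_6 : List Row := [
  [(b0, -625000), (b1, -241700), (b2, -205000), (b8, -2833300), (b9, -293750), (b11, 1155000), (b15, 498750), (b16, -1988500), (b17, -1155000), (b19, 1901900), (b20, 1988500), (b23, -1901900), (b25, 2310000), (b30, 1901900), (b31, -1901900), (b34, -1025000), (b35, -293750), (b37, 385000), (b41, 293750), (b48, 385000), (b56, -1988500), (b57, -1155000), (b59, 1901900), (b60, 1988500), (b62, -1901900), (b63, 1155000), (b65, 1901900), (b66, -1901900), (b72, 1155000), (b77, 1901900), (b78, -1901900), (b81, 385000), (b89, 1901900), (b90, -1901900), (b165, 1155000), (b170, 1901900), (b171, -1901900), (b174, 385000), (b182, 1901900), (b183, -1901900)],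
  [(b0, -625000), (b1, -1025000), (b4, 385000), (b8, -1025000), (b11, 385000), (b21, 385000), (b25, 385000), (b34, -2050000), (b37, 770000), (b48, 770000), (b68, 385000), (b72, 385000), (b81, 770000), (b161, 385000), (b165, 385000), (b174, 770000)],
  [(b0, 1200000), (b3, -805000), (b8, 1040000), (b20, -805000), (b34, 1040000), (b67, -805000), (b160, -805000)],
  [(b0, 435000), (b8, -650000), (b34, -650000)],
  [(b0, -115000), (b3, 685000), (b8, -540000), (b20, 685000), (b34, -540000), (b67, 685000), (b160, 685000)],
  [(b0, -115000), (b1, 155000), (b3, 685000), (b8, -540000), (b9, 205000), (b20, 685000), (b34, -540000), (b35, 205000), (b67, 685000), (b160, 685000)],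
  [(b0, -427500), (b3, 685000), (b8, -1410000), (b11, 385000), (b15, 205000), (b20, 685000), (b25, 385000), (b34, -1565000), (b37, 385000), (b41, 205000), (b48, 385000), (b67, 685000), (b72, 385000), (b81, 385000), (b160, 685000), (b165, 385000), (b174, 385000)],
  [(b0, -427500), (b3, 685000), (b8, -1565000), (b11, 385000), (b20, 685000), (b25, 385000), (b34, -1410000), (b37, 385000), (b41, 205000), (b48, 385000), (b55, 205000), (b67, 685000), (b72, 385000), (b81, 385000), (b160, 685000), (b165, 385000), (b174, 385000)],
  [(b0, -115000), (b3, 685000), (b8, -540000), (b20, 685000), (b34, -540000), (b67, 685000), (b95, 155000), (b102, 205000), (b116, 205000), (b160, 685000)],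
  [],
  [],
  [],
  [],
  [],
  [],
  [],
  [],
  [],
  [],
  [],
  [],
  [],
  [],
  [],
  []]

/-- Rows of part 2, group 7. -/
def p2_7 : List Row := [
  [],
  [],
  [],
  [],
  [],
  [],
  [],
  [],
  [],
  [],
  [],
  [],
  [],
  [],
  [],
  [(b1, -686550), (b2, 1457500), (b4, -732350), (b21, -732350), (b34, 686550), (b37, 732350), (b48, 732350), (b55, -1457500), (b68, -732350), (b81, 732350), (b161, -732350), (b174, 732350)],
  [(b1, -63600), (b9, 241700), (b10, 205000), (b16, 293750), (b21, 1988500), (b22, 1155000), (b24, -1901900), (b32, -1901900), (b34, 63600), (b41, -241700), (b45, -293750), (b48, -1988500), (b51, 1901900), (b54, 1901900), (b60, -205000), (b64, -1155000), (b79, -1901900), (b87, 1901900), (b172, -1901900), (b180, 1901900)],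
  [(b1, 463750), (b2, -1132500), (b4, 732350), (b21, 732350), (b34, -463750), (b37, -732350), (b48, -732350), (b55, 1132500), (b68, 732350), (b81, -732350), (b161, 732350), (b174, -732350)],
  [(b1, 463750), (b2, -1132500), (b4, 732350), (b21, 732350), (b34, -463750), (b37, -732350), (b48, -732350), (b55, 1132500), (b68, 732350), (b81, -732350), (b161, 732350), (b174, -732350)],
  [(b1, 463750), (b2, -1132500), (b4, 732350), (b21, 732350), (b34, -463750), (b37, -732350), (b48, -732350), (b55, 1132500), (b68, 732350), (b81, -732350), (b161, 732350), (b174, -732350)],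
  [(b1, 463750), (b2, -1132500), (b4, 732350), (b21, 732350), (b34, -463750), (b37, -732350), (b48, -732350), (b55, 1132500), (b68, 732350), (b81, -732350), (b161, 732350), (b174, -732350)],
  [(b1, 463750), (b2, -1132500), (b4, 732350), (b21, 732350), (b34, -463750), (b37, -732350), (b48, -732350), (b55, 1132500), (b68, 732350), (b81, -732350), (b161, 732350), (b174, -732350)],
  [(b9, 364100), (b10, 3165000), (b12, -2382500), (b16, -185000), (b17, 1820000), (b19, -1984500), (b21, 1001100), (b22, -1920000), (b24, 2521600), (b26, -2382500), (b30, -1984500), (b32, 2521600), (b41, -364100), (b44, 2382500), (b45, 185000), (b47, 1984500), (b48, -1001100), (b51, -2521600), (b52, 2382500), (b53, 1984500), (b54, -2521600), (b60, -3165000), (b63, -1820000), (b64, 1920000), (b73, -2382500), (b77, -1984500), (b79, 2521600), (b85, 2382500), (b86, 1984500), (b87, -2521600), (b166, -2382500), (b170, -1984500), (b172, 2521600), (b178, 2382500), (b179, 1984500), (b180, -2521600)],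
  [(b9, -360400), (b16, 4050), (b21, -683850), (b41, 360400), (b45, -4050), (b48, 683850)],
  [(b9, -1502550), (b10, -1020000), (b12, 659600), (b16, 70050), (b17, -5190000), (b19, 5086200), (b21, -2502750), (b22, -1837500), (b24, 2413250), (b26, 659600), (b30, 5086200), (b32, 2413250), (b41, 1502550), (b44, -659600), (b45, -70050), (b47, -5086200), (b48, 2502750), (b51, -2413250), (b52, -659600), (b53, -5086200), (b54, -2413250), (b60, 1020000), (b63, 5190000), (b64, 1837500), (b73, 659600), (b77, 5086200), (b79, 2413250), (b85, -659600), (b86, -5086200), (b87, -2413250), (b166, 659600), (b170, 5086200), (b172, 2413250), (b178, -659600), (b179, -5086200), (b180, -2413250)]]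

/-- Rows of part 2, group 8. -/
def p2_8 : List Row := [
  [(b8, -695000), (b9, -1502550), (b10, -1061700), (b12, 659600), (b15, 337500), (b16, 70050), (b17, -5507250), (b19, 5086200), (b20, 192500), (b21, -2502750), (b22, -2210950), (b24, 2413250), (b26, 659600), (b30, 5086200), (b32, 2413250), (b41, 1502550), (b42, 41700), (b44, -659600), (b45, -70050), (b46, 317250), (b47, -5086200), (b48, 2502750), (b49, 373450), (b51, -2413250), (b52, -659600), (b53, -5086200), (b54, -2413250), (b60, 1020000), (b63, 5190000), (b64, 1837500), (b73, 659600), (b77, 5086200), (b79, 2413250), (b85, -659600), (b86, -5086200), (b87, -2413250), (b166, 659600), (b170, 5086200), (b172, 2413250), (b178, -659600), (b179, -5086200), (b180, -2413250)],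
  [(b9, -1502550), (b10, -1020000), (b12, 659600), (b16, 28350), (b17, -5190000), (b19, 5086200), (b21, -2820000), (b22, -1837500), (b24, 2413250), (b26, 286150), (b30, 5086200), (b32, 2413250), (b41, 1502550), (b44, -659600), (b45, -28350), (b47, -5086200), (b48, 2820000), (b51, -2413250), (b52, -286150), (b53, -5086200), (b54, -2413250), (b60, 1020000), (b63, 5190000), (b64, 1837500), (b73, 659600), (b77, 5086200), (b79, 2413250), (b85, -659600), (b86, -5086200), (b87, -2413250), (b166, 659600), (b170, 5086200), (b172, 2413250), (b178, -659600), (b179, -5086200), (b180, -2413250)],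
  [(b8, 695000), (b9, -1502550), (b10, -1020000), (b12, 659600), (b15, -337500), (b16, 70050), (b17, -5190000), (b19, 5086200), (b20, -192500), (b21, -2502750), (b22, -1837500), (b24, 2413250), (b26, 659600), (b30, 5086200), (b32, 2413250), (b41, 1502550), (b42, -41700), (b44, -659600), (b45, -70050), (b46, -317250), (b47, -5086200), (b48, 2502750), (b49, -373450), (b51, -2413250), (b52, -659600), (b53, -5086200), (b54, -2413250), (b60, 1061700), (b63, 5507250), (b64, 2210950), (b73, 659600), (b77, 5086200), (b79, 2413250), (b85, -659600), (b86, -5086200), (b87, -2413250), (b166, 659600), (b170, 5086200), (b172, 2413250), (b178, -659600), (b179, -5086200), (b180, -2413250)],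
  [(b9, -1502550), (b10, -1020000), (b12, 659600), (b16, 70050), (b17, -5190000), (b19, 5086200), (b21, -2502750), (b22, -1837500), (b24, 2413250), (b26, 659600), (b30, 5086200), (b32, 2413250), (b41, 1502550), (b44, -659600), (b45, -70050), (b47, -5086200), (b48, 2502750), (b51, -2413250), (b52, -659600), (b53, -5086200), (b54, -2413250), (b60, 1020000), (b63, 5190000), (b64, 1837500), (b73, 659600), (b77, 5086200), (b79, 2413250), (b85, -659600), (b86, -5086200), (b87, -2413250), (b103, -41700), (b107, -317250), (b110, -373450), (b120, 41700), (b121, 317250), (b122, 373450), (b166, 659600), (b170, 5086200), (b172, 2413250), (b178, -659600), (b179, -5086200), (b180, -2413250)],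
  [(b0, 625000), (b1, 2833300), (b2, -498750), (b3, -1988500), (b4, -2310000), (b6, 1901900), (b8, 1025000), (b9, -293750), (b11, -385000), (b16, -1988500), (b17, -1155000), (b19, 1901900), (b21, -1155000), (b23, 1901900), (b25, -385000), (b30, 1901900), (b34, 241700), (b35, 293750), (b36, 1988500), (b39, -1901900), (b41, 293750), (b45, 1988500), (b47, -1901900), (b50, -1901900), (b53, -1901900), (b55, 205000), (b57, 1155000), (b63, 1155000), (b68, -1155000), (b70, 1901900), (b72, -385000), (b77, 1901900), (b83, -1901900), (b86, -1901900), (b161, -1155000), (b163, 1901900), (b165, -385000), (b170, 1901900), (b176, -1901900), (b179, -1901900)],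
  [(b0, 1200000), (b1, 2080000), (b2, -1487552), (b3, -5237600), (b5, 3171700), (b9, 1487552), (b10, 2216300), (b12, -3171700), (b16, 2216300), (b20, -805000), (b22, 3171700), (b26, -3171700), (b35, 1487552), (b36, 2216300), (b38, -3171700), (b41, -1487552), (b44, 3171700), (b45, -2216300), (b49, -3171700), (b52, 3171700), (b56, 2216300), (b60, -2216300), (b67, -805000), (b69, 3171700), (b73, -3171700), (b82, -3171700), (b85, 3171700), (b160, -805000), (b162, 3171700), (b166, -3171700), (b175, -3171700), (b178, 3171700)],
  [(b0, 435000), (b1, -1300000), (b2, -408900), (b3, 1261000), (b9, 408900), (b10, -630500), (b16, -630500), (b35, 408900), (b36, -630500), (b41, -408900), (b45, 630500), (b56, -630500), (b60, 630500)],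
  [(b0, -115000), (b1, -1080000), (b2, 108100), (b3, 3787600), (b5, -2698900), (b9, -108100), (b10, -1551300), (b12, 2698900), (b16, -1551300), (b20, 685000), (b22, -2698900), (b26, 2698900), (b35, -108100), (b36, -1551300), (b38, 2698900), (b41, 108100), (b44, -2698900), (b45, 1551300), (b49, 2698900), (b52, -2698900), (b56, -1551300), (b60, 1551300), (b67, 685000), (b69, -2698900), (b73, 2698900), (b82, 2698900), (b85, -2698900), (b160, 685000), (b162, -2698900), (b166, 2698900), (b175, 2698900), (b178, -2698900)],
  [(b0, -740000), (b1, -4783300), (b2, 1310600), (b3, 7463900), (b4, 3247300), (b5, -2698900), (b6, -3803800), (b8, -120850), (b9, -401850), (b10, -3239100), (b11, 301350), (b12, 2698900), (b13, 1901900), (b15, -102500), (b16, -1551300), (b17, -853650), (b20, 685000), (b21, 1540000), (b22, -2698900), (b23, -3803800), (b26, 2698900), (b27, 1901900), (b34, -120850), (b35, -401850), (b36, -3239100), (b37, 301350), (b38, 2698900), (b39, 1901900), (b41, 108100), (b42, -300700), (b44, -2698900), (b45, 1551300), (b46, -301350), (b49, 2698900), (b50, 1901900), (b52, -2698900), (b55, -102500),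 (b56, -1551300), (b57, -853650), (b60, 1551300), (b61, -301350), (b67, 685000), (b68, 1540000), (b69, -2698900), (b70, -3803800), (b73, 2698900), (b74, 1901900), (b82, 2698900), (b83, 1901900), (b85, -2698900), (b160, 685000), (b161, 1540000), (b162, -2698900), (b163, -3803800), (b166, 2698900), (b167, 1901900), (b175, 2698900), (b176, 1901900), (b178, -2698900)],
  [(b0, -115000), (b1, -1200850), (b2, 5600), (b3, 3787600), (b5, -2698900), (b8, 155000), (b9, 8150), (b10, -1852000), (b11, -602700), (b12, 2698900), (b16, -3239100), (b17, -853650), (b19, 1901900), (b20, 685000), (b21, 301350), (b22, -2698900), (b26, 2698900), (b30, 1901900), (b34, 120850), (b35, -108100), (b36, -1551300), (b38, 2698900), (b41, 401850), (b42, 300700), (b43, 301350), (b44, -2698900), (b45, 3239100), (b47, -1901900), (b48, -301350), (b49, 2698900), (b52, -2698900), (b53, -1901900), (b55, 102500), (b56, -1551300), (b60, 1551300), (b61, 301350), (b63, 853650), (b67, 685000), (b69, -2698900), (b73, 2698900), (b77, 1901900), (b82, 2698900), (b85, -2698900), (b86, -1901900), (b160, 685000), (b162, -2698900), (b166, 2698900),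 (b170, 1901900), (b175, 2698900), (b178, -2698900), (b179, -1901900)],
  [(b0, -115000), (b1, -1200850), (b2, 5600), (b3, 3787600), (b5, -2698900), (b8, 120850), (b9, -108100), (b10, -1551300), (b12, 2698900), (b15, 102500), (b16, -1551300), (b20, 685000), (b22, -2698900), (b26, 2698900), (b34, 155000), (b35, 8150), (b36, -1852000), (b37, -602700), (b38, 2698900), (b41, 401850), (b42, 300700), (b43, 301350), (b44, -2698900), (b45, 1551300), (b46, 301350), (b49, 2698900), (b52, -2698900), (b56, -3239100), (b57, -853650), (b59, 1901900), (b60, 3239100), (b62, -1901900), (b63, 853650), (b65, 1901900), (b66, -1901900), (b67, 685000), (b68, 301350), (b69, -2698900), (b72, -301350), (b73, 2698900), (b82, 2698900), (b85, -2698900), (b89, 1901900), (b90, -1901900), (b160, 685000), (b162, -2698900), (b166, 2698900), (b175, 2698900), (b178, -2698900), (b182, 1901900), (b183, -1901900)],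
  [(b0, -115000), (b1, -1080000), (b2, 108100), (b3, 3787600), (b5, -2698900), (b9, -108100), (b10, -1551300), (b12, 2698900), (b16, -1551300), (b20, 685000), (b22, -2698900), (b26, 2698900), (b35, -108100), (b36, -1551300), (b38, 2698900), (b41, 108100), (b44, -2698900), (b45, 1551300), (b49, 2698900), (b52, -2698900), (b56, -1551300), (b60, 1551300), (b67, 685000), (b69, -2698900), (b73, 2698900), (b82, 2698900), (b85, -2698900), (b95, 155000), (b96, 410000), (b97, -300700), (b98, -602700), (b103, 300700), (b104, 301350), (b107, 301350), (b117, 300700), (b118, 301350), (b120, -300700), (b121, -301350), (b124, 301350), (b126, -301350), (b160, 685000), (b162, -2698900), (b166, 2698900), (b175, 2698900), (b178, -2698900)],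
  [(b1, 1808300), (b2, -498750), (b3, -1988500), (b4, -1925000), (b6, 1901900), (b21, -770000), (b23, 1901900), (b34, -1808300), (b36, 1988500), (b37, 770000), (b39, -1901900), (b48, 770000), (b50, -1901900), (b55, 498750), (b56, -1988500), (b59, 1901900), (b65, 1901900), (b67, 1988500), (b68, -770000), (b78, -1901900), (b81, 1925000), (b83, -1901900), (b89, 1901900), (b91, -1901900), (b161, -770000), (b163, 1901900), (b174, 770000), (b176, -1901900), (b182, 1901900), (b184, -1901900)],
  [(b0, -625000), (b1, -241700), (b2, -205000), (b8, -1025000), (b9, -293750), (b11, 385000), (b16, -1988500), (b17, -1155000), (b19, 1901900), (b25, 385000), (b30, 1901900), (b34, -2833300), (b35, -293750), (b37, 1155000), (b41, 293750), (b45, 1988500), (b47, -1901900), (b48, 1155000), (b53, -1901900), (b55, 498750), (b56, -1988500), (b57, -1155000), (b59, 1901900), (b63, 1155000), (b65, 1901900), (b67, 1988500), (b70, -1901900), (b72, 385000), (b77, 1901900), (b78, -1901900), (b81, 2310000), (b86, -1901900), (b89, 1901900), (b91, -1901900), (b165, 385000), (b170, 1901900), (b174, 1155000), (b179, -1901900), (b182,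 1901900), (b184, -1901900)],
  [],
  [(b0, 1200000), (b1, 1040000), (b2, -743776), (b3, -3021300), (b5, 1585850), (b20, -805000), (b22, 1585850), (b34, 1040000), (b35, 1487552), (b36, 2216300), (b38, -3171700), (b49, -3171700), (b55, -743776), (b56, 2216300), (b58, 1585850), (b64, 1585850), (b67, -3021300), (b69, 1585850), (b82, -3171700), (b88, 1585850), (b160, -805000), (b162, 1585850), (b175, -3171700), (b181, 1585850)],
  [(b0, 435000), (b1, -650000), (b2, -204450), (b3, 630500), (b34, -650000), (b35, 408900), (b36, -630500), (b55, -204450), (b56, -630500), (b67, 630500)],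
  [(b0, -115000), (b1, -540000), (b2, 54050), (b3, 2236300), (b5, -1349450), (b20, 685000), (b22, -1349450), (b34, -540000), (b35, -108100), (b36, -1551300), (b38, 2698900), (b49, 2698900), (b55, 54050), (b56, -1551300), (b58, -1349450), (b64, -1349450), (b67, 2236300), (b69, -1349450), (b82, 2698900), (b88, -1349450), (b160, 685000), (b162, -1349450), (b175, 2698900), (b181, -1349450)],
  [(b0, -427500), (b1, -2314150), (b2, 655300), (b3, 4074450), (b4, 1623650), (b5, -1349450), (b6, -1901900), (b20, 685000), (b21, 770000), (b22, -1349450), (b23, -1901900), (b34, -660850), (b35, -196850), (b36, -3239100), (b37, 301350), (b38, 2698900), (b39, 1901900), (b49, 2698900), (b50, 1901900), (b55, -48450), (b56, -1701650), (b57, -853650), (b58, -1349450), (b64, -1349450), (b67, 2236300), (b68, 468650), (b69, -1349450), (b70, -1901900), (b82, 2698900), (b83, 1901900), (b88, -1349450), (b160, 685000), (b161, 770000), (b162, -1349450), (b163, -1901900), (b175, 2698900), (b176, 1901900), (b181, -1349450)],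
  [(b0, -115000), (b1, -540000), (b2, 54050), (b3, 2236300), (b5, -1349450), (b8, 155000), (b9, 205000), (b10, -150350), (b11, -301350), (b20, 685000), (b22, -1349450), (b34, -540000), (b35, -108100), (b36, -1551300), (b38, 2698900), (b41, 205000), (b42, 300700), (b43, 301350), (b49, 2698900), (b55, 54050), (b56, -1551300), (b58, -1349450), (b60, -150350), (b61, 301350), (b64, -1349450), (b67, 2236300), (b69, -1349450), (b72, -301350), (b82, 2698900), (b88, -1349450), (b160, 685000), (b162, -1349450), (b175, 2698900), (b181, -1349450)],
  [(b0, -427500), (b1, -660850), (b2, -48450), (b3, 2236300), (b5, -1349450), (b20, 685000), (b22, -1349450), (b34, -2314150), (b35, -196850), (b36, -1701650), (b37, 468650), (b38, 2698900), (b48, 770000), (b49, 2698900), (b55, 655300), (b56, -3239100), (b57, -853650), (b58, -1349450), (b59, 1901900), (b64, -1349450), (b65, 1901900), (b67, 4074450), (b68, 301350), (b69, -1349450), (b70, -1901900), (b78, -1901900), (b81, 1623650), (b82, 2698900), (b88, -1349450), (b89, 1901900), (b91, -1901900), (b160, 685000), (b162, -1349450), (b174, 770000), (b175, 2698900), (b181,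 -1349450), (b182, 1901900), (b184, -1901900)],
  [(b0, -115000), (b1, -540000), (b2, 54050), (b3, 2236300), (b5, -1349450), (b20, 685000), (b22, -1349450), (b34, -540000), (b35, -108100), (b36, -1551300), (b38, 2698900), (b49, 2698900), (b55, 54050), (b56, -1551300), (b58, -1349450), (b64, -1349450), (b67, 2236300), (b69, -1349450), (b82, 2698900), (b88, -1349450), (b95, 155000), (b96, 205000), (b97, -150350), (b98, -301350), (b116, 205000), (b117, 300700), (b118, 301350), (b123, -150350), (b124, 301350), (b128, -301350), (b160, 685000), (b162, -1349450), (b175, 2698900), (b181, -1349450)],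
  [],
  [],
  []]

/-- Rows of part 2, group 9. -/
def p2_9 : List Row := [
  [],
  [],
  [],
  [],
  [],
  [],
  [],
  [],
  [],
  [],
  [],
  [],
  [],
  [],
  [],
  [],
  [],
  [],
  [],
  [],
  [],
  [],
  [],
  [],
  []]

/-- Rows of part 2, group 10. -/
def p2_10 : List Row := [
  [],
  [],
  [],
  [],
  [],
  [],
  [(b8, 1390000), (b15, -675000), (b20, -385000)],
  [(b0, -625000), (b1, -2050000), (b4, 770000), (b8, -1025000), (b11, 385000), (b21, 770000), (b25, 385000), (b68, 770000), (b72, 385000), (b95, -1025000), (b98, 385000), (b109, 385000), (b128, 385000), (b161, 770000), (b165, 385000), (b188, 385000)],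
  [(b0, 625000), (b1, 2833300), (b2, -498750), (b3, -1988500), (b4, -2310000), (b6, 1901900), (b8, 241700), (b9, 293750), (b10, 1988500), (b13, -1901900), (b15, 205000), (b17, 1155000), (b21, -1155000), (b23, 1901900), (b27, -1901900), (b68, -1155000), (b70, 1901900), (b74, -1901900), (b95, 1025000), (b96, -293750), (b98, -385000), (b102, 293750), (b109, -385000), (b128, -385000), (b139, -1988500), (b140, -1155000), (b142, 1901900), (b143, 1988500), (b145, -1901900), (b146, 1155000), (b148, 1901900), (b149, -1901900), (b157, 1901900), (b158, -1901900), (b161, -1155000), (b163, 1901900), (b167, -1901900), (b188, -385000), (b199, 1901900), (b200, -1901900)],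
  [(b0, -625000), (b1, -2050000), (b4, 770000), (b21, 770000), (b34, -1025000), (b37, 385000), (b48, 385000), (b68, 770000), (b81, 385000), (b95, -1025000), (b98, 385000), (b109, 385000), (b128, 385000), (b161, 770000), (b174, 385000), (b188, 385000)],
  [],
  [(b0, 625000), (b1, 2833300), (b2, -498750), (b3, -1988500), (b4, -2310000), (b6, 1901900), (b21, -1155000), (b23, 1901900), (b34, 241700), (b35, 293750), (b36, 1988500), (b39, -1901900), (b50, -1901900), (b55, 205000), (b57, 1155000), (b68, -1155000), (b70, 1901900), (b83, -1901900), (b95, 1025000), (b96, -293750), (b98, -385000), (b109, -385000), (b116, 293750), (b128, -385000), (b139, -1988500), (b140, -1155000), (b142, 1901900), (b148, 1901900), (b150, 1988500), (b152, -1901900), (b154, -1901900), (b155, 1155000), (b157, 1901900), (b159, -1901900), (b161, -1155000), (b163, 1901900), (b176, -1901900), (b188, -385000), (b199, 1901900), (b201, -1901900)],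
  [(b0, 1200000), (b1, 1040000), (b3, -805000), (b20, -805000), (b67, -805000), (b95, 1040000), (b160, -805000)],
  [(b0, 435000), (b1, -650000), (b95, -650000)],
  [(b0, -115000), (b1, -540000), (b3, 685000), (b20, 685000), (b67, 685000), (b95, -540000), (b160, 685000)],
  [(b0, -427500), (b1, -1410000), (b2, 205000), (b3, 685000), (b4, 385000), (b20, 685000), (b21, 385000), (b67, 685000), (b68, 385000), (b95, -1565000), (b96, 205000), (b98, 385000), (b109, 385000), (b128, 385000), (b160, 685000), (b161, 385000), (b188, 385000)],
  [(b0, -115000), (b1, -540000), (b3, 685000), (b8, 155000), (b9, 205000), (b20, 685000), (b67, 685000), (b95, -540000), (b102, 205000), (b160, 685000)],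
  [(b0, -115000), (b1, -540000), (b3, 685000), (b20, 685000), (b34, 155000), (b35, 205000), (b67, 685000), (b95, -540000), (b116, 205000), (b160, 685000)],
  [(b0, -427500), (b1, -1565000), (b3, 685000), (b4, 385000), (b20, 685000), (b21, 385000), (b67, 685000), (b68, 385000), (b95, -1410000), (b96, 205000), (b98, 385000), (b109, 385000), (b128, 385000), (b138, 205000), (b160, 685000), (b161, 385000), (b188, 385000)],
  [],
  [(b8, 625000), (b15, 2050000), (b18, -770000), (b29, -770000), (b76, -770000), (b102, 1025000), (b105, -385000), (b113, -385000), (b132, -385000), (b169, -770000), (b192, -385000)],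
  [],
  [],
  [],
  []]

/-- Rows of part 2, group 11. -/
def p2_11 : List Row := [
  [],
  [(b8, 1945000), (b11, -675000), (b15, 752500), (b18, 640000), (b20, -1025000), (b23, 385000), (b25, -675000), (b29, 640000), (b31, 385000), (b72, -675000), (b76, 640000), (b78, 385000), (b102, 752500), (b105, 640000), (b113, 640000), (b132, 640000), (b143, -1025000), (b145, 385000), (b149, 385000), (b158, 385000), (b165, -675000), (b169, 640000), (b171, 385000), (b192, 640000), (b200, 385000)],
  [(b8, -67500), (b15, -727500), (b102, -727500)],
  [(b8, -1167500), (b11, 1730000), (b15, -2662500), (b18, 612500), (b25, 1730000), (b29, 612500), (b72, 1730000), (b76, 612500), (b102, -2662500), (b105, 612500), (b113, 612500), (b132, 612500), (b165, 1730000), (b169, 612500), (b192, 612500)],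
  [(b8, -1167500), (b9, -337500), (b11, 1730000), (b15, -2662500), (b16, -192500), (b18, 612500), (b25, 1730000), (b29, 612500), (b72, 1730000), (b76, 612500), (b102, -2662500), (b103, -192500), (b105, 612500), (b113, 612500), (b132, 612500), (b165, 1730000), (b169, 612500), (b192, 612500)],
  [(b8, 222500), (b11, 1730000), (b15, -3675000), (b18, 612500), (b20, -577500), (b25, 1730000), (b29, 612500), (b72, 1730000), (b76, 612500), (b102, -2662500), (b105, 612500), (b106, -192500), (b113, 612500), (b132, 612500), (b165, 1730000), (b169, 612500), (b192, 612500)],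
  [(b8, -1167500), (b11, 1730000), (b15, -2662500), (b18, 612500), (b25, 1730000), (b29, 612500), (b41, -337500), (b45, -192500), (b72, 1730000), (b76, 612500), (b102, -2662500), (b105, 612500), (b113, 612500), (b120, -192500), (b132, 612500), (b165, 1730000), (b169, 612500), (b192, 612500)],
  [(b8, -1167500), (b11, 1730000), (b15, -2662500), (b18, 612500), (b25, 1730000), (b29, 612500), (b72, 1730000), (b76, 612500), (b102, -3000000), (b105, 612500), (b106, -192500), (b113, 612500), (b132, 612500), (b143, -192500), (b165, 1730000), (b169, 612500), (b192, 612500)],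
  [(b0, -625000), (b1, -1025000), (b4, 385000), (b8, -2050000), (b11, 770000), (b21, 385000), (b25, 770000), (b68, 385000), (b72, 770000), (b95, -1025000), (b98, 385000), (b109, 385000), (b128, 385000), (b161, 385000), (b165, 770000), (b188, 385000)],
  [(b0, -625000), (b1, -241700), (b2, -205000), (b8, -2833300), (b9, -293750), (b11, 1155000), (b15, 498750), (b16, -1988500), (b17, -1155000), (b19, 1901900), (b20, 1988500), (b23, -1901900), (b25, 2310000), (b30, 1901900), (b31, -1901900), (b72, 1155000), (b77, 1901900), (b78, -1901900), (b95, -1025000), (b96, -293750), (b98, 385000), (b102, 293750), (b109, 385000), (b128, 385000), (b139, -1988500), (b140, -1155000), (b142, 1901900), (b143, 1988500), (b145, -1901900), (b146, 1155000), (b148, 1901900), (b149, -1901900), (b157, 1901900), (b158, -1901900), (b165, 1155000), (b170, 1901900), (b171, -1901900), (b188, 385000), (b199, 1901900), (b200, -1901900)],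
  [(b0, -625000), (b8, -2050000), (b11, 770000), (b25, 770000), (b34, -1025000), (b37, 385000), (b48, 385000), (b72, 770000), (b81, 385000), (b95, -1025000), (b98, 385000), (b109, 385000), (b128, 385000), (b165, 770000), (b174, 385000), (b188, 385000)],
  [],
  [(b1, -241700), (b2, -205000), (b9, -293750), (b16, -1988500), (b17, -1155000), (b19, 1901900), (b30, 1901900), (b34, 241700), (b41, 293750), (b45, 1988500), (b47, -1901900), (b53, -1901900), (b55, 205000), (b63, 1155000), (b77, 1901900), (b86, -1901900), (b96, -293750), (b116, 293750), (b139, -1988500), (b140, -1155000), (b142, 1901900), (b148, 1901900), (b150, 1988500), (b152, -1901900), (b154, -1901900), (b155, 1155000), (b157, 1901900), (b159, -1901900), (b170, 1901900), (b179, -1901900), (b199, 1901900), (b201, -1901900)],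
  [],
  [(b0, -625000), (b1, -1025000), (b4, 385000), (b8, -1025000), (b11, 385000), (b21, 385000), (b25, 385000), (b68, 385000), (b72, 385000), (b95, -2050000), (b98, 770000), (b109, 770000), (b128, 770000), (b161, 385000), (b165, 385000), (b188, 770000)],
  [(b0, 1200000), (b3, -805000), (b8, 1040000), (b20, -805000), (b67, -805000), (b95, 1040000), (b160, -805000)],
  [(b0, 435000), (b8, -650000), (b95, -650000)],
  [(b0, -115000), (b3, 685000), (b8, -540000), (b20, 685000), (b67, 685000), (b95, -540000), (b160, 685000)],
  [(b0, -115000), (b1, 155000), (b3, 685000), (b8, -540000), (b9, 205000), (b20, 685000), (b67, 685000), (b95, -540000), (b96, 205000), (b160, 685000)],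
  [(b0, -427500), (b3, 685000), (b8, -1410000), (b11, 385000), (b15, 205000), (b20, 685000), (b25, 385000), (b67, 685000), (b72, 385000), (b95, -1565000), (b98, 385000), (b102, 205000), (b109, 385000), (b128, 385000), (b160, 685000), (b165, 385000), (b188, 385000)],
  [(b0, -115000), (b3, 685000), (b8, -540000), (b20, 685000), (b34, 155000), (b41, 205000), (b67, 685000), (b95, -540000), (b116, 205000), (b160, 685000)],
  [(b0, -427500), (b3, 685000), (b8, -1565000), (b11, 385000), (b20, 685000), (b25, 385000), (b67, 685000), (b72, 385000), (b95, -1410000), (b98, 385000), (b102, 205000), (b109, 385000), (b128, 385000), (b138, 205000), (b160, 685000), (b165, 385000), (b188, 385000)],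
  [],
  [],
  []]

/-- Rows of part 2, group 12. -/
def p2_12 : List Row := [
  [],
  [],
  [],
  [],
  [],
  [],
  [],
  [],
  [],
  [],
  [],
  [],
  [],
  [],
  [(b8, 1390000), (b15, -675000), (b20, -385000)],
  [(b1, -241700), (b2, -205000), (b8, 241700), (b15, 205000), (b35, -293750), (b41, 293750), (b56, -1988500), (b57, -1155000), (b59, 1901900), (b60, 1988500), (b62, -1901900), (b63, 1155000), (b65, 1901900), (b66, -1901900), (b89, 1901900), (b90, -1901900), (b96, -293750), (b102, 293750), (b139, -1988500), (b140, -1155000), (b142, 1901900), (b143, 1988500), (b145, -1901900), (b146, 1155000), (b148, 1901900), (b149, -1901900), (b157, 1901900), (b158, -1901900), (b182, 1901900), (b183, -1901900), (b199, 1901900), (b200, -1901900)],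
  [(b0, -625000), (b1, -1025000), (b4, 385000), (b21, 385000), (b34, -2050000), (b37, 770000), (b48, 770000), (b68, 385000), (b81, 770000), (b95, -1025000), (b98, 385000), (b109, 385000), (b128, 385000), (b161, 385000), (b174, 770000), (b188, 385000)],
  [(b0, -625000), (b8, -1025000), (b11, 385000), (b25, 385000), (b34, -2050000), (b37, 770000), (b48, 770000), (b72, 385000), (b81, 770000), (b95, -1025000), (b98, 385000), (b109, 385000), (b128, 385000), (b165, 385000), (b174, 770000), (b188, 385000)],
  [(b0, -625000), (b1, -241700), (b2, -205000), (b34, -2833300), (b35, -293750), (b37, 1155000), (b48, 1155000), (b55, 498750), (b56, -1988500), (b57, -1155000), (b59, 1901900), (b65, 1901900), (b67, 1988500), (b70, -1901900), (b78, -1901900), (b81, 2310000), (b89, 1901900), (b91, -1901900), (b95, -1025000), (b96, -293750), (b98, 385000), (b109, 385000), (b116, 293750), (b128, 385000), (b139, -1988500), (b140, -1155000), (b142, 1901900), (b148, 1901900), (b150, 1988500), (b152, -1901900), (b154, -1901900), (b155, 1155000), (b157, 1901900), (b159, -1901900), (b174, 1155000), (b182, 1901900), (b184, -1901900),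 (b188, 385000), (b199, 1901900), (b201, -1901900)],
  [],
  [(b0, -625000), (b1, -1025000), (b4, 385000), (b21, 385000), (b34, -1025000), (b37, 385000), (b48, 385000), (b68, 385000), (b81, 385000), (b95, -2050000), (b98, 770000), (b109, 770000), (b128, 770000), (b161, 385000), (b174, 385000), (b188, 770000)],
  [(b0, -625000), (b8, -1025000), (b11, 385000), (b25, 385000), (b34, -1025000), (b37, 385000), (b48, 385000), (b72, 385000), (b81, 385000), (b95, -2050000), (b98, 770000), (b109, 770000), (b128, 770000), (b165, 385000), (b174, 385000), (b188, 770000)],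
  [],
  [(b0, 1200000), (b3, -805000), (b20, -805000), (b34, 1040000), (b67, -805000), (b95, 1040000), (b160, -805000)],
  [(b0, 435000), (b34, -650000), (b95, -650000)]]

/-- Rows of part 2, group 13. -/
def p2_13 : List Row := [
  [(b0, -115000), (b3, 685000), (b20, 685000), (b34, -540000), (b67, 685000), (b95, -540000), (b160, 685000)],
  [(b0, -115000), (b1, 155000), (b3, 685000), (b20, 685000), (b34, -540000), (b35, 205000), (b67, 685000), (b95, -540000), (b96, 205000), (b160, 685000)],
  [(b0, -115000), (b3, 685000), (b8, 155000), (b20, 685000), (b34, -540000), (b41, 205000), (b67, 685000), (b95, -540000), (b102, 205000), (b160, 685000)],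
  [(b0, -427500), (b3, 685000), (b20, 685000), (b34, -1410000), (b37, 385000), (b48, 385000), (b55, 205000), (b67, 685000), (b81, 385000), (b95, -1565000), (b98, 385000), (b109, 385000), (b116, 205000), (b128, 385000), (b160, 685000), (b174, 385000), (b188, 385000)],
  [(b0, -427500), (b3, 685000), (b20, 685000), (b34, -1565000), (b37, 385000), (b48, 385000), (b67, 685000), (b81, 385000), (b95, -1410000), (b98, 385000), (b109, 385000), (b116, 205000), (b128, 385000), (b138, 205000), (b160, 685000), (b174, 385000), (b188, 385000)],
  [],
  [],
  [],
  [],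
  [],
  [],
  [],
  [],
  [],
  [],
  [],
  [],
  [],
  [],
  [],
  [],
  [],
  [],
  [],
  []]

/-- Rows of part 2, group 14. -/
def p2_14 : List Row := [
  [],
  [],
  [],
  [],
  [],
  [],
  [],
  [],
  [],
  [],
  [],
  [],
  [],
  [],
  [],
  [],
  [],
  [],
  [],
  [],
  [],
  [],
  [],
  [],
  []]

/-- Rows of part 2, group 15. -/
def p2_15 : List Row := [
  [],
  [],
  [],
  [],
  [],
  [],
  [],
  [],
  [],
  [],
  [],
  [],
  [],
  [],
  [],
  [],
  [],
  [],
  [],
  [],
  [],
  [],
  [],
  [],
  []]

/-- Rows of part 2, group 16. -/
def p2_16 : List Row := [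
  [],
  [],
  [],
  [],
  [],
  [],
  [],
  [],
  [],
  [],
  [],
  [(b1, -686550), (b2, 1457500), (b4, -732350), (b21, -732350), (b68, -732350), (b95, 686550), (b98, 732350), (b109, 732350), (b128, 732350), (b138, -1457500), (b161, -732350), (b188, 732350)],
  [(b1, -63600), (b9, 241700), (b10, 205000), (b16, 293750), (b21, 1988500), (b22, 1155000), (b24, -1901900), (b32, -1901900), (b79, -1901900), (b95, 63600), (b102, -241700), (b106, -293750), (b109, -1988500), (b112, 1901900), (b115, 1901900), (b134, 1901900), (b143, -205000), (b147, -1155000), (b172, -1901900), (b194, 1901900)],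
  [(b1, 463750), (b2, -1132500), (b4, 732350), (b21, 732350), (b68, 732350), (b95, -463750), (b98, -732350), (b109, -732350), (b128, -732350), (b138, 1132500), (b161, 732350), (b188, -732350)],
  [(b1, 463750), (b2, -1132500), (b4, 732350), (b21, 732350), (b68, 732350), (b95, -463750), (b98, -732350), (b109, -732350), (b128, -732350), (b138, 1132500), (b161, 732350), (b188, -732350)],
  [(b1, 463750), (b2, -1132500), (b4, 732350), (b21, 732350), (b68, 732350), (b95, -463750), (b98, -732350), (b109, -732350), (b128, -732350), (b138, 1132500), (b161, 732350), (b188, -732350)],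
  [(b1, 463750), (b2, -1132500), (b4, 732350), (b21, 732350), (b68, 732350), (b95, -463750), (b98, -732350), (b109, -732350), (b128, -732350), (b138, 1132500), (b161, 732350), (b188, -732350)],
  [(b1, 463750), (b2, -1132500), (b4, 732350), (b21, 732350), (b68, 732350), (b95, -463750), (b98, -732350), (b109, -732350), (b128, -732350), (b138, 1132500), (b161, 732350), (b188, -732350)],
  [(b9, 364100), (b10, 3165000), (b12, -2382500), (b16, -185000), (b17, 1820000), (b19, -1984500), (b21, 1001100), (b22, -1920000), (b24, 2521600), (b26, -2382500), (b30, -1984500), (b32, 2521600), (b73, -2382500), (b77, -1984500), (b79, 2521600), (b102, -364100), (b105, 2382500), (b106, 185000), (b108, 1984500), (b109, -1001100), (b112, -2521600), (b113, 2382500), (b114, 1984500), (b115, -2521600), (b132, 2382500), (b133, 1984500), (b134, -2521600), (b143, -3165000), (b146, -1820000), (b147, 1920000), (b166, -2382500), (b170, -1984500), (b172, 2521600), (b192, 2382500), (b193, 1984500), (b194, -2521600)],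
  [(b9, -360400), (b16, 4050), (b21, -683850), (b102, 360400), (b106, -4050), (b109, 683850)],
  [(b9, -1502550), (b10, -1020000), (b12, 659600), (b16, 70050), (b17, -5190000), (b19, 5086200), (b21, -2502750), (b22, -1837500), (b24, 2413250), (b26, 659600), (b30, 5086200), (b32, 2413250), (b73, 659600), (b77, 5086200), (b79, 2413250), (b102, 1502550), (b105, -659600), (b106, -70050), (b108, -5086200), (b109, 2502750), (b112, -2413250), (b113, -659600), (b114, -5086200), (b115, -2413250), (b132, -659600), (b133, -5086200), (b134, -2413250), (b143, 1020000), (b146, 5190000), (b147, 1837500), (b166, 659600), (b170, 5086200), (b172, 2413250), (b192, -659600), (b193, -5086200), (b194, -2413250)],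
  [(b8, -695000), (b9, -1502550), (b10, -1061700), (b12, 659600), (b15, 337500), (b16, 70050), (b17, -5507250), (b19, 5086200), (b20, 192500), (b21, -2502750), (b22, -2210950), (b24, 2413250), (b26, 659600), (b30, 5086200), (b32, 2413250), (b73, 659600), (b77, 5086200), (b79, 2413250), (b102, 1502550), (b103, 41700), (b105, -659600), (b106, -70050), (b107, 317250), (b108, -5086200), (b109, 2502750), (b110, 373450), (b112, -2413250), (b113, -659600), (b114, -5086200), (b115, -2413250), (b132, -659600), (b133, -5086200), (b134, -2413250), (b143, 1020000), (b146, 5190000), (b147, 1837500), (b166, 659600), (b170, 5086200), (b172, 2413250), (b192, -659600), (b193, -5086200), (b194, -2413250)],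
  [(b9, -1502550), (b10, -1020000), (b12, 659600), (b16, 28350), (b17, -5190000), (b19, 5086200), (b21, -2820000), (b22, -1837500), (b24, 2413250), (b26, 286150), (b30, 5086200), (b32, 2413250), (b73, 659600), (b77, 5086200), (b79, 2413250), (b102, 1502550), (b105, -659600), (b106, -28350), (b108, -5086200), (b109, 2820000), (b112, -2413250), (b113, -286150), (b114, -5086200), (b115, -2413250), (b132, -659600), (b133, -5086200), (b134, -2413250), (b143, 1020000), (b146, 5190000), (b147, 1837500), (b166, 659600), (b170, 5086200), (b172, 2413250), (b192, -659600), (b193, -5086200), (b194, -2413250)],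
  [(b9, -1502550), (b10, -1020000), (b12, 659600), (b16, 70050), (b17, -5190000), (b19, 5086200), (b21, -2502750), (b22, -1837500), (b24, 2413250), (b26, 659600), (b30, 5086200), (b32, 2413250), (b42, -41700), (b46, -317250), (b49, -373450), (b73, 659600), (b77, 5086200), (b79, 2413250), (b102, 1502550), (b105, -659600), (b106, -70050), (b108, -5086200), (b109, 2502750), (b112, -2413250), (b113, -659600), (b114, -5086200), (b115, -2413250), (b120, 41700), (b121, 317250), (b122, 373450), (b132, -659600), (b133, -5086200), (b134, -2413250), (b143, 1020000), (b146, 5190000), (b147, 1837500), (b166, 659600), (b170, 5086200), (b172, 2413250), (b192, -659600), (b193, -5086200), (b194, -2413250)],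
  [(b8, 695000), (b9, -1502550), (b10, -1020000), (b12, 659600), (b15, -337500), (b16, 70050), (b17, -5190000), (b19, 5086200), (b20, -192500), (b21, -2502750), (b22, -1837500), (b24, 2413250), (b26, 659600), (b30, 5086200), (b32, 2413250), (b73, 659600), (b77, 5086200), (b79, 2413250), (b102, 1502550), (b103, -41700), (b105, -659600), (b106, -70050), (b107, -317250), (b108, -5086200), (b109, 2502750), (b110, -373450), (b112, -2413250), (b113, -659600), (b114, -5086200), (b115, -2413250), (b132, -659600), (b133, -5086200), (b134, -2413250), (b143, 1061700), (b146, 5507250), (b147, 2210950), (b166, 659600), (b170, 5086200), (b172, 2413250), (b192, -659600), (b193, -5086200), (b194, -2413250)]]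

/-- Rows of part 2, group 17. -/
def p2_17 : List Row := [
  [(b0, 625000), (b1, 2833300), (b2, -498750), (b3, -1988500), (b4, -2310000), (b6, 1901900), (b8, 1025000), (b9, -293750), (b11, -385000), (b16, -1988500), (b17, -1155000), (b19, 1901900), (b21, -1155000), (b23, 1901900), (b25, -385000), (b30, 1901900), (b68, -1155000), (b70, 1901900), (b72, -385000), (b77, 1901900), (b95, 241700), (b96, 293750), (b97, 1988500), (b100, -1901900), (b102, 293750), (b106, 1988500), (b108, -1901900), (b111, -1901900), (b114, -1901900), (b130, -1901900), (b133, -1901900), (b138, 205000), (b140, 1155000), (b146, 1155000), (b161, -1155000), (b163, 1901900), (b165, -385000), (b170, 1901900), (b190, -1901900), (b193, -1901900)],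
  [(b0, 1200000), (b1, 2080000), (b2, -1487552), (b3, -5237600), (b5, 3171700), (b9, 1487552), (b10, 2216300), (b12, -3171700), (b16, 2216300), (b20, -805000), (b22, 3171700), (b26, -3171700), (b67, -805000), (b69, 3171700), (b73, -3171700), (b96, 1487552), (b97, 2216300), (b99, -3171700), (b102, -1487552), (b105, 3171700), (b106, -2216300), (b110, -3171700), (b113, 3171700), (b129, -3171700), (b132, 3171700), (b139, 2216300), (b143, -2216300), (b160, -805000), (b162, 3171700), (b166, -3171700), (b189, -3171700), (b192, 3171700)],
  [(b0, 435000), (b1, -1300000), (b2, -408900), (b3, 1261000), (b9, 408900), (b10, -630500), (b16, -630500), (b96, 408900), (b97, -630500), (b102, -408900), (b106, 630500), (b139, -630500), (b143, 630500)],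
  [(b0, -115000), (b1, -1080000), (b2, 108100), (b3, 3787600), (b5, -2698900), (b9, -108100), (b10, -1551300), (b12, 2698900), (b16, -1551300), (b20, 685000), (b22, -2698900), (b26, 2698900), (b67, 685000), (b69, -2698900), (b73, 2698900), (b96, -108100), (b97, -1551300), (b99, 2698900), (b102, 108100), (b105, -2698900), (b106, 1551300), (b110, 2698900), (b113, -2698900), (b129, 2698900), (b132, -2698900), (b139, -1551300), (b143, 1551300), (b160, 685000), (b162, -2698900), (b166, 2698900), (b189, 2698900), (b192, -2698900)],
  [(b0, -740000), (b1, -4783300), (b2, 1310600), (b3, 7463900), (b4, 3247300), (b5, -2698900), (b6, -3803800), (b8, -120850), (b9, -401850), (b10, -3239100), (b11, 301350), (b12, 2698900), (b13, 1901900), (b15, -102500), (b16, -1551300), (b17, -853650), (b20, 685000), (b21, 1540000), (b22, -2698900), (b23, -3803800), (b26, 2698900), (b27, 1901900), (b67, 685000), (b68, 1540000), (b69, -2698900), (b70, -3803800), (b73, 2698900), (b74, 1901900), (b95, -120850), (b96, -401850), (b97, -3239100), (b98, 301350), (b99, 2698900), (b100, 1901900), (b102, 108100), (b103, -300700), (b105,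 -2698900), (b106, 1551300), (b107, -301350), (b110, 2698900), (b111, 1901900), (b113, -2698900), (b129, 2698900), (b130, 1901900), (b132, -2698900), (b138, -102500), (b139, -1551300), (b140, -853650), (b143, 1551300), (b144, -301350), (b160, 685000), (b161, 1540000), (b162, -2698900), (b163, -3803800), (b166, 2698900), (b167, 1901900), (b189, 2698900), (b190, 1901900), (b192, -2698900)],
  [(b0, -115000), (b1, -1200850), (b2, 5600), (b3, 3787600), (b5, -2698900), (b8, 155000), (b9, 8150), (b10, -1852000), (b11, -602700), (b12, 2698900), (b16, -3239100), (b17, -853650), (b19, 1901900), (b20, 685000), (b21, 301350), (b22, -2698900), (b26, 2698900), (b30, 1901900), (b67, 685000), (b69, -2698900), (b73, 2698900), (b77, 1901900), (b95, 120850), (b96, -108100), (b97, -1551300), (b99, 2698900), (b102, 401850), (b103, 300700), (b104, 301350), (b105, -2698900), (b106, 3239100), (b108, -1901900), (b109, -301350), (b110, 2698900), (b113, -2698900), (b114, -1901900), (b129, 2698900), (b132, -2698900), (b133, -1901900), (b138, 102500), (b139, -1551300), (b143, 1551300), (b144, 301350), (b146, 853650), (b160,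 685000), (b162, -2698900), (b166, 2698900), (b170, 1901900), (b189, 2698900), (b192, -2698900), (b193, -1901900)],
  [(b0, -115000), (b1, -1080000), (b2, 108100), (b3, 3787600), (b5, -2698900), (b9, -108100), (b10, -1551300), (b12, 2698900), (b16, -1551300), (b20, 685000), (b22, -2698900), (b26, 2698900), (b34, 155000), (b35, 410000), (b36, -300700), (b37, -602700), (b42, 300700), (b43, 301350), (b46, 301350), (b67, 685000), (b69, -2698900), (b73, 2698900), (b96, -108100), (b97, -1551300), (b99, 2698900), (b102, 108100), (b105, -2698900), (b106, 1551300), (b110, 2698900), (b113, -2698900), (b117, 300700), (b118, 301350), (b120, -300700), (b121, -301350), (b129, 2698900), (b132, -2698900), (b139, -1551300), (b143, 1551300), (b151, 301350), (b153, -301350), (b160, 685000), (b162, -2698900), (b166, 2698900), (b189, 2698900), (b192, -2698900)],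
  [(b0, -115000), (b1, -1200850), (b2, 5600), (b3, 3787600), (b5, -2698900), (b8, 120850), (b9, -108100), (b10, -1551300), (b12, 2698900), (b15, 102500), (b16, -1551300), (b20, 685000), (b22, -2698900), (b26, 2698900), (b67, 685000), (b69, -2698900), (b73, 2698900), (b95, 155000), (b96, 8150), (b97, -1852000), (b98, -602700), (b99, 2698900), (b102, 401850), (b103, 300700), (b104, 301350), (b105, -2698900), (b106, 1551300), (b107, 301350), (b110, 2698900), (b113, -2698900), (b129, 2698900), (b132, -2698900), (b139, -3239100), (b140, -853650), (b142, 1901900), (b143, 3239100), (b145, -1901900), (b146, 853650), (b148, 1901900), (b149, -1901900), (b157, 1901900), (b158, -1901900), (b160, 685000), (b161, 301350), (b162, -2698900), (b165, -301350), (b166, 2698900), (b189, 2698900), (b192, -2698900), (b199, 1901900), (b200, -1901900)],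
  [(b0, 625000), (b1, 2833300), (b2, -498750), (b3, -1988500), (b4, -2310000), (b6, 1901900), (b21, -1155000), (b23, 1901900), (b34, 1025000), (b35, -293750), (b37, -385000), (b48, -385000), (b56, -1988500), (b57, -1155000), (b59, 1901900), (b65, 1901900), (b68, -1155000), (b70, 1901900), (b81, -385000), (b89, 1901900), (b95, 241700), (b96, 293750), (b97, 1988500), (b100, -1901900), (b111, -1901900), (b116, 293750), (b123, 1988500), (b125, -1901900), (b127, -1901900), (b130, -1901900), (b136, -1901900), (b138, 205000), (b140, 1155000), (b155, 1155000), (b161, -1155000), (b163, 1901900), (b174, -385000), (b182, 1901900), (b190, -1901900), (b196, -1901900)],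
  [(b1, -241700), (b2, -205000), (b9, -293750), (b16, -1988500), (b17, -1155000), (b19, 1901900), (b30, 1901900), (b35, -293750), (b56, -1988500), (b57, -1155000), (b59, 1901900), (b65, 1901900), (b77, 1901900), (b89, 1901900), (b95, 241700), (b102, 293750), (b106, 1988500), (b108, -1901900), (b114, -1901900), (b116, 293750), (b123, 1988500), (b125, -1901900), (b127, -1901900), (b133, -1901900), (b136, -1901900), (b138, 205000), (b146, 1155000), (b155, 1155000), (b170, 1901900), (b182, 1901900), (b193, -1901900), (b196, -1901900)],
  [],
  [(b0, 1200000), (b1, 2080000), (b2, -1487552), (b3, -5237600), (b5, 3171700), (b20, -805000), (b22, 3171700), (b35, 1487552), (b36, 2216300), (b38, -3171700), (b49, -3171700), (b56, 2216300), (b67, -805000), (b69, 3171700), (b82, -3171700), (b96, 1487552), (b97, 2216300), (b99, -3171700), (b110, -3171700), (b116, -1487552), (b119, 3171700), (b122, 3171700), (b123, -2216300), (b129, -3171700), (b135, 3171700), (b139, 2216300), (b150, -2216300), (b160, -805000), (b162, 3171700), (b175, -3171700), (b189, -3171700), (b195, 3171700)],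
  [(b0, 435000), (b1, -1300000), (b2, -408900), (b3, 1261000), (b35, 408900), (b36, -630500), (b56, -630500), (b96, 408900), (b97, -630500), (b116, -408900), (b123, 630500), (b139, -630500), (b150, 630500)],
  [(b0, -115000), (b1, -1080000), (b2, 108100), (b3, 3787600), (b5, -2698900), (b20, 685000), (b22, -2698900), (b35, -108100), (b36, -1551300), (b38, 2698900), (b49, 2698900), (b56, -1551300), (b67, 685000), (b69, -2698900), (b82, 2698900), (b96, -108100), (b97, -1551300), (b99, 2698900), (b110, 2698900), (b116, 108100), (b119, -2698900), (b122, -2698900), (b123, 1551300), (b129, 2698900), (b135, -2698900), (b139, -1551300), (b150, 1551300), (b160, 685000), (b162, -2698900), (b175, 2698900), (b189, 2698900), (b195, -2698900)],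
  [(b0, -740000), (b1, -4783300), (b2, 1310600), (b3, 7463900), (b4, 3247300), (b5, -2698900), (b6, -3803800), (b20, 685000), (b21, 1540000), (b22, -2698900), (b23, -3803800), (b34, -120850), (b35, -401850), (b36, -3239100), (b37, 301350), (b38, 2698900), (b39, 1901900), (b49, 2698900), (b50, 1901900), (b55, -102500), (b56, -1551300), (b57, -853650), (b67, 685000), (b68, 1540000), (b69, -2698900), (b70, -3803800), (b82, 2698900), (b83, 1901900), (b95, -120850), (b96, -401850), (b97, -3239100), (b98, 301350), (b99, 2698900), (b100, 1901900), (b110, 2698900), (b111, 1901900), (b116, 108100), (b117, -300700), (b119, -2698900), (b122, -2698900), (b123, 1551300), (b124, -301350), (b129, 2698900), (b130, 1901900), (b135, -2698900), (b138, -102500), (b139, -1551300), (b140, -853650), (b150, 1551300), (b151, -301350), (b160, 685000), (b161, 1540000), (b162, -2698900), (b163, -3803800), (b175, 2698900), (b176, 1901900), (b189, 2698900), (b190, 1901900), (b195, -2698900)],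
  [(b0, -115000), (b1, -1080000), (b2, 108100), (b3, 3787600), (b5, -2698900), (b8, 155000), (b9, 410000), (b10, -300700), (b11, -602700), (b20, 685000), (b22, -2698900), (b35, -108100), (b36, -1551300), (b38, 2698900), (b42, 300700), (b43, 301350), (b49, 2698900), (b56, -1551300), (b61, 301350), (b67, 685000), (b69, -2698900), (b82, 2698900), (b96, -108100), (b97, -1551300), (b99, 2698900), (b103, 300700), (b104, 301350), (b110, 2698900), (b116, 108100), (b119, -2698900), (b120, -300700), (b122, -2698900), (b123, 1551300), (b126, -301350), (b129, 2698900), (b135, -2698900), (b139, -1551300), (b144, 301350), (b150, 1551300), (b153, -301350), (b160, 685000), (b162, -2698900), (b175, 2698900), (b189, 2698900), (b195, -2698900)],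
  [(b0, -115000), (b1, -1200850), (b2, 5600), (b3, 3787600), (b5, -2698900), (b20, 685000), (b22, -2698900), (b34, 155000), (b35, 8150), (b36, -1852000), (b37, -602700), (b38, 2698900), (b49, 2698900), (b56, -3239100), (b57, -853650), (b59, 1901900), (b65, 1901900), (b67, 685000), (b68, 301350), (b69, -2698900), (b82, 2698900), (b89, 1901900), (b95, 120850), (b96, -108100), (b97, -1551300), (b99, 2698900), (b110, 2698900), (b116, 401850), (b117, 300700), (b118, 301350), (b119, -2698900), (b122, -2698900), (b123, 3239100), (b125, -1901900), (b127, -1901900), (b128, -301350), (b129, 2698900), (b135, -2698900), (b136, -1901900), (b138, 102500), (b139, -1551300), (b150, 1551300), (b151, 301350), (b155, 853650), (b160, 685000), (b162, -2698900), (b175, 2698900), (b182, 1901900), (b189, 2698900), (b195, -2698900), (b196, -1901900)],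
  [(b0, -115000), (b1, -1200850), (b2, 5600), (b3, 3787600), (b5, -2698900), (b20, 685000), (b22, -2698900), (b34, 120850), (b35, -108100), (b36, -1551300), (b38, 2698900), (b49, 2698900), (b55, 102500), (b56, -1551300), (b67, 685000), (b69, -2698900), (b82, 2698900), (b95, 155000), (b96, 8150), (b97, -1852000), (b98, -602700), (b99, 2698900), (b110, 2698900), (b116, 401850), (b117, 300700), (b118, 301350), (b119, -2698900), (b122, -2698900), (b123, 1551300), (b124, 301350), (b129, 2698900), (b135, -2698900), (b139, -3239100), (b140, -853650), (b142, 1901900), (b148, 1901900), (b150, 3239100), (b152, -1901900), (b154, -1901900), (b155, 853650), (b157, 1901900), (b159, -1901900), (b160, 685000), (b161, 301350), (b162, -2698900), (b174, -301350), (b175, 2698900), (b189, 2698900), (b195, -2698900), (b199, 1901900), (b201, -1901900)],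
  [],
  [(b1, 1808300), (b2, -498750), (b3, -1988500), (b4, -1925000), (b6, 1901900), (b21, -770000), (b23, 1901900), (b68, -770000), (b70, 1901900), (b95, -1808300), (b97, 1988500), (b98, 770000), (b100, -1901900), (b109, 770000), (b111, -1901900), (b128, 770000), (b130, -1901900), (b138, 498750), (b139, -1988500), (b142, 1901900), (b148, 1901900), (b157, 1901900), (b160, 1988500), (b161, -770000), (b171, -1901900), (b184, -1901900), (b188, 1925000), (b190, -1901900), (b199, 1901900), (b202, -1901900)],
  [(b0, -625000), (b1, -241700), (b2, -205000), (b8, -1025000), (b9, -293750), (b11, 385000), (b16, -1988500), (b17, -1155000), (b19, 1901900), (b25, 385000), (b30, 1901900), (b72, 385000), (b77, 1901900), (b95, -2833300), (b96, -293750), (b98, 1155000), (b102, 293750), (b106, 1988500), (b108, -1901900), (b109, 1155000), (b114, -1901900), (b128, 1155000), (b133, -1901900), (b138, 498750), (b139, -1988500), (b140, -1155000), (b142, 1901900), (b146, 1155000), (b148, 1901900), (b157, 1901900), (b160, 1988500), (b163, -1901900), (b165, 385000), (b170, 1901900), (b171, -1901900), (b184, -1901900), (b188,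 2310000), (b193, -1901900), (b199, 1901900), (b202, -1901900)],
  [(b0, -625000), (b1, -241700), (b2, -205000), (b34, -1025000), (b35, -293750), (b37, 385000), (b48, 385000), (b56, -1988500), (b57, -1155000), (b59, 1901900), (b65, 1901900), (b81, 385000), (b89, 1901900), (b95, -2833300), (b96, -293750), (b98, 1155000), (b109, 1155000), (b116, 293750), (b123, 1988500), (b125, -1901900), (b127, -1901900), (b128, 1155000), (b136, -1901900), (b138, 498750), (b139, -1988500), (b140, -1155000), (b142, 1901900), (b148, 1901900), (b155, 1155000), (b157, 1901900), (b160, 1988500), (b163, -1901900), (b171, -1901900), (b174, 385000), (b182, 1901900), (b184, -1901900), (b188, 2310000), (b196, -1901900), (b199, 1901900), (b202, -1901900)],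
  [],
  [],
  [(b0, 1200000), (b1, 1040000), (b2, -743776), (b3, -3021300), (b5, 1585850), (b20, -805000), (b22, 1585850), (b67, -805000), (b69, 1585850), (b95, 1040000), (b96, 1487552), (b97, 2216300), (b99, -3171700), (b110, -3171700), (b129, -3171700), (b138, -743776), (b139, 2216300), (b141, 1585850), (b147, 1585850), (b156, 1585850), (b160, -3021300), (b162, 1585850), (b189, -3171700), (b198, 1585850)]]

/-- Rows of part 2, group 18. -/
def p2_18 : List Row := [
  [(b0, 435000), (b1, -650000), (b2, -204450), (b3, 630500), (b95, -650000), (b96, 408900), (b97, -630500), (b138, -204450), (b139, -630500), (b160, 630500)],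
  [(b0, -115000), (b1, -540000), (b2, 54050), (b3, 2236300), (b5, -1349450), (b20, 685000), (b22, -1349450), (b67, 685000), (b69, -1349450), (b95, -540000), (b96, -108100), (b97, -1551300), (b99, 2698900), (b110, 2698900), (b129, 2698900), (b138, 54050), (b139, -1551300), (b141, -1349450), (b147, -1349450), (b156, -1349450), (b160, 2236300), (b162, -1349450), (b189, 2698900), (b198, -1349450)],
  [(b0, -427500), (b1, -2314150), (b2, 655300), (b3, 4074450), (b4, 1623650), (b5, -1349450), (b6, -1901900), (b20, 685000), (b21, 770000), (b22, -1349450), (b23, -1901900), (b67, 685000), (b68, 770000), (b69, -1349450), (b70, -1901900), (b95, -660850), (b96, -196850), (b97, -3239100), (b98, 301350), (b99, 2698900), (b100, 1901900), (b110, 2698900), (b111, 1901900), (b129, 2698900), (b130, 1901900), (b138, -48450), (b139, -1701650), (b140, -853650), (b141, -1349450), (b147, -1349450), (b156, -1349450), (b160, 2236300), (b161, 468650), (b162, -1349450), (b163, -1901900), (b189, 2698900), (b190, 1901900), (b198, -1349450)],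
  [(b0, -115000), (b1, -540000), (b2, 54050), (b3, 2236300), (b5, -1349450), (b8, 155000), (b9, 205000), (b10, -150350), (b11, -301350), (b20, 685000), (b22, -1349450), (b67, 685000), (b69, -1349450), (b95, -540000), (b96, -108100), (b97, -1551300), (b99, 2698900), (b102, 205000), (b103, 300700), (b104, 301350), (b110, 2698900), (b129, 2698900), (b138, 54050), (b139, -1551300), (b141, -1349450), (b143, -150350), (b144, 301350), (b147, -1349450), (b156, -1349450), (b160, 2236300), (b162, -1349450), (b165, -301350), (b189, 2698900), (b198, -1349450)],
  [(b0, -115000), (b1, -540000), (b2, 54050), (b3, 2236300), (b5, -1349450), (b20, 685000), (b22, -1349450), (b34, 155000), (b35, 205000), (b36, -150350), (b37, -301350), (b67, 685000), (b69, -1349450), (b95, -540000), (b96, -108100), (b97, -1551300), (b99, 2698900), (b110, 2698900), (b116, 205000), (b117, 300700), (b118, 301350), (b129, 2698900), (b138, 54050), (b139, -1551300), (b141, -1349450), (b147, -1349450), (b150, -150350), (b151, 301350), (b156, -1349450), (b160, 2236300), (b162, -1349450), (b174, -301350), (b189, 2698900), (b198, -1349450)],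
  [(b0, -427500), (b1, -660850), (b2, -48450), (b3, 2236300), (b5, -1349450), (b20, 685000), (b22, -1349450), (b67, 685000), (b69, -1349450), (b95, -2314150), (b96, -196850), (b97, -1701650), (b98, 468650), (b99, 2698900), (b109, 770000), (b110, 2698900), (b128, 770000), (b129, 2698900), (b138, 655300), (b139, -3239100), (b140, -853650), (b141, -1349450), (b142, 1901900), (b147, -1349450), (b148, 1901900), (b156, -1349450), (b157, 1901900), (b160, 4074450), (b161, 301350), (b162, -1349450), (b163, -1901900), (b171, -1901900), (b184, -1901900), (b188, 1623650), (b189, 2698900), (b198, -1349450), (b199, 1901900), (b202, -1901900)],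
  [],
  [],
  [],
  [],
  [],
  [],
  [],
  [],
  [],
  [],
  [],
  [],
  [],
  [],
  [],
  [],
  [],
  [],
  []]

/-- Rows of part 2, group 19. -/
def p2_19 : List Row := [
  [],
  [],
  [],
  [],
  [],
  [],
  [],
  [],
  [],
  [],
  [],
  [],
  [],
  [],
  [],
  [],
  [],
  [],
  [],
  [],
  [],
  [],
  [],
  [],
  []]

/-- Rows of part 2, group 20. -/
def p2_20 : List Row := [
  [],
  [],
  [],
  [],
  [],
  [],
  [],
  [],
  [],
  [],
  [],
  [],
  [],
  [],
  [],
  [],
  [],
  [],
  [],
  [],
  [],
  [],
  [],
  [],
  []]

/-- Rows of part 2, group 21. -/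
def p2_21 : List Row := [
  [],
  [],
  [],
  [],
  [],
  [],
  [],
  [],
  [],
  [],
  [],
  [],
  [],
  [],
  [],
  [],
  [],
  [],
  [],
  [],
  [],
  [],
  [],
  []]

/-- Rows of part 2. -/
def part2 : List Row := p2_0 ++ p2_1 ++ p2_2 ++ p2_3 ++ p2_4 ++ p2_5 ++ p2_6 ++ p2_7 ++ p2_8 ++ p2_9 ++ p2_10 ++ p2_11 ++ p2_12 ++ p2_13 ++ p2_14 ++ p2_15 ++ p2_16 ++ p2_17 ++ p2_18 ++ p2_19 ++ p2_20 ++ p2_21

theorem part2_ok : pieceOK (pieceG fastOps HP.var 2) gam.flatten part2 = true := by decide +kernel

end Vale.Agent.P098.Exact.Sos.Data
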