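import Vale.Agent.P098.Exact.Sos.Data.Struct
import Vale.Agent.P098.Exact.Sos.Walk

/-! Generated literals for the dimension five interior check. -/

namespace Vale.Agent.P098.Exact.Sos.Data

/-- Rows of part L, group 0. -/
def pL_0 : List Row := [
  [(b0, -1440000), (b2, 1200000), (b3, 1040000), (b5, -805000), (b15, 1200000), (b18, -805000), (b20, 1040000), (b22, -805000), (b29, -805000), (b55, 1200000), (b58, -805000), (b64, -805000), (b67, 1040000), (b69, -805000), (b76, -805000), (b88, -805000), (b138, 1200000), (b141, -805000), (b147, -805000), (b156, -805000), (b160, 1040000), (b162, -805000), (b169, -805000), (b181, -805000), (b198, -805000)],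
  [(b0, -1770000), (b2, 435000), (b3, 860000), (b15, 435000), (b20, 860000), (b55, 435000), (b67, 860000), (b138, 435000), (b160, 860000)],
  [(b0, -240000), (b2, -115000), (b3, -540000), (b5, 685000), (b15, -115000), (b18, 685000), (b20, -540000), (b22, 685000), (b29, 685000), (b55, -115000), (b58, 685000), (b64, 685000), (b67, -540000), (b69, 685000), (b76, 685000), (b88, 685000), (b138, -115000), (b141, 685000), (b147, 685000), (b156, 685000), (b160, -540000), (b162, 685000), (b169, 685000), (b181, 685000), (b198, 685000)],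
  [(b0, 1750000), (b3, -1510000), (b20, -1510000), (b67, -1510000), (b160, -1510000)],
  [],
  [(b1, 1445000), (b2, -740000), (b3, -2435000), (b4, 205000), (b5, 685000), (b6, 770000), (b15, -115000), (b16, 155000), (b18, 685000), (b20, -540000), (b21, 205000), (b22, 685000), (b23, 770000), (b29, 685000), (b55, -115000), (b56, 155000), (b58, 685000), (b64, 685000), (b67, -540000), (b68, 205000), (b69, 685000), (b70, 770000), (b76, 685000), (b88, 685000), (b138, -115000), (b139, 155000), (b141, 685000), (b147, 685000), (b156, 685000), (b160, -540000), (b161, 205000), (b162, 685000), (b163, 770000), (b169, 685000), (b181, 685000), (b198, 685000)],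
  [(b0, 1750000), (b3, -1510000), (b20, -1510000), (b67, -1510000), (b160, -1510000)],
  [],
  [],
  [(b2, -115000), (b3, -540000), (b5, 685000), (b8, 1445000), (b10, 155000), (b11, 205000), (b15, -740000), (b18, 685000), (b20, -2435000), (b22, 685000), (b23, 770000), (b25, 205000), (b29, 685000), (b31, 770000), (b55, -115000), (b58, 685000), (b60, 155000), (b64, 685000), (b67, -540000), (b69, 685000), (b72, 205000), (b76, 685000), (b78, 770000), (b88, 685000), (b138, -115000), (b141, 685000), (b143, 155000), (b147, 685000), (b156, 685000), (b160, -540000), (b162, 685000), (b165, 205000), (b169, 685000), (b171, 770000), (b181, 685000), (b198, 685000)],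
  [(b0, 1750000), (b3, -1510000), (b20, -1510000), (b67, -1510000), (b160, -1510000)],
  [],
  [],
  [],
  [(b2, -115000), (b3, -540000), (b5, 685000), (b15, -115000), (b18, 685000), (b20, -540000), (b22, 685000), (b29, 685000), (b34, 1445000), (b36, 155000), (b37, 205000), (b45, 155000), (b48, 205000), (b55, -740000), (b58, 685000), (b64, 685000), (b67, -2435000), (b69, 685000), (b70, 770000), (b76, 685000), (b78, 770000), (b81, 205000), (b88, 685000), (b91, 770000), (b138, -115000), (b141, 685000), (b147, 685000), (b150, 155000), (b156, 685000), (b160, -540000), (b162, 685000), (b169, 685000), (b174, 205000), (b181, 685000), (b184, 770000), (b198, 685000)],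
  [(b0, 1750000), (b3, -1510000), (b20, -1510000), (b67, -1510000), (b160, -1510000)],
  [],
  [],
  [],
  [],
  [(b2, -115000), (b3, -540000), (b5, 685000), (b15, -115000), (b18, 685000), (b20, -540000), (b22, 685000), (b29, 685000), (b55, -115000), (b58, 685000), (b64, 685000), (b67, -540000), (b69, 685000), (b76, 685000), (b88, 685000), (b95, 1445000), (b97, 155000), (b98, 205000), (b106, 155000), (b109, 205000), (b123, 155000), (b128, 205000), (b138, -740000), (b141, 685000), (b147, 685000), (b156, 685000), (b160, -2435000), (b162, 685000), (b163, 770000), (b169, 685000), (b171, 770000), (b181, 685000), (b184, 770000), (b188, 205000), (b198, 685000), (b202, 770000)],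
  [(b0, 1750000), (b3, -1510000), (b20, -1510000), (b67, -1510000), (b160, -1510000)],
  [],
  [],
  []]

/-- Rows of part L, group 1. -/
def pL_1 : List Row := [
  [],
  [],
  [],
  [],
  [],
  [],
  [],
  [],
  [],
  [],
  [],
  [],
  [],
  [],
  [],
  [],
  [],
  [],
  [],
  [],
  [],
  [],
  [],
  [],
  []]

/-- Rows of part L, group 2. -/
def pL_2 : List Row := [
  [],
  [],
  [],
  [],
  [],
  [],
  [],
  [],
  [],
  [],
  [],
  [],
  [],
  [],
  [],
  [],
  [],
  [],
  [],
  [],
  [],
  [],
  [],
  [],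
  []]

/-- Rows of part L, group 3. -/
def pL_3 : List Row := [
  [],
  [],
  [],
  [],
  [],
  [],
  [],
  [],
  [],
  [],
  [],
  [],
  [],
  [],
  [],
  [],
  [],
  [],
  [],
  [],
  [],
  [],
  [],
  [],
  []]

/-- Rows of part L, group 4. -/
def pL_4 : List Row := [
  [],
  [],
  [],
  [],
  [],
  [],
  [],
  [],
  [],
  [],
  [],
  [],
  [],
  [],
  [],
  [],
  [],
  [],
  [],
  [],
  [],
  [],
  [],
  [],
  []]

/-- Rows of part L, group 5. -/
def pL_5 : List Row := [
  [],
  [],
  [],
  [],
  [],
  [],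
  [],
  [],
  [],
  [],
  [],
  [],
  [],
  [],
  [],
  [],
  [],
  [],
  [],
  [],
  [],
  [],
  [],
  [],
  []]

/-- Rows of part L, group 6. -/
def pL_6 : List Row := [
  [],
  [],
  [],
  [],
  [],
  [],
  [],
  [],
  [],
  [],
  [],
  [],
  [],
  [],
  [],
  [],
  [],
  [],
  [],
  [],
  [],
  [],
  [],
  [],
  []]

/-- Rows of part L, group 7. -/
def pL_7 : List Row := [
  [],
  [],
  [],
  [],
  [],
  [],
  [],
  [],
  [],
  [],
  [],
  [],
  [],
  [],
  [],
  [],
  [],
  [],
  [],
  [],
  [],
  [],
  [],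
  [],
  []]

/-- Rows of part L, group 8. -/
def pL_8 : List Row := [
  [],
  [],
  [],
  [],
  [],
  [],
  [],
  [],
  [],
  [],
  [],
  [],
  [],
  [],
  [],
  [],
  [],
  [],
  [],
  [],
  [],
  [],
  [],
  [],
  []]

/-- Rows of part L, group 9. -/
def pL_9 : List Row := [
  [],
  [],
  [],
  [],
  [],
  [],
  [],
  [],
  [],
  [],
  [],
  [],
  [],
  [],
  [],
  [],
  [],
  [],
  [],
  [],
  [],
  [],
  [],
  [],
  []]

/-- Rows of part L, group 10. -/
def pL_10 : List Row := [
  [],
  [],
  [],
  [],
  [],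
  [],
  [],
  [],
  [],
  [],
  [],
  [],
  [],
  [],
  [],
  [],
  [],
  [],
  [],
  [],
  [],
  [],
  [],
  [],
  []]

/-- Rows of part L, group 11. -/
def pL_11 : List Row := [
  [],
  [],
  [],
  [],
  [],
  [],
  [],
  [],
  [],
  [],
  [],
  [],
  [],
  [],
  [],
  [],
  [],
  [],
  [],
  [],
  [],
  [],
  [],
  [],
  []]

/-- Rows of part L, group 12. -/
def pL_12 : List Row := [
  [],
  [],
  [],
  [],
  [],
  [],
  [],
  [],
  [],
  [],
  [],
  [],
  [],
  [],
  [],
  [],
  [],
  [],
  [],
  [],
  [],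
  [],
  [],
  [],
  []]

/-- Rows of part L, group 13. -/
def pL_13 : List Row := [
  [],
  [],
  [],
  [],
  [],
  [],
  [],
  [],
  [],
  [],
  [],
  [],
  [],
  [],
  [],
  [],
  [],
  [],
  [],
  [],
  [],
  [],
  [],
  [],
  []]

/-- Rows of part L, group 14. -/
def pL_14 : List Row := [
  [],
  [],
  [],
  [],
  [],
  [],
  [],
  [],
  [],
  [],
  [],
  [],
  [],
  [],
  [],
  [],
  [],
  [],
  [],
  [],
  [],
  [],
  [],
  [],
  []]

/-- Rows of part L, group 15. -/
def pL_15 : List Row := [
  [],
  [],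
  [],
  [],
  [],
  [],
  [],
  [],
  [],
  [],
  [],
  [],
  [],
  [],
  [],
  [],
  [],
  [],
  [],
  [],
  [],
  [],
  [],
  [],
  []]

/-- Rows of part L, group 16. -/
def pL_16 : List Row := [
  [],
  [],
  [],
  [],
  [],
  [],
  [],
  [],
  [],
  [],
  [],
  [],
  [],
  [],
  [],
  [],
  [],
  [],
  [],
  [],
  [],
  [],
  [],
  [],
  []]

/-- Rows of part L, group 17. -/
def pL_17 : List Row := [
  [],
  [],
  [],
  [],
  [],
  [],
  [],
  [],
  [],
  [],
  [],
  [],
  [],
  [],
  [],
  [],
  [],
  [],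
  [],
  [],
  [],
  [],
  [],
  [],
  []]

/-- Rows of part L, group 18. -/
def pL_18 : List Row := [
  [],
  [],
  [],
  [],
  [],
  [],
  [],
  [],
  [],
  [],
  [],
  [],
  [],
  [],
  [],
  [],
  [],
  [],
  [],
  [],
  [],
  [],
  [],
  [],
  []]

/-- Rows of part L, group 19. -/
def pL_19 : List Row := [
  [],
  [],
  [],
  [],
  [],
  [],
  [],
  [],
  [],
  [],
  [],
  [],
  [],
  [],
  [],
  [],
  [],
  [],
  [],
  [],
  [],
  [],
  [],
  [],
  []]

/-- Rows of part L, group 20. -/
def pL_20 : List Row := [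
  [],
  [],
  [],
  [],
  [],
  [],
  [],
  [],
  [],
  [],
  [],
  [],
  [],
  [],
  [],
  [],
  [],
  [],
  [],
  [],
  [],
  [],
  [],
  [],
  []]

/-- Rows of part L, group 21. -/
def pL_21 : List Row := [
  [],
  [],
  [],
  [],
  [],
  [],
  [],
  [],
  [],
  [],
  [],
  [],
  [],
  [],
  [],
  [],
  [],
  [],
  [],
  [],
  [],
  [],
  [],
  []]

/-- Rows of part L. -/
def partL : List Row := pL_0 ++ pL_1 ++ pL_2 ++ pL_3 ++ pL_4 ++ pL_5 ++ pL_6 ++ pL_7 ++ pL_8 ++ pL_9 ++ pL_10 ++ pL_11 ++ pL_12 ++ pL_13 ++ pL_14 ++ pL_15 ++ pL_16 ++ pL_17 ++ pL_18 ++ pL_19 ++ pL_20 ++ pL_21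

theorem partL_ok : pieceOK (lapG fastOps HP.var) gam.flatten partL = true := by decide +kernel

end Vale.Agent.P098.Exact.Sos.Data
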