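import Vale.Agent.P098.Exact.Sos.Data.Part0
import Vale.Agent.P098.Exact.Sos.Data.Part1
import Vale.Agent.P098.Exact.Sos.Data.Part2
import Vale.Agent.P098.Exact.Sos.Data.Part3
import Vale.Agent.P098.Exact.Sos.Data.Part4
import Vale.Agent.P098.Exact.Sos.Data.PartL
import Vale.Agent.P098.Exact.Sos.Data.Layout
import Vale.Agent.P098.Exact.Sos.Assembly

/-! Generated literals for the dimension five interior check. -/

namespace Vale.Agent.P098.Exact.Sos.Data

theorem total_ok : sumOK layout.rows [part0, part1, part2, part3, part4, partL] = true := by
  decide +kernel

/-- The layout represents the interior form. -/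
def faithful : layout.Faithful where
  dirs := ![part0, part1, part2, part3, part4]
  lap := partL
  dirs_ok k := by
    fin_cases k
    · exact part0_ok
    · exact part1_ok
    · exact part2_ok
    · exact part3_ok
    · exact part4_ok

  lap_ok := partL_ok
  total := total_ok

end Vale.Agent.P098.Exact.Sos.Data
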