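import Vale.Agent.P098.Exact.Sos.Data.Layout

/-! Generated literals for the dimension five interior check. -/

namespace Vale.Agent.P098.Exact.Sos.Data

theorem lists_ok : layout.listsOK = true := by decide +kernel

theorem blocks_ok : layout.blocksOK = true := by decide +kernel

theorem pos_ok : layout.posOK = true := by decide +kernel

theorem layout_ok : layout.Ok := ⟨lists_ok, blocks_ok, pos_ok⟩

end Vale.Agent.P098.Exact.Sos.Data
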