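import Vale.Agent.P098.Exact.Sos.Data.B00
import Vale.Agent.P098.Exact.Sos.Data.B01
import Vale.Agent.P098.Exact.Sos.Data.B02
import Vale.Agent.P098.Exact.Sos.Data.B03
import Vale.Agent.P098.Exact.Sos.Data.B04
import Vale.Agent.P098.Exact.Sos.Data.B05
import Vale.Agent.P098.Exact.Sos.Data.B06
import Vale.Agent.P098.Exact.Sos.Data.B07
import Vale.Agent.P098.Exact.Sos.Data.B08
import Vale.Agent.P098.Exact.Sos.Data.B09
import Vale.Agent.P098.Exact.Sos.Data.B10
import Vale.Agent.P098.Exact.Sos.Data.B11
import Vale.Agent.P098.Exact.Sos.Data.B12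
import Vale.Agent.P098.Exact.Sos.Data.B13
import Vale.Agent.P098.Exact.Sos.Data.B14
import Vale.Agent.P098.Exact.Sos.Data.B15
import Vale.Agent.P098.Exact.Sos.Data.B16
import Vale.Agent.P098.Exact.Sos.Data.B17
import Vale.Agent.P098.Exact.Sos.Data.B18
import Vale.Agent.P098.Exact.Sos.Data.B19
import Vale.Agent.P098.Exact.Sos.Data.B20
import Vale.Agent.P098.Exact.Sos.Data.B21
import Vale.Agent.P098.Exact.Sos.Data.B22
import Vale.Agent.P098.Exact.Sos.Data.B23
import Vale.Agent.P098.Exact.Sos.Data.B24
import Vale.Agent.P098.Exact.Sos.Data.B25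
import Vale.Agent.P098.Exact.Sos.Data.B26
import Vale.Agent.P098.Exact.Sos.Data.B27
import Vale.Agent.P098.Exact.Sos.Data.B28
import Vale.Agent.P098.Exact.Sos.Data.B29
import Vale.Agent.P098.Exact.Sos.Data.B30
import Vale.Agent.P098.Exact.Sos.Data.B31
import Vale.Agent.P098.Exact.Sos.Data.B32
import Vale.Agent.P098.Exact.Sos.Data.B33
import Vale.Agent.P098.Exact.Sos.Data.B34
import Vale.Agent.P098.Exact.Sos.Data.B35
import Vale.Agent.P098.Exact.Sos.Data.B36
import Vale.Agent.P098.Exact.Sos.Data.LayoutOK
import Vale.Agent.P098.Exact.Sos.Data.Faithful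

/-! Generated literals for the dimension five interior check. -/

namespace Vale.Agent.P098.Exact.Sos.Data

theorem good_B00 : layout.Good B00.box := by
  refine good_of_checks layout_ok (by decide) B00.model_ok B00.load_ok (C := B00.facs) fun i hi => ?_
  interval_cases i
  · exact B00.certs0_ok
  · exact B00.certs1_ok
  · exact B00.certs2_ok
  · exact B00.certs3_ok
  · exact B00.certs4_ok

theorem good_B01 : layout.Good B01.box := by
  refine good_of_checks layout_ok (by decide) B01.model_ok B01.load_ok (C := B01.facs) fun i hi => ?_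
  interval_cases i
  · exact B01.certs0_ok
  · exact B01.certs1_ok
  · exact B01.certs2_ok
  · exact B01.certs3_ok
  · exact B01.certs4_ok

theorem good_B02 : layout.Good B02.box := by
  refine good_of_checks layout_ok (by decide) B02.model_ok B02.load_ok (C := B02.facs) fun i hi => ?_
  interval_cases i
  · exact B02.certs0_ok
  · exact B02.certs1_ok
  · exact B02.certs2_ok
  · exact B02.certs3_ok
  · exact B02.certs4_ok

theorem good_B03 : layout.Good B03.box := by
  refine good_of_checks layout_ok (by decide) B03.model_ok B03.load_ok (C := B03.facs) fun i hi => ?_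
  interval_cases i
  · exact B03.certs0_ok
  · exact B03.certs1_ok
  · exact B03.certs2_ok
  · exact B03.certs3_ok
  · exact B03.certs4_ok

theorem good_B04 : layout.Good B04.box := by
  refine good_of_checks layout_ok (by decide) B04.model_ok B04.load_ok (C := B04.facs) fun i hi => ?_
  interval_cases i
  · exact B04.certs0_ok
  · exact B04.certs1_ok
  · exact B04.certs2_ok
  · exact B04.certs3_ok
  · exact B04.certs4_ok

theorem good_B05 : layout.Good B05.box := by
  refine good_of_checks layout_ok (by decide) B05.model_ok B05.load_ok (C := B05.facs) fun i hi => ?_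
  interval_cases i
  · exact B05.certs0_ok
  · exact B05.certs1_ok
  · exact B05.certs2_ok
  · exact B05.certs3_ok
  · exact B05.certs4_ok

theorem good_B06 : layout.Good B06.box := by
  refine good_of_checks layout_ok (by decide) B06.model_ok B06.load_ok (C := B06.facs) fun i hi => ?_
  interval_cases i
  · exact B06.certs0_ok
  · exact B06.certs1_ok
  · exact B06.certs2_ok
  · exact B06.certs3_ok
  · exact B06.certs4_ok

theorem good_B07 : layout.Good B07.box := by
  refine good_of_checks layout_ok (by decide) B07.model_ok B07.load_ok (C := B07.facs) fun i hi => ?_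
  interval_cases i
  · exact B07.certs0_ok
  · exact B07.certs1_ok
  · exact B07.certs2_ok
  · exact B07.certs3_ok
  · exact B07.certs4_ok

theorem good_B08 : layout.Good B08.box := by
  refine good_of_checks layout_ok (by decide) B08.model_ok B08.load_ok (C := B08.facs) fun i hi => ?_
  interval_cases i
  · exact B08.certs0_ok
  · exact B08.certs1_ok
  · exact B08.certs2_ok
  · exact B08.certs3_ok
  · exact B08.certs4_ok

theorem good_B09 : layout.Good B09.box := by
  refine good_of_checks layout_ok (by decide) B09.model_ok B09.load_ok (C := B09.facs) fun i hi => ?_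
  interval_cases i
  · exact B09.certs0_ok
  · exact B09.certs1_ok
  · exact B09.certs2_ok
  · exact B09.certs3_ok
  · exact B09.certs4_ok

theorem good_B10 : layout.Good B10.box := by
  refine good_of_checks layout_ok (by decide) B10.model_ok B10.load_ok (C := B10.facs) fun i hi => ?_
  interval_cases i
  · exact B10.certs0_ok
  · exact B10.certs1_ok
  · exact B10.certs2_ok
  · exact B10.certs3_ok
  · exact B10.certs4_ok

theorem good_B11 : layout.Good B11.box := by
  refine good_of_checks layout_ok (by decide) B11.model_ok B11.load_ok (C := B11.facs) fun i hi => ?_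
  interval_cases i
  · exact B11.certs0_ok
  · exact B11.certs1_ok
  · exact B11.certs2_ok
  · exact B11.certs3_ok
  · exact B11.certs4_ok

theorem good_B12 : layout.Good B12.box := by
  refine good_of_checks layout_ok (by decide) B12.model_ok B12.load_ok (C := B12.facs) fun i hi => ?_
  interval_cases i
  · exact B12.certs0_ok
  · exact B12.certs1_ok
  · exact B12.certs2_ok
  · exact B12.certs3_ok
  · exact B12.certs4_ok

theorem good_B13 : layout.Good B13.box := by
  refine good_of_checks layout_ok (by decide) B13.model_ok B13.load_ok (C := B13.facs) fun i hi => ?_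
  interval_cases i
  · exact B13.certs0_ok
  · exact B13.certs1_ok
  · exact B13.certs2_ok
  · exact B13.certs3_ok
  · exact B13.certs4_ok

theorem good_B14 : layout.Good B14.box := by
  refine good_of_checks layout_ok (by decide) B14.model_ok B14.load_ok (C := B14.facs) fun i hi => ?_
  interval_cases i
  · exact B14.certs0_ok
  · exact B14.certs1_ok
  · exact B14.certs2_ok
  · exact B14.certs3_ok
  · exact B14.certs4_ok

theorem good_B15 : layout.Good B15.box := by
  refine good_of_checks layout_ok (by decide) B15.model_ok B15.load_ok (C := B15.facs) fun i hi => ?_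
  interval_cases i
  · exact B15.certs0_ok
  · exact B15.certs1_ok
  · exact B15.certs2_ok
  · exact B15.certs3_ok
  · exact B15.certs4_ok

theorem good_B16 : layout.Good B16.box := by
  refine good_of_checks layout_ok (by decide) B16.model_ok B16.load_ok (C := B16.facs) fun i hi => ?_
  interval_cases i
  · exact B16.certs0_ok
  · exact B16.certs1_ok
  · exact B16.certs2_ok
  · exact B16.certs3_ok
  · exact B16.certs4_ok

theorem good_B17 : layout.Good B17.box := by
  refine good_of_checks layout_ok (by decide) B17.model_ok B17.load_ok (C := B17.facs) fun i hi => ?_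
  interval_cases i
  · exact B17.certs0_ok
  · exact B17.certs1_ok
  · exact B17.certs2_ok
  · exact B17.certs3_ok
  · exact B17.certs4_ok

theorem good_B18 : layout.Good B18.box := by
  refine good_of_checks layout_ok (by decide) B18.model_ok B18.load_ok (C := B18.facs) fun i hi => ?_
  interval_cases i
  · exact B18.certs0_ok
  · exact B18.certs1_ok
  · exact B18.certs2_ok
  · exact B18.certs3_ok
  · exact B18.certs4_ok

theorem good_B19 : layout.Good B19.box := by
  refine good_of_checks layout_ok (by decide) B19.model_ok B19.load_ok (C := B19.facs) fun i hi => ?_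
  interval_cases i
  · exact B19.certs0_ok
  · exact B19.certs1_ok
  · exact B19.certs2_ok
  · exact B19.certs3_ok
  · exact B19.certs4_ok

theorem good_B20 : layout.Good B20.box := by
  refine good_of_checks layout_ok (by decide) B20.model_ok B20.load_ok (C := B20.facs) fun i hi => ?_
  interval_cases i
  · exact B20.certs0_ok
  · exact B20.certs1_ok
  · exact B20.certs2_ok
  · exact B20.certs3_ok
  · exact B20.certs4_ok

theorem good_B21 : layout.Good B21.box := by
  refine good_of_checks layout_ok (by decide) B21.model_ok B21.load_ok (C := B21.facs) fun i hi => ?_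
  interval_cases i
  · exact B21.certs0_ok
  · exact B21.certs1_ok
  · exact B21.certs2_ok
  · exact B21.certs3_ok
  · exact B21.certs4_ok

theorem good_B22 : layout.Good B22.box := by
  refine good_of_checks layout_ok (by decide) B22.model_ok B22.load_ok (C := B22.facs) fun i hi => ?_
  interval_cases i
  · exact B22.certs0_ok
  · exact B22.certs1_ok
  · exact B22.certs2_ok
  · exact B22.certs3_ok
  · exact B22.certs4_ok

theorem good_B23 : layout.Good B23.box := by
  refine good_of_checks layout_ok (by decide) B23.model_ok B23.load_ok (C := B23.facs) fun i hi => ?_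
  interval_cases i
  · exact B23.certs0_ok
  · exact B23.certs1_ok
  · exact B23.certs2_ok
  · exact B23.certs3_ok
  · exact B23.certs4_ok

theorem good_B24 : layout.Good B24.box := by
  refine good_of_checks layout_ok (by decide) B24.model_ok B24.load_ok (C := B24.facs) fun i hi => ?_
  interval_cases i
  · exact B24.certs0_ok
  · exact B24.certs1_ok
  · exact B24.certs2_ok
  · exact B24.certs3_ok
  · exact B24.certs4_ok

theorem good_B25 : layout.Good B25.box := by
  refine good_of_checks layout_ok (by decide) B25.model_ok B25.load_ok (C := B25.facs) fun i hi => ?_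
  interval_cases i
  · exact B25.certs0_ok
  · exact B25.certs1_ok
  · exact B25.certs2_ok
  · exact B25.certs3_ok
  · exact B25.certs4_ok

theorem good_B26 : layout.Good B26.box := by
  refine good_of_checks layout_ok (by decide) B26.model_ok B26.load_ok (C := B26.facs) fun i hi => ?_
  interval_cases i
  · exact B26.certs0_ok
  · exact B26.certs1_ok
  · exact B26.certs2_ok
  · exact B26.certs3_ok
  · exact B26.certs4_ok

theorem good_B27 : layout.Good B27.box := by
  refine good_of_checks layout_ok (by decide) B27.model_ok B27.load_ok (C := B27.facs) fun i hi => ?_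
  interval_cases i
  · exact B27.certs0_ok
  · exact B27.certs1_ok
  · exact B27.certs2_ok
  · exact B27.certs3_ok
  · exact B27.certs4_ok

theorem good_B28 : layout.Good B28.box := by
  refine good_of_checks layout_ok (by decide) B28.model_ok B28.load_ok (C := B28.facs) fun i hi => ?_
  interval_cases i
  · exact B28.certs0_ok
  · exact B28.certs1_ok
  · exact B28.certs2_ok
  · exact B28.certs3_ok
  · exact B28.certs4_ok

theorem good_B29 : layout.Good B29.box := by
  refine good_of_checks layout_ok (by decide) B29.model_ok B29.load_ok (C := B29.facs) fun i hi => ?_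
  interval_cases i
  · exact B29.certs0_ok
  · exact B29.certs1_ok
  · exact B29.certs2_ok
  · exact B29.certs3_ok
  · exact B29.certs4_ok

theorem good_B30 : layout.Good B30.box := by
  refine good_of_checks layout_ok (by decide) B30.model_ok B30.load_ok (C := B30.facs) fun i hi => ?_
  interval_cases i
  · exact B30.certs0_ok
  · exact B30.certs1_ok
  · exact B30.certs2_ok
  · exact B30.certs3_ok
  · exact B30.certs4_ok

theorem good_B31 : layout.Good B31.box := by
  refine good_of_checks layout_ok (by decide) B31.model_ok B31.load_ok (C := B31.facs) fun i hi => ?_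
  interval_cases i
  · exact B31.certs0_ok
  · exact B31.certs1_ok
  · exact B31.certs2_ok
  · exact B31.certs3_ok
  · exact B31.certs4_ok

theorem good_B32 : layout.Good B32.box := by
  refine good_of_checks layout_ok (by decide) B32.model_ok B32.load_ok (C := B32.facs) fun i hi => ?_
  interval_cases i
  · exact B32.certs0_ok
  · exact B32.certs1_ok
  · exact B32.certs2_ok
  · exact B32.certs3_ok
  · exact B32.certs4_ok

theorem good_B33 : layout.Good B33.box := by
  refine good_of_checks layout_ok (by decide) B33.model_ok B33.load_ok (C := B33.facs) fun i hi => ?_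
  interval_cases i
  · exact B33.certs0_ok
  · exact B33.certs1_ok
  · exact B33.certs2_ok
  · exact B33.certs3_ok
  · exact B33.certs4_ok

theorem good_B34 : layout.Good B34.box := by
  refine good_of_checks layout_ok (by decide) B34.model_ok B34.load_ok (C := B34.facs) fun i hi => ?_
  interval_cases i
  · exact B34.certs0_ok
  · exact B34.certs1_ok
  · exact B34.certs2_ok
  · exact B34.certs3_ok
  · exact B34.certs4_ok

theorem good_B35 : layout.Good B35.box := by
  refine good_of_checks layout_ok (by decide) B35.model_ok B35.load_ok (C := B35.facs) fun i hi => ?_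
  interval_cases i
  · exact B35.certs0_ok
  · exact B35.certs1_ok
  · exact B35.certs2_ok
  · exact B35.certs3_ok
  · exact B35.certs4_ok

theorem good_B36 : layout.Good B36.box := by
  refine good_of_checks layout_ok (by decide) B36.model_ok B36.load_ok (C := B36.facs) fun i hi => ?_
  interval_cases i
  · exact B36.certs0_ok
  · exact B36.certs1_ok
  · exact B36.certs2_ok
  · exact B36.certs3_ok
  · exact B36.certs4_ok

/-- The squares of the cover. -/
def boxes : List Box := [B00.box, B01.box, B02.box, B03.box, B04.box, B05.box, B06.box, B07.box, B08.box, B09.box, B10.box, B11.box, B12.box, B13.box, B14.box, B15.box, B16.box, B17.box, B18.box, B19.box, B20.box, B21.box, B22.box, B23.box, B24.box, B25.box, B26.box, B27.box, B28.box, B29.box, B30.box, B31.box, B32.box, B33.box, B34.box, B35.box, B36.box]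

theorem boxes_good : ∀ x ∈ boxes, layout.Good x :=
  List.forall_mem_cons.2 ⟨good_B00, List.forall_mem_cons.2 ⟨good_B01, List.forall_mem_cons.2 ⟨good_B02, List.forall_mem_cons.2 ⟨good_B03, List.forall_mem_cons.2 ⟨good_B04, List.forall_mem_cons.2 ⟨good_B05, List.forall_mem_cons.2 ⟨good_B06, List.forall_mem_cons.2 ⟨good_B07, List.forall_mem_cons.2 ⟨good_B08, List.forall_mem_cons.2 ⟨good_B09, List.forall_mem_cons.2 ⟨good_B10, List.forall_mem_cons.2 ⟨good_B11, List.forall_mem_cons.2 ⟨good_B12, List.forall_mem_cons.2 ⟨good_B13, List.forall_mem_cons.2 ⟨good_B14, List.forall_mem_cons.2 ⟨good_B15, List.forall_mem_cons.2 ⟨good_B16, List.forall_mem_cons.2 ⟨good_B17, List.forall_mem_cons.2 ⟨good_B18, List.forall_mem_cons.2 ⟨good_B19, List.forall_mem_cons.2 ⟨good_B20, List.forall_mem_cons.2 ⟨good_B21, List.forall_mem_cons.2 ⟨good_B22, List.forall_mem_cons.2 ⟨good_B23, List.forall_mem_cons.2 ⟨good_B24, List.forall_mem_cons.2 ⟨good_B25, List.forall_mem_cons.2 ⟨good_B26, List.forall_mem_cons.2 ⟨good_B27, List.forall_mem_cons.2 ⟨good_B28, List.forall_mem_cons.2 ⟨good_B29, List.forall_mem_cons.2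 ⟨good_B30, List.forall_mem_cons.2 ⟨good_B31, List.forall_mem_cons.2 ⟨good_B32, List.forall_mem_cons.2 ⟨good_B33, List.forall_mem_cons.2 ⟨good_B34, List.forall_mem_cons.2 ⟨good_B35, List.forall_mem_cons.2 ⟨good_B36, List.forall_mem_nil _⟩⟩⟩⟩⟩⟩⟩⟩⟩⟩⟩⟩⟩⟩⟩⟩⟩⟩⟩⟩⟩⟩⟩⟩⟩⟩⟩⟩⟩⟩⟩⟩⟩⟩⟩⟩⟩

theorem boxes_cover : covers boxes 5 ⟨224, 0, 448⟩ = true := by decide +kernel

/-- The interior inequality in dimension five. -/
theorem interior (l v : Fin 5 → ℝ) (τ : Fin 5 → Fin 5 → Fin 5 → ℝ) (a : ℝ)
    (hA : Admissible (n := 4) l v τ) (ha : 0 ≤ a) :
    delta5 ≤ Qval (n := 4) D5.al D5.table l v τ a 1 :=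
  interior_of_boxes layout layout_ok faithful boxes boxes_cover boxes_good l v τ a hA ha

end Vale.Agent.P098.Exact.Sos.Data
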