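import Vale.Agent.P098.Exact.Sos.BoxCheck

/-! Generated literals for the dimension five interior check. -/

namespace Vale.Agent.P098.Exact.Sos.Data

/-- Monomials, group 0. -/
def gam0 : List Gam := [
  ⟨17, 17, [0, 0, 0, 0, 0]⟩,
  ⟨17, 17, [0, 0, 0, 0, 1]⟩,
  ⟨17, 17, [0, 0, 0, 0, 2]⟩,
  ⟨17, 17, [0, 0, 0, 0, 3]⟩,
  ⟨17, 17, [0, 0, 0, 0, 4]⟩,
  ⟨17, 17, [0, 0, 0, 2, 0]⟩,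
  ⟨17, 17, [0, 0, 0, 2, 1]⟩,
  ⟨17, 17, [0, 0, 0, 2, 2]⟩,
  ⟨17, 17, [0, 0, 0, 4, 0]⟩,
  ⟨17, 17, [0, 0, 2, 0, 0]⟩,
  ⟨17, 17, [0, 0, 2, 0, 1]⟩,
  ⟨17, 17, [0, 0, 2, 0, 2]⟩,
  ⟨17, 17, [0, 0, 2, 2, 0]⟩,
  ⟨17, 17, [0, 0, 4, 0, 0]⟩,
  ⟨17, 17, [0, 2, 0, 0, 0]⟩,
  ⟨17, 17, [0, 2, 0, 0, 1]⟩]

/-- Monomials, group 1. -/
def gam1 : List Gam := [
  ⟨17, 17, [0, 2, 0, 0, 2]⟩,
  ⟨17, 17, [0, 2, 0, 2, 0]⟩,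
  ⟨17, 17, [0, 2, 2, 0, 0]⟩,
  ⟨17, 17, [0, 4, 0, 0, 0]⟩,
  ⟨17, 17, [2, 0, 0, 0, 0]⟩,
  ⟨17, 17, [2, 0, 0, 0, 1]⟩,
  ⟨17, 17, [2, 0, 0, 0, 2]⟩,
  ⟨17, 17, [2, 0, 0, 2, 0]⟩,
  ⟨17, 17, [2, 0, 2, 0, 0]⟩,
  ⟨17, 17, [2, 2, 0, 0, 0]⟩,
  ⟨17, 17, [4, 0, 0, 0, 0]⟩,
  ⟨16, 17, [0, 0, 0, 0, 0]⟩,
  ⟨16, 17, [0, 0, 0, 0, 1]⟩,
  ⟨16, 17, [0, 0, 0, 0, 2]⟩,
  ⟨16, 17, [0, 0, 0, 0, 3]⟩,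
  ⟨16, 17, [0, 0, 0, 0, 4]⟩]

/-- Monomials, group 2. -/
def gam2 : List Gam := [
  ⟨16, 17, [0, 0, 0, 2, 0]⟩,
  ⟨16, 17, [0, 0, 0, 2, 1]⟩,
  ⟨16, 17, [0, 0, 0, 2, 2]⟩,
  ⟨16, 17, [0, 0, 0, 4, 0]⟩,
  ⟨16, 17, [0, 0, 2, 0, 0]⟩,
  ⟨16, 17, [0, 0, 2, 0, 1]⟩,
  ⟨16, 17, [0, 0, 2, 0, 2]⟩,
  ⟨16, 17, [0, 0, 2, 2, 0]⟩,
  ⟨16, 17, [0, 0, 4, 0, 0]⟩,
  ⟨16, 17, [0, 2, 0, 0, 0]⟩,
  ⟨16, 17, [0, 2, 0, 0, 1]⟩,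
  ⟨16, 17, [0, 2, 0, 0, 2]⟩,
  ⟨16, 17, [0, 2, 0, 2, 0]⟩,
  ⟨16, 17, [0, 2, 2, 0, 0]⟩,
  ⟨16, 17, [0, 4, 0, 0, 0]⟩,
  ⟨16, 17, [2, 0, 0, 0, 0]⟩]

/-- Monomials, group 3. -/
def gam3 : List Gam := [
  ⟨16, 17, [2, 0, 0, 0, 1]⟩,
  ⟨16, 17, [2, 0, 0, 0, 2]⟩,
  ⟨16, 17, [2, 0, 0, 2, 0]⟩,
  ⟨16, 17, [2, 0, 2, 0, 0]⟩,
  ⟨16, 17, [2, 2, 0, 0, 0]⟩,
  ⟨16, 17, [4, 0, 0, 0, 0]⟩,
  ⟨16, 16, [0, 0, 0, 0, 0]⟩,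
  ⟨16, 16, [0, 0, 0, 0, 1]⟩,
  ⟨16, 16, [0, 0, 0, 0, 2]⟩,
  ⟨16, 16, [0, 0, 0, 0, 3]⟩,
  ⟨16, 16, [0, 0, 0, 0, 4]⟩,
  ⟨16, 16, [0, 0, 0, 2, 0]⟩,
  ⟨16, 16, [0, 0, 0, 2, 1]⟩,
  ⟨16, 16, [0, 0, 0, 2, 2]⟩,
  ⟨16, 16, [0, 0, 0, 4, 0]⟩,
  ⟨16, 16, [0, 0, 2, 0, 0]⟩]

/-- Monomials, group 4. -/
def gam4 : List Gam := [
  ⟨16, 16, [0, 0, 2, 0, 1]⟩,
  ⟨16, 16, [0, 0, 2, 0, 2]⟩,
  ⟨16, 16, [0, 0, 2, 2, 0]⟩,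
  ⟨16, 16, [0, 0, 4, 0, 0]⟩,
  ⟨16, 16, [0, 2, 0, 0, 0]⟩,
  ⟨16, 16, [0, 2, 0, 0, 1]⟩,
  ⟨16, 16, [0, 2, 0, 0, 2]⟩,
  ⟨16, 16, [0, 2, 0, 2, 0]⟩,
  ⟨16, 16, [0, 2, 2, 0, 0]⟩,
  ⟨16, 16, [0, 4, 0, 0, 0]⟩,
  ⟨16, 16, [2, 0, 0, 0, 0]⟩,
  ⟨16, 16, [2, 0, 0, 0, 1]⟩,
  ⟨16, 16, [2, 0, 0, 0, 2]⟩,
  ⟨16, 16, [2, 0, 0, 2, 0]⟩,
  ⟨16, 16, [2, 0, 2, 0, 0]⟩,
  ⟨16, 16, [2, 2, 0, 0, 0]⟩]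

/-- Monomials, group 5. -/
def gam5 : List Gam := [
  ⟨16, 16, [4, 0, 0, 0, 0]⟩,
  ⟨15, 17, [0, 0, 0, 1, 0]⟩,
  ⟨15, 17, [0, 0, 0, 1, 1]⟩,
  ⟨15, 17, [0, 0, 0, 1, 2]⟩,
  ⟨15, 17, [0, 0, 0, 3, 0]⟩,
  ⟨15, 17, [0, 0, 2, 1, 0]⟩,
  ⟨15, 17, [0, 2, 0, 1, 0]⟩,
  ⟨15, 17, [2, 0, 0, 1, 0]⟩,
  ⟨15, 16, [0, 0, 0, 1, 0]⟩,
  ⟨15, 16, [0, 0, 0, 1, 1]⟩,
  ⟨15, 16, [0, 0, 0, 1, 2]⟩,
  ⟨15, 16, [0, 0, 0, 3, 0]⟩,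
  ⟨15, 16, [0, 0, 2, 1, 0]⟩,
  ⟨15, 16, [0, 2, 0, 1, 0]⟩,
  ⟨15, 16, [2, 0, 0, 1, 0]⟩,
  ⟨15, 15, [0, 0, 0, 0, 0]⟩]

/-- Monomials, group 6. -/
def gam6 : List Gam := [
  ⟨15, 15, [0, 0, 0, 0, 1]⟩,
  ⟨15, 15, [0, 0, 0, 0, 2]⟩,
  ⟨15, 15, [0, 0, 0, 2, 0]⟩,
  ⟨15, 15, [0, 0, 2, 0, 0]⟩,
  ⟨15, 15, [0, 2, 0, 0, 0]⟩,
  ⟨15, 15, [2, 0, 0, 0, 0]⟩,
  ⟨14, 17, [0, 0, 1, 0, 0]⟩,
  ⟨14, 17, [0, 0, 1, 0, 1]⟩,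
  ⟨14, 17, [0, 0, 1, 0, 2]⟩,
  ⟨14, 17, [0, 0, 1, 2, 0]⟩,
  ⟨14, 17, [0, 0, 3, 0, 0]⟩,
  ⟨14, 17, [0, 2, 1, 0, 0]⟩,
  ⟨14, 17, [2, 0, 1, 0, 0]⟩,
  ⟨14, 16, [0, 0, 1, 0, 0]⟩,
  ⟨14, 16, [0, 0, 1, 0, 1]⟩,
  ⟨14, 16, [0, 0, 1, 0, 2]⟩]

/-- Monomials, group 7. -/
def gam7 : List Gam := [
  ⟨14, 16, [0, 0, 1, 2, 0]⟩,
  ⟨14, 16, [0, 0, 3, 0, 0]⟩,
  ⟨14, 16, [0, 2, 1, 0, 0]⟩,
  ⟨14, 16, [2, 0, 1, 0, 0]⟩,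
  ⟨14, 15, [0, 0, 1, 1, 0]⟩,
  ⟨14, 14, [0, 0, 0, 0, 0]⟩,
  ⟨14, 14, [0, 0, 0, 0, 1]⟩,
  ⟨14, 14, [0, 0, 0, 0, 2]⟩,
  ⟨14, 14, [0, 0, 0, 2, 0]⟩,
  ⟨14, 14, [0, 0, 2, 0, 0]⟩,
  ⟨14, 14, [0, 2, 0, 0, 0]⟩,
  ⟨14, 14, [2, 0, 0, 0, 0]⟩,
  ⟨13, 17, [0, 1, 1, 1, 0]⟩,
  ⟨13, 16, [0, 1, 1, 1, 0]⟩,
  ⟨13, 15, [0, 1, 1, 0, 0]⟩,
  ⟨13, 14, [0, 1, 0, 1, 0]⟩]

/-- Monomials, group 8. -/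
def gam8 : List Gam := [
  ⟨13, 13, [0, 0, 0, 0, 0]⟩,
  ⟨13, 13, [0, 0, 0, 0, 1]⟩,
  ⟨13, 13, [0, 0, 0, 0, 2]⟩,
  ⟨13, 13, [0, 0, 0, 2, 0]⟩,
  ⟨13, 13, [0, 0, 2, 0, 0]⟩,
  ⟨13, 13, [0, 2, 0, 0, 0]⟩,
  ⟨13, 13, [2, 0, 0, 0, 0]⟩,
  ⟨12, 17, [0, 1, 0, 0, 0]⟩,
  ⟨12, 17, [0, 1, 0, 0, 1]⟩,
  ⟨12, 17, [0, 1, 0, 0, 2]⟩,
  ⟨12, 17, [0, 1, 0, 2, 0]⟩,
  ⟨12, 17, [0, 1, 2, 0, 0]⟩,
  ⟨12, 17, [0, 3, 0, 0, 0]⟩,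
  ⟨12, 17, [2, 1, 0, 0, 0]⟩,
  ⟨12, 16, [0, 1, 0, 0, 0]⟩,
  ⟨12, 16, [0, 1, 0, 0, 1]⟩]

/-- Monomials, group 9. -/
def gam9 : List Gam := [
  ⟨12, 16, [0, 1, 0, 0, 2]⟩,
  ⟨12, 16, [0, 1, 0, 2, 0]⟩,
  ⟨12, 16, [0, 1, 2, 0, 0]⟩,
  ⟨12, 16, [0, 3, 0, 0, 0]⟩,
  ⟨12, 16, [2, 1, 0, 0, 0]⟩,
  ⟨12, 15, [0, 1, 0, 1, 0]⟩,
  ⟨12, 14, [0, 1, 1, 0, 0]⟩,
  ⟨12, 13, [0, 0, 1, 1, 0]⟩,
  ⟨12, 12, [0, 0, 0, 0, 0]⟩,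
  ⟨12, 12, [0, 0, 0, 0, 1]⟩,
  ⟨12, 12, [0, 0, 0, 0, 2]⟩,
  ⟨12, 12, [0, 0, 0, 2, 0]⟩,
  ⟨12, 12, [0, 0, 2, 0, 0]⟩,
  ⟨12, 12, [0, 2, 0, 0, 0]⟩,
  ⟨12, 12, [2, 0, 0, 0, 0]⟩,
  ⟨11, 17, [0, 0, 0, 1, 0]⟩]

/-- Monomials, group 10. -/
def gam10 : List Gam := [
  ⟨11, 17, [0, 0, 0, 1, 1]⟩,
  ⟨11, 17, [0, 0, 0, 1, 2]⟩,
  ⟨11, 17, [0, 0, 0, 3, 0]⟩,
  ⟨11, 17, [0, 0, 2, 1, 0]⟩,
  ⟨11, 17, [0, 2, 0, 1, 0]⟩,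
  ⟨11, 17, [2, 0, 0, 1, 0]⟩,
  ⟨11, 16, [0, 0, 0, 1, 0]⟩,
  ⟨11, 16, [0, 0, 0, 1, 1]⟩,
  ⟨11, 16, [0, 0, 0, 1, 2]⟩,
  ⟨11, 16, [0, 0, 0, 3, 0]⟩,
  ⟨11, 16, [0, 0, 2, 1, 0]⟩,
  ⟨11, 16, [0, 2, 0, 1, 0]⟩,
  ⟨11, 16, [2, 0, 0, 1, 0]⟩,
  ⟨11, 15, [0, 0, 0, 0, 0]⟩,
  ⟨11, 15, [0, 0, 0, 0, 1]⟩,
  ⟨11, 15, [0, 0, 0, 0, 2]⟩]

/-- Monomials, group 11. -/
def gam11 : List Gam := [
  ⟨11, 15, [0, 0, 0, 2, 0]⟩,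
  ⟨11, 15, [0, 0, 2, 0, 0]⟩,
  ⟨11, 15, [0, 2, 0, 0, 0]⟩,
  ⟨11, 15, [2, 0, 0, 0, 0]⟩,
  ⟨11, 14, [0, 0, 1, 1, 0]⟩,
  ⟨11, 13, [0, 1, 1, 0, 0]⟩,
  ⟨11, 12, [0, 1, 0, 1, 0]⟩,
  ⟨11, 11, [0, 0, 0, 0, 0]⟩,
  ⟨11, 11, [0, 0, 0, 0, 1]⟩,
  ⟨11, 11, [0, 0, 0, 0, 2]⟩,
  ⟨11, 11, [0, 0, 0, 2, 0]⟩,
  ⟨11, 11, [0, 0, 2, 0, 0]⟩,
  ⟨11, 11, [0, 2, 0, 0, 0]⟩,
  ⟨11, 11, [2, 0, 0, 0, 0]⟩,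
  ⟨10, 17, [0, 0, 1, 0, 0]⟩,
  ⟨10, 17, [0, 0, 1, 0, 1]⟩]

/-- Monomials, group 12. -/
def gam12 : List Gam := [
  ⟨10, 17, [0, 0, 1, 0, 2]⟩,
  ⟨10, 17, [0, 0, 1, 2, 0]⟩,
  ⟨10, 17, [0, 0, 3, 0, 0]⟩,
  ⟨10, 17, [0, 2, 1, 0, 0]⟩,
  ⟨10, 17, [2, 0, 1, 0, 0]⟩,
  ⟨10, 16, [0, 0, 1, 0, 0]⟩,
  ⟨10, 16, [0, 0, 1, 0, 1]⟩,
  ⟨10, 16, [0, 0, 1, 0, 2]⟩,
  ⟨10, 16, [0, 0, 1, 2, 0]⟩,
  ⟨10, 16, [0, 0, 3, 0, 0]⟩,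
  ⟨10, 16, [0, 2, 1, 0, 0]⟩,
  ⟨10, 16, [2, 0, 1, 0, 0]⟩,
  ⟨10, 15, [0, 0, 1, 1, 0]⟩,
  ⟨10, 14, [0, 0, 0, 0, 0]⟩,
  ⟨10, 14, [0, 0, 0, 0, 1]⟩,
  ⟨10, 14, [0, 0, 0, 0, 2]⟩]

/-- Monomials, group 13. -/
def gam13 : List Gam := [
  ⟨10, 14, [0, 0, 0, 2, 0]⟩,
  ⟨10, 14, [0, 0, 2, 0, 0]⟩,
  ⟨10, 14, [0, 2, 0, 0, 0]⟩,
  ⟨10, 14, [2, 0, 0, 0, 0]⟩,
  ⟨10, 13, [0, 1, 0, 1, 0]⟩,
  ⟨10, 12, [0, 1, 1, 0, 0]⟩,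
  ⟨10, 11, [0, 0, 1, 1, 0]⟩,
  ⟨10, 10, [0, 0, 0, 0, 0]⟩,
  ⟨10, 10, [0, 0, 0, 0, 1]⟩,
  ⟨10, 10, [0, 0, 0, 0, 2]⟩,
  ⟨10, 10, [0, 0, 0, 2, 0]⟩,
  ⟨10, 10, [0, 0, 2, 0, 0]⟩,
  ⟨10, 10, [0, 2, 0, 0, 0]⟩,
  ⟨10, 10, [2, 0, 0, 0, 0]⟩,
  ⟨9, 17, [0, 1, 0, 0, 0]⟩,
  ⟨9, 17, [0, 1, 0, 0, 1]⟩]

/-- Monomials, group 14. -/
def gam14 : List Gam := [
  ⟨9, 17, [0, 1, 0, 0, 2]⟩,
  ⟨9, 17, [0, 1, 0, 2, 0]⟩,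
  ⟨9, 17, [0, 1, 2, 0, 0]⟩,
  ⟨9, 17, [0, 3, 0, 0, 0]⟩,
  ⟨9, 17, [2, 1, 0, 0, 0]⟩,
  ⟨9, 16, [0, 1, 0, 0, 0]⟩,
  ⟨9, 16, [0, 1, 0, 0, 1]⟩,
  ⟨9, 16, [0, 1, 0, 0, 2]⟩,
  ⟨9, 16, [0, 1, 0, 2, 0]⟩,
  ⟨9, 16, [0, 1, 2, 0, 0]⟩,
  ⟨9, 16, [0, 3, 0, 0, 0]⟩,
  ⟨9, 16, [2, 1, 0, 0, 0]⟩,
  ⟨9, 15, [0, 1, 0, 1, 0]⟩,
  ⟨9, 14, [0, 1, 1, 0, 0]⟩,
  ⟨9, 13, [0, 0, 1, 1, 0]⟩,
  ⟨9, 12, [0, 0, 0, 0, 0]⟩]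

/-- Monomials, group 15. -/
def gam15 : List Gam := [
  ⟨9, 12, [0, 0, 0, 0, 1]⟩,
  ⟨9, 12, [0, 0, 0, 0, 2]⟩,
  ⟨9, 12, [0, 0, 0, 2, 0]⟩,
  ⟨9, 12, [0, 0, 2, 0, 0]⟩,
  ⟨9, 12, [0, 2, 0, 0, 0]⟩,
  ⟨9, 12, [2, 0, 0, 0, 0]⟩,
  ⟨9, 11, [0, 1, 0, 1, 0]⟩,
  ⟨9, 10, [0, 1, 1, 0, 0]⟩,
  ⟨9, 9, [0, 0, 0, 0, 0]⟩,
  ⟨9, 9, [0, 0, 0, 0, 1]⟩,
  ⟨9, 9, [0, 0, 0, 0, 2]⟩,
  ⟨9, 9, [0, 0, 0, 2, 0]⟩,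
  ⟨9, 9, [0, 0, 2, 0, 0]⟩,
  ⟨9, 9, [0, 2, 0, 0, 0]⟩,
  ⟨9, 9, [2, 0, 0, 0, 0]⟩,
  ⟨8, 17, [1, 0, 1, 1, 0]⟩]

/-- Monomials, group 16. -/
def gam16 : List Gam := [
  ⟨8, 16, [1, 0, 1, 1, 0]⟩,
  ⟨8, 15, [1, 0, 1, 0, 0]⟩,
  ⟨8, 14, [1, 0, 0, 1, 0]⟩,
  ⟨8, 13, [1, 1, 0, 0, 0]⟩,
  ⟨8, 11, [1, 0, 1, 0, 0]⟩,
  ⟨8, 10, [1, 0, 0, 1, 0]⟩,
  ⟨8, 8, [0, 0, 0, 0, 0]⟩,
  ⟨8, 8, [0, 0, 0, 0, 1]⟩,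
  ⟨8, 8, [0, 0, 0, 0, 2]⟩,
  ⟨8, 8, [0, 0, 0, 2, 0]⟩,
  ⟨8, 8, [0, 0, 2, 0, 0]⟩,
  ⟨8, 8, [0, 2, 0, 0, 0]⟩,
  ⟨8, 8, [2, 0, 0, 0, 0]⟩,
  ⟨7, 17, [1, 0, 0, 0, 0]⟩,
  ⟨7, 17, [1, 0, 0, 0, 1]⟩,
  ⟨7, 17, [1, 0, 0, 0, 2]⟩]

/-- Monomials, group 17. -/
def gam17 : List Gam := [
  ⟨7, 17, [1, 0, 0, 2, 0]⟩,
  ⟨7, 17, [1, 0, 2, 0, 0]⟩,
  ⟨7, 17, [1, 2, 0, 0, 0]⟩,
  ⟨7, 17, [3, 0, 0, 0, 0]⟩,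
  ⟨7, 16, [1, 0, 0, 0, 0]⟩,
  ⟨7, 16, [1, 0, 0, 0, 1]⟩,
  ⟨7, 16, [1, 0, 0, 0, 2]⟩,
  ⟨7, 16, [1, 0, 0, 2, 0]⟩,
  ⟨7, 16, [1, 0, 2, 0, 0]⟩,
  ⟨7, 16, [1, 2, 0, 0, 0]⟩,
  ⟨7, 16, [3, 0, 0, 0, 0]⟩,
  ⟨7, 15, [1, 0, 0, 1, 0]⟩,
  ⟨7, 14, [1, 0, 1, 0, 0]⟩,
  ⟨7, 12, [1, 1, 0, 0, 0]⟩,
  ⟨7, 11, [1, 0, 0, 1, 0]⟩,
  ⟨7, 10, [1, 0, 1, 0, 0]⟩]

/-- Monomials, group 18. -/
def gam18 : List Gam := [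
  ⟨7, 9, [1, 1, 0, 0, 0]⟩,
  ⟨7, 8, [0, 0, 1, 1, 0]⟩,
  ⟨7, 7, [0, 0, 0, 0, 0]⟩,
  ⟨7, 7, [0, 0, 0, 0, 1]⟩,
  ⟨7, 7, [0, 0, 0, 0, 2]⟩,
  ⟨7, 7, [0, 0, 0, 2, 0]⟩,
  ⟨7, 7, [0, 0, 2, 0, 0]⟩,
  ⟨7, 7, [0, 2, 0, 0, 0]⟩,
  ⟨7, 7, [2, 0, 0, 0, 0]⟩,
  ⟨6, 17, [1, 1, 0, 1, 0]⟩,
  ⟨6, 16, [1, 1, 0, 1, 0]⟩,
  ⟨6, 15, [1, 1, 0, 0, 0]⟩,
  ⟨6, 13, [1, 0, 1, 0, 0]⟩,
  ⟨6, 12, [1, 0, 0, 1, 0]⟩,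
  ⟨6, 11, [1, 1, 0, 0, 0]⟩,
  ⟨6, 9, [1, 0, 0, 1, 0]⟩]

/-- Monomials, group 19. -/
def gam19 : List Gam := [
  ⟨6, 8, [0, 1, 1, 0, 0]⟩,
  ⟨6, 7, [0, 1, 0, 1, 0]⟩,
  ⟨6, 6, [0, 0, 0, 0, 0]⟩,
  ⟨6, 6, [0, 0, 0, 0, 1]⟩,
  ⟨6, 6, [0, 0, 0, 0, 2]⟩,
  ⟨6, 6, [0, 0, 0, 2, 0]⟩,
  ⟨6, 6, [0, 0, 2, 0, 0]⟩,
  ⟨6, 6, [0, 2, 0, 0, 0]⟩,
  ⟨6, 6, [2, 0, 0, 0, 0]⟩,
  ⟨5, 17, [1, 1, 1, 0, 0]⟩,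
  ⟨5, 16, [1, 1, 1, 0, 0]⟩,
  ⟨5, 14, [1, 1, 0, 0, 0]⟩,
  ⟨5, 13, [1, 0, 0, 1, 0]⟩,
  ⟨5, 12, [1, 0, 1, 0, 0]⟩,
  ⟨5, 10, [1, 1, 0, 0, 0]⟩,
  ⟨5, 9, [1, 0, 1, 0, 0]⟩]

/-- Monomials, group 20. -/
def gam20 : List Gam := [
  ⟨5, 8, [0, 1, 0, 1, 0]⟩,
  ⟨5, 7, [0, 1, 1, 0, 0]⟩,
  ⟨5, 6, [0, 0, 1, 1, 0]⟩,
  ⟨5, 5, [0, 0, 0, 0, 0]⟩,
  ⟨5, 5, [0, 0, 0, 0, 1]⟩,
  ⟨5, 5, [0, 0, 0, 0, 2]⟩,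
  ⟨5, 5, [0, 0, 0, 2, 0]⟩,
  ⟨5, 5, [0, 0, 2, 0, 0]⟩,
  ⟨5, 5, [0, 2, 0, 0, 0]⟩,
  ⟨5, 5, [2, 0, 0, 0, 0]⟩,
  ⟨4, 17, [1, 0, 0, 0, 0]⟩,
  ⟨4, 17, [1, 0, 0, 0, 1]⟩,
  ⟨4, 17, [1, 0, 0, 0, 2]⟩,
  ⟨4, 17, [1, 0, 0, 2, 0]⟩,
  ⟨4, 17, [1, 0, 2, 0, 0]⟩,
  ⟨4, 17, [1, 2, 0, 0, 0]⟩]

/-- Monomials, group 21. -/
def gam21 : List Gam := [
  ⟨4, 17, [3, 0, 0, 0, 0]⟩,
  ⟨4, 16, [1, 0, 0, 0, 0]⟩,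
  ⟨4, 16, [1, 0, 0, 0, 1]⟩,
  ⟨4, 16, [1, 0, 0, 0, 2]⟩,
  ⟨4, 16, [1, 0, 0, 2, 0]⟩,
  ⟨4, 16, [1, 0, 2, 0, 0]⟩,
  ⟨4, 16, [1, 2, 0, 0, 0]⟩,
  ⟨4, 16, [3, 0, 0, 0, 0]⟩,
  ⟨4, 15, [1, 0, 0, 1, 0]⟩,
  ⟨4, 14, [1, 0, 1, 0, 0]⟩,
  ⟨4, 12, [1, 1, 0, 0, 0]⟩,
  ⟨4, 11, [1, 0, 0, 1, 0]⟩,
  ⟨4, 10, [1, 0, 1, 0, 0]⟩,
  ⟨4, 9, [1, 1, 0, 0, 0]⟩,
  ⟨4, 8, [0, 0, 1, 1, 0]⟩,
  ⟨4, 7, [0, 0, 0, 0, 0]⟩]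

/-- Monomials, group 22. -/
def gam22 : List Gam := [
  ⟨4, 7, [0, 0, 0, 0, 1]⟩,
  ⟨4, 7, [0, 0, 0, 0, 2]⟩,
  ⟨4, 7, [0, 0, 0, 2, 0]⟩,
  ⟨4, 7, [0, 0, 2, 0, 0]⟩,
  ⟨4, 7, [0, 2, 0, 0, 0]⟩,
  ⟨4, 7, [2, 0, 0, 0, 0]⟩,
  ⟨4, 6, [0, 1, 0, 1, 0]⟩,
  ⟨4, 5, [0, 1, 1, 0, 0]⟩,
  ⟨4, 4, [0, 0, 0, 0, 0]⟩,
  ⟨4, 4, [0, 0, 0, 0, 1]⟩,
  ⟨4, 4, [0, 0, 0, 0, 2]⟩,
  ⟨4, 4, [0, 0, 0, 2, 0]⟩,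
  ⟨4, 4, [0, 0, 2, 0, 0]⟩,
  ⟨4, 4, [0, 2, 0, 0, 0]⟩,
  ⟨4, 4, [2, 0, 0, 0, 0]⟩,
  ⟨3, 17, [0, 0, 0, 1, 0]⟩]

/-- Monomials, group 23. -/
def gam23 : List Gam := [
  ⟨3, 17, [0, 0, 0, 1, 1]⟩,
  ⟨3, 17, [0, 0, 0, 1, 2]⟩,
  ⟨3, 17, [0, 0, 0, 3, 0]⟩,
  ⟨3, 17, [0, 0, 2, 1, 0]⟩,
  ⟨3, 17, [0, 2, 0, 1, 0]⟩,
  ⟨3, 17, [2, 0, 0, 1, 0]⟩,
  ⟨3, 16, [0, 0, 0, 1, 0]⟩,
  ⟨3, 16, [0, 0, 0, 1, 1]⟩,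
  ⟨3, 16, [0, 0, 0, 1, 2]⟩,
  ⟨3, 16, [0, 0, 0, 3, 0]⟩,
  ⟨3, 16, [0, 0, 2, 1, 0]⟩,
  ⟨3, 16, [0, 2, 0, 1, 0]⟩,
  ⟨3, 16, [2, 0, 0, 1, 0]⟩,
  ⟨3, 15, [0, 0, 0, 0, 0]⟩,
  ⟨3, 15, [0, 0, 0, 0, 1]⟩,
  ⟨3, 15, [0, 0, 0, 0, 2]⟩]

/-- Monomials, group 24. -/
def gam24 : List Gam := [
  ⟨3, 15, [0, 0, 0, 2, 0]⟩,
  ⟨3, 15, [0, 0, 2, 0, 0]⟩,
  ⟨3, 15, [0, 2, 0, 0, 0]⟩,
  ⟨3, 15, [2, 0, 0, 0, 0]⟩,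
  ⟨3, 14, [0, 0, 1, 1, 0]⟩,
  ⟨3, 13, [0, 1, 1, 0, 0]⟩,
  ⟨3, 12, [0, 1, 0, 1, 0]⟩,
  ⟨3, 11, [0, 0, 0, 0, 0]⟩,
  ⟨3, 11, [0, 0, 0, 0, 1]⟩,
  ⟨3, 11, [0, 0, 0, 0, 2]⟩,
  ⟨3, 11, [0, 0, 0, 2, 0]⟩,
  ⟨3, 11, [0, 0, 2, 0, 0]⟩,
  ⟨3, 11, [0, 2, 0, 0, 0]⟩,
  ⟨3, 11, [2, 0, 0, 0, 0]⟩,
  ⟨3, 10, [0, 0, 1, 1, 0]⟩,
  ⟨3, 9, [0, 1, 0, 1, 0]⟩]

/-- Monomials, group 25. -/
def gam25 : List Gam := [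
  ⟨3, 8, [1, 0, 1, 0, 0]⟩,
  ⟨3, 7, [1, 0, 0, 1, 0]⟩,
  ⟨3, 6, [1, 1, 0, 0, 0]⟩,
  ⟨3, 4, [1, 0, 0, 1, 0]⟩,
  ⟨3, 3, [0, 0, 0, 0, 0]⟩,
  ⟨3, 3, [0, 0, 0, 0, 1]⟩,
  ⟨3, 3, [0, 0, 0, 0, 2]⟩,
  ⟨3, 3, [0, 0, 0, 2, 0]⟩,
  ⟨3, 3, [0, 0, 2, 0, 0]⟩,
  ⟨3, 3, [0, 2, 0, 0, 0]⟩,
  ⟨3, 3, [2, 0, 0, 0, 0]⟩,
  ⟨2, 17, [0, 0, 1, 0, 0]⟩,
  ⟨2, 17, [0, 0, 1, 0, 1]⟩,
  ⟨2, 17, [0, 0, 1, 0, 2]⟩,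
  ⟨2, 17, [0, 0, 1, 2, 0]⟩,
  ⟨2, 17, [0, 0, 3, 0, 0]⟩]

/-- Monomials, group 26. -/
def gam26 : List Gam := [
  ⟨2, 17, [0, 2, 1, 0, 0]⟩,
  ⟨2, 17, [2, 0, 1, 0, 0]⟩,
  ⟨2, 16, [0, 0, 1, 0, 0]⟩,
  ⟨2, 16, [0, 0, 1, 0, 1]⟩,
  ⟨2, 16, [0, 0, 1, 0, 2]⟩,
  ⟨2, 16, [0, 0, 1, 2, 0]⟩,
  ⟨2, 16, [0, 0, 3, 0, 0]⟩,
  ⟨2, 16, [0, 2, 1, 0, 0]⟩,
  ⟨2, 16, [2, 0, 1, 0, 0]⟩,
  ⟨2, 15, [0, 0, 1, 1, 0]⟩,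
  ⟨2, 14, [0, 0, 0, 0, 0]⟩,
  ⟨2, 14, [0, 0, 0, 0, 1]⟩,
  ⟨2, 14, [0, 0, 0, 0, 2]⟩,
  ⟨2, 14, [0, 0, 0, 2, 0]⟩,
  ⟨2, 14, [0, 0, 2, 0, 0]⟩,
  ⟨2, 14, [0, 2, 0, 0, 0]⟩]

/-- Monomials, group 27. -/
def gam27 : List Gam := [
  ⟨2, 14, [2, 0, 0, 0, 0]⟩,
  ⟨2, 13, [0, 1, 0, 1, 0]⟩,
  ⟨2, 12, [0, 1, 1, 0, 0]⟩,
  ⟨2, 11, [0, 0, 1, 1, 0]⟩,
  ⟨2, 10, [0, 0, 0, 0, 0]⟩,
  ⟨2, 10, [0, 0, 0, 0, 1]⟩,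
  ⟨2, 10, [0, 0, 0, 0, 2]⟩,
  ⟨2, 10, [0, 0, 0, 2, 0]⟩,
  ⟨2, 10, [0, 0, 2, 0, 0]⟩,
  ⟨2, 10, [0, 2, 0, 0, 0]⟩,
  ⟨2, 10, [2, 0, 0, 0, 0]⟩,
  ⟨2, 9, [0, 1, 1, 0, 0]⟩,
  ⟨2, 8, [1, 0, 0, 1, 0]⟩,
  ⟨2, 7, [1, 0, 1, 0, 0]⟩,
  ⟨2, 5, [1, 1, 0, 0, 0]⟩,
  ⟨2, 4, [1, 0, 1, 0, 0]⟩]

/-- Monomials, group 28. -/
def gam28 : List Gam := [
  ⟨2, 3, [0, 0, 1, 1, 0]⟩,
  ⟨2, 2, [0, 0, 0, 0, 0]⟩,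
  ⟨2, 2, [0, 0, 0, 0, 1]⟩,
  ⟨2, 2, [0, 0, 0, 0, 2]⟩,
  ⟨2, 2, [0, 0, 0, 2, 0]⟩,
  ⟨2, 2, [0, 0, 2, 0, 0]⟩,
  ⟨2, 2, [0, 2, 0, 0, 0]⟩,
  ⟨2, 2, [2, 0, 0, 0, 0]⟩,
  ⟨1, 17, [0, 1, 0, 0, 0]⟩,
  ⟨1, 17, [0, 1, 0, 0, 1]⟩,
  ⟨1, 17, [0, 1, 0, 0, 2]⟩,
  ⟨1, 17, [0, 1, 0, 2, 0]⟩,
  ⟨1, 17, [0, 1, 2, 0, 0]⟩,
  ⟨1, 17, [0, 3, 0, 0, 0]⟩,
  ⟨1, 17, [2, 1, 0, 0, 0]⟩,
  ⟨1, 16, [0, 1, 0, 0, 0]⟩]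

/-- Monomials, group 29. -/
def gam29 : List Gam := [
  ⟨1, 16, [0, 1, 0, 0, 1]⟩,
  ⟨1, 16, [0, 1, 0, 0, 2]⟩,
  ⟨1, 16, [0, 1, 0, 2, 0]⟩,
  ⟨1, 16, [0, 1, 2, 0, 0]⟩,
  ⟨1, 16, [0, 3, 0, 0, 0]⟩,
  ⟨1, 16, [2, 1, 0, 0, 0]⟩,
  ⟨1, 15, [0, 1, 0, 1, 0]⟩,
  ⟨1, 14, [0, 1, 1, 0, 0]⟩,
  ⟨1, 13, [0, 0, 1, 1, 0]⟩,
  ⟨1, 12, [0, 0, 0, 0, 0]⟩,
  ⟨1, 12, [0, 0, 0, 0, 1]⟩,
  ⟨1, 12, [0, 0, 0, 0, 2]⟩,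
  ⟨1, 12, [0, 0, 0, 2, 0]⟩,
  ⟨1, 12, [0, 0, 2, 0, 0]⟩,
  ⟨1, 12, [0, 2, 0, 0, 0]⟩,
  ⟨1, 12, [2, 0, 0, 0, 0]⟩]

/-- Monomials, group 30. -/
def gam30 : List Gam := [
  ⟨1, 11, [0, 1, 0, 1, 0]⟩,
  ⟨1, 10, [0, 1, 1, 0, 0]⟩,
  ⟨1, 9, [0, 0, 0, 0, 0]⟩,
  ⟨1, 9, [0, 0, 0, 0, 1]⟩,
  ⟨1, 9, [0, 0, 0, 0, 2]⟩,
  ⟨1, 9, [0, 0, 0, 2, 0]⟩,
  ⟨1, 9, [0, 0, 2, 0, 0]⟩,
  ⟨1, 9, [0, 2, 0, 0, 0]⟩,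
  ⟨1, 9, [2, 0, 0, 0, 0]⟩,
  ⟨1, 7, [1, 1, 0, 0, 0]⟩,
  ⟨1, 6, [1, 0, 0, 1, 0]⟩,
  ⟨1, 5, [1, 0, 1, 0, 0]⟩,
  ⟨1, 4, [1, 1, 0, 0, 0]⟩,
  ⟨1, 3, [0, 1, 0, 1, 0]⟩,
  ⟨1, 2, [0, 1, 1, 0, 0]⟩,
  ⟨1, 1, [0, 0, 0, 0, 0]⟩]

/-- Monomials, group 31. -/
def gam31 : List Gam := [
  ⟨1, 1, [0, 0, 0, 0, 1]⟩,
  ⟨1, 1, [0, 0, 0, 0, 2]⟩,
  ⟨1, 1, [0, 0, 0, 2, 0]⟩,
  ⟨1, 1, [0, 0, 2, 0, 0]⟩,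
  ⟨1, 1, [0, 2, 0, 0, 0]⟩,
  ⟨1, 1, [2, 0, 0, 0, 0]⟩,
  ⟨0, 17, [1, 0, 0, 0, 0]⟩,
  ⟨0, 17, [1, 0, 0, 0, 1]⟩,
  ⟨0, 17, [1, 0, 0, 0, 2]⟩,
  ⟨0, 17, [1, 0, 0, 2, 0]⟩,
  ⟨0, 17, [1, 0, 2, 0, 0]⟩,
  ⟨0, 17, [1, 2, 0, 0, 0]⟩,
  ⟨0, 17, [3, 0, 0, 0, 0]⟩,
  ⟨0, 16, [1, 0, 0, 0, 0]⟩,
  ⟨0, 16, [1, 0, 0, 0, 1]⟩,
  ⟨0, 16, [1, 0, 0, 0, 2]⟩]

/-- Monomials, group 32. -/
def gam32 : List Gam := [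
  ⟨0, 16, [1, 0, 0, 2, 0]⟩,
  ⟨0, 16, [1, 0, 2, 0, 0]⟩,
  ⟨0, 16, [1, 2, 0, 0, 0]⟩,
  ⟨0, 16, [3, 0, 0, 0, 0]⟩,
  ⟨0, 15, [1, 0, 0, 1, 0]⟩,
  ⟨0, 14, [1, 0, 1, 0, 0]⟩,
  ⟨0, 12, [1, 1, 0, 0, 0]⟩,
  ⟨0, 11, [1, 0, 0, 1, 0]⟩,
  ⟨0, 10, [1, 0, 1, 0, 0]⟩,
  ⟨0, 9, [1, 1, 0, 0, 0]⟩,
  ⟨0, 8, [0, 0, 1, 1, 0]⟩,
  ⟨0, 7, [0, 0, 0, 0, 0]⟩,
  ⟨0, 7, [0, 0, 0, 0, 1]⟩,
  ⟨0, 7, [0, 0, 0, 0, 2]⟩,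
  ⟨0, 7, [0, 0, 0, 2, 0]⟩,
  ⟨0, 7, [0, 0, 2, 0, 0]⟩]

/-- Monomials, group 33. -/
def gam33 : List Gam := [
  ⟨0, 7, [0, 2, 0, 0, 0]⟩,
  ⟨0, 7, [2, 0, 0, 0, 0]⟩,
  ⟨0, 6, [0, 1, 0, 1, 0]⟩,
  ⟨0, 5, [0, 1, 1, 0, 0]⟩,
  ⟨0, 4, [0, 0, 0, 0, 0]⟩,
  ⟨0, 4, [0, 0, 0, 0, 1]⟩,
  ⟨0, 4, [0, 0, 0, 0, 2]⟩,
  ⟨0, 4, [0, 0, 0, 2, 0]⟩,
  ⟨0, 4, [0, 0, 2, 0, 0]⟩,
  ⟨0, 4, [0, 2, 0, 0, 0]⟩,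
  ⟨0, 4, [2, 0, 0, 0, 0]⟩,
  ⟨0, 3, [1, 0, 0, 1, 0]⟩,
  ⟨0, 2, [1, 0, 1, 0, 0]⟩,
  ⟨0, 1, [1, 1, 0, 0, 0]⟩,
  ⟨0, 0, [0, 0, 0, 0, 0]⟩,
  ⟨0, 0, [0, 0, 0, 0, 1]⟩]

/-- Monomials, group 34. -/
def gam34 : List Gam := [
  ⟨0, 0, [0, 0, 0, 0, 2]⟩,
  ⟨0, 0, [0, 0, 0, 2, 0]⟩,
  ⟨0, 0, [0, 0, 2, 0, 0]⟩,
  ⟨0, 0, [0, 2, 0, 0, 0]⟩,
  ⟨0, 0, [2, 0, 0, 0, 0]⟩]

/-- Monomials. -/
def gam : List (List Gam) := [gam0, gam1, gam2, gam3, gam4, gam5, gam6, gam7, gam8, gam9, gam10, gam11, gam12, gam13, gam14, gam15, gam16, gam17, gam18, gam19, gam20, gam21, gam22, gam23, gam24, gam25, gam26, gam27, gam28, gam29, gam30, gam31, gam32, gam33, gam34]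

/-- Positions hitting each coordinate. -/
def pos : List (List ℕ × List ℕ) := [
  ([542, 542], [502, 503, 504, 505, 506, 507, 508, 509, 510, 511, 512, 513, 514, 515, 516, 517, 518, 519, 520, 521, 522, 523, 524, 525, 526, 527, 528, 529, 530, 531, 532, 533, 534, 535, 536, 537, 538, 539, 540, 541, 543, 543, 544, 544, 545, 545, 546, 546, 547, 547, 548, 548]),
  ([495, 495], [456, 457, 458, 459, 460, 461, 462, 463, 464, 465, 466, 467, 468, 469, 470, 471, 472, 473, 474, 475, 476, 477, 478, 479, 480, 481, 482, 483, 484, 485, 486, 487, 488, 489, 490, 491, 492, 493, 494, 496, 496, 497, 497, 498, 498, 499, 499, 500, 500, 501, 501, 541]),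
  ([449, 449], [411, 412, 413, 414, 415, 416, 417, 418, 419, 420, 421, 422, 423, 424, 425, 426, 427, 428, 429, 430, 431, 432, 433, 434, 435, 436, 437, 438, 439, 440, 441, 442, 443, 444, 445, 446, 447, 448, 450, 450, 451, 451, 452, 452, 453, 453, 454, 454, 455, 455, 494, 540]),
  ([404, 404], [367, 368, 369, 370, 371, 372, 373, 374, 375, 376, 377, 378, 379, 380, 381, 382, 383, 384, 385, 386, 387, 388, 389, 390, 391, 392, 393, 394, 395, 396, 397, 398, 399, 400, 401, 402, 403, 405, 405, 406, 406, 407, 407, 408, 408, 409, 409, 410, 410, 448, 493, 539]),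
  ([360, 360], [330, 331, 332, 333, 334, 335, 336, 337, 338, 339, 340, 341, 342, 343, 344, 345, 346, 347, 348, 349, 350, 351, 352, 353, 354, 355, 356, 357, 358, 359, 361, 361, 362, 362, 363, 363, 364, 364, 365, 365, 366, 366, 403, 447, 492, 532, 533, 534, 535, 536, 537, 538]),
  ([323, 323], [313, 314, 315, 316, 317, 318, 319, 320, 321, 322, 324, 324, 325, 325, 326, 326, 327, 327, 328, 328, 329, 329, 359, 446, 491, 531]),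
  ([306, 306], [297, 298, 299, 300, 301, 302, 303, 304, 305, 307, 307, 308, 308, 309, 309, 310, 310, 311, 311, 312, 312, 322, 358, 402, 490, 530]),
  ([290, 290], [269, 270, 271, 272, 273, 274, 275, 276, 277, 278, 279, 280, 281, 282, 283, 284, 285, 286, 287, 288, 289, 291, 291, 292, 292, 293, 293, 294, 294, 295, 295, 296, 296, 305, 321, 351, 352, 353, 354, 355, 356, 357, 401, 445, 489, 523, 524, 525, 526, 527, 528, 529]),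
  ([262, 262], [255, 256, 257, 258, 259, 260, 261, 263, 263, 264, 264, 265, 265, 266, 266, 267, 267, 268, 268, 289, 304, 320, 350, 400, 444, 522]),
  ([248, 248], [222, 223, 224, 225, 226, 227, 228, 229, 230, 231, 232, 233, 234, 235, 236, 237, 238, 239, 240, 241, 242, 243, 244, 245, 246, 247, 249, 249, 250, 250, 251, 251, 252, 252, 253, 253, 254, 254, 288, 303, 319, 349, 399, 443, 482, 483, 484, 485, 486, 487, 488, 521]),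
  ([215, 215], [190, 191, 192, 193, 194, 195, 196, 197, 198, 199, 200, 201, 202, 203, 204, 205, 206, 207, 208, 209, 210, 211, 212, 213, 214, 216, 216, 217, 217, 218, 218, 219, 219, 220, 220, 221, 221, 247, 261, 287, 318, 348, 398, 436, 437, 438, 439, 440, 441, 442, 481, 520]),
  ([183, 183], [159, 160, 161, 162, 163, 164, 165, 166, 167, 168, 169, 170, 171, 172, 173, 174, 175, 176, 177, 178, 179, 180, 181, 182, 184, 184, 185, 185, 186, 186, 187, 187, 188, 188, 189, 189, 214, 246, 260, 286, 302, 347, 391, 392, 393, 394, 395, 396, 397, 435, 480, 519]),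
  ([152, 152], [135, 136, 137, 138, 139, 140, 141, 142, 143, 144, 145, 146, 147, 148, 149, 150, 151, 153, 153, 154, 154, 155, 155, 156, 156, 157, 157, 158, 158, 182, 213, 239, 240, 241, 242, 243, 244, 245, 285, 301, 317, 346, 390, 434, 473, 474, 475, 476, 477, 478, 479, 518]),
  ([128, 128], [124, 125, 126, 127, 129, 129, 130, 130, 131, 131, 132, 132, 133, 133, 134, 134, 151, 181, 212, 238, 259, 300, 316, 389, 433, 472]),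
  ([117, 117], [102, 103, 104, 105, 106, 107, 108, 109, 110, 111, 112, 113, 114, 115, 116, 118, 118, 119, 119, 120, 120, 121, 121, 122, 122, 123, 123, 127, 150, 180, 205, 206, 207, 208, 209, 210, 211, 237, 258, 284, 315, 345, 388, 426, 427, 428, 429, 430, 431, 432, 471, 517]),
  ([95, 95], [81, 82, 83, 84, 85, 86, 87, 88, 89, 90, 91, 92, 93, 94, 96, 96, 97, 97, 98, 98, 99, 99, 100, 100, 101, 101, 116, 126, 149, 173, 174, 175, 176, 177, 178, 179, 204, 236, 257, 283, 299, 344, 381, 382, 383, 384, 385, 386, 387, 425, 470, 516]),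
  ([54, 54], [27, 28, 29, 30, 31, 32, 33, 34, 35, 36, 37, 38, 39, 40, 41, 42, 43, 44, 45, 46, 47, 48, 49, 50, 51, 52, 53, 55, 55, 56, 56, 57, 57, 58, 58, 59, 59, 60, 60, 61, 61, 62, 62, 63, 63, 64, 64, 65, 65, 66, 66, 67, 67, 68, 68, 69, 69, 70, 70, 71, 71, 72, 72, 73, 73, 74, 74, 75, 75, 76, 76, 77, 77, 78, 78, 79, 79, 80, 80, 88, 89, 90, 91, 92, 93, 94, 109, 110, 111, 112, 113, 114, 115, 125, 142, 143, 144, 145, 146, 147, 148, 166, 167, 168, 169, 170, 171, 172, 197, 198, 199, 200, 201, 202, 203, 229, 230, 231, 232, 233, 234, 235, 256, 276, 277, 278, 279, 280, 281, 282, 298, 314, 337, 338, 339, 340, 341, 342, 343, 374, 375, 376, 377, 378, 379, 380, 418, 419, 420, 421, 422, 423, 424, 463, 464, 465, 466, 467, 468, 469, 509, 510, 511, 512, 513,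 514, 515]),
  ([0, 0], [1, 1, 2, 2, 3, 3, 4, 4, 5, 5, 6, 6, 7, 7, 8, 8, 9, 9, 10, 10, 11, 11, 12, 12, 13, 13, 14, 14, 15, 15, 16, 16, 17, 17, 18, 18, 19, 19, 20, 20, 21, 21, 22, 22, 23, 23, 24, 24, 25, 25, 26, 26, 27, 28, 29, 30, 31, 32, 33, 34, 35, 36, 37, 38, 39, 40, 41, 42, 43, 44, 45, 46, 47, 48, 49, 50, 51, 52, 53, 81, 82, 83, 84, 85, 86, 87, 102, 103, 104, 105, 106, 107, 108, 124, 135, 136, 137, 138, 139, 140, 141, 159, 160, 161, 162, 163, 164, 165, 190, 191, 192, 193, 194, 195, 196, 222, 223, 224, 225, 226, 227, 228, 255, 269, 270, 271, 272, 273, 274, 275, 297, 313, 330, 331, 332, 333, 334, 335, 336, 367, 368, 369, 370, 371, 372, 373, 411, 412, 413, 414, 415, 416, 417, 456, 457, 458, 459, 460, 461, 462, 502, 503, 504, 505, 506, 507,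 508])]

/-- Block 0. -/
def block0 : Block := ⟨.one, [⟨16, [0, 0, 0, 0, 0]⟩, ⟨17, [0, 0, 0, 0, 0]⟩, ⟨16, [0, 0, 0, 0, 1]⟩, ⟨17, [0, 0, 0, 0, 1]⟩, ⟨3, [0, 0, 0, 1, 0]⟩, ⟨11, [0, 0, 0, 1, 0]⟩, ⟨15, [0, 0, 0, 1, 0]⟩, ⟨2, [0, 0, 1, 0, 0]⟩, ⟨10, [0, 0, 1, 0, 0]⟩, ⟨14, [0, 0, 1, 0, 0]⟩, ⟨1, [0, 1, 0, 0, 0]⟩, ⟨9, [0, 1, 0, 0, 0]⟩, ⟨12, [0, 1, 0, 0, 0]⟩, ⟨0, [1, 0, 0, 0, 0]⟩, ⟨4, [1, 0, 0, 0, 0]⟩, ⟨7, [1, 0, 0, 0, 0]⟩, ⟨16, [0, 0, 0, 0, 2]⟩, ⟨17, [0, 0, 0, 0, 2]⟩, ⟨16, [0, 0, 0, 2, 0]⟩, ⟨17, [0, 0, 0, 2, 0]⟩, ⟨16, [0, 0, 2, 0, 0]⟩, ⟨17, [0, 0, 2, 0, 0]⟩, ⟨16, [0, 2, 0, 0, 0]⟩, ⟨17, [0, 2, 0, 0, 0]⟩, ⟨16, [2, 0, 0, 0, 0]⟩, ⟨17, [2, 0, 0, 0, 0]⟩], [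
  [[(54, 1)], [(27, 1)], [(55, 1)], [(28, 1)], [(374, 1)], [(166, 1)], [(88, 1)], [(418, 1)], [(197, 1)], [(109, 1)], [(463, 1)], [(229, 1)], [(142, 1)], [(509, 1)], [(337, 1)], [(276, 1)], [(56, 1)], [(29, 1)], [(59, 1)], [(32, 1)], [(63, 1)], [(36, 1)], [(68, 1)], [(41, 1)], [(74, 1)], [(47, 1)]],
  [[(0, 1)], [(28, 1)], [(1, 1)], [(367, 1)], [(159, 1)], [(81, 1)], [(411, 1)], [(190, 1)], [(102, 1)], [(456, 1)], [(222, 1)], [(135, 1)], [(502, 1)], [(330, 1)], [(269, 1)], [(29, 1)], [(2, 1)], [(32, 1)], [(5, 1)], [(36, 1)], [(9, 1)], [(41, 1)], [(14, 1)], [(47, 1)], [(20, 1)]],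
  [[(56, 1)], [(29, 1)], [(375, 1)], [(167, 1)], [(89, 1)], [(419, 1)], [(198, 1)], [(110, 1)], [(464, 1)], [(230, 1)], [(143, 1)], [(510, 1)], [(338, 1)], [(277, 1)], [(57, 1)], [(30, 1)], [(60, 1)], [(33, 1)], [(64, 1)], [(37, 1)], [(69, 1)], [(42, 1)], [(75, 1)], [(48, 1)]],
  [[(2, 1)], [(368, 1)], [(160, 1)], [(82, 1)], [(412, 1)], [(191, 1)], [(103, 1)], [(457, 1)], [(223, 1)], [(136, 1)], [(503, 1)], [(331, 1)], [(270, 1)], [(30, 1)], [(3, 1)], [(33, 1)], [(6, 1)], [(37, 1)], [(10, 1)], [(42, 1)], [(15, 1)], [(48, 1)], [(21, 1)]],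
  [[(407, 1)], [(394, 1)], [(384, 1)], [(448, 1)], [(398, 1)], [(388, 1)], [(493, 1)], [(399, 1)], [(390, 1)], [(539, 1)], [(403, 1)], [(401, 1)], [(376, 1)], [(369, 1)], [(377, 1)], [(370, 1)], [(378, 1)], [(371, 1)], [(379, 1)], [(372, 1)], [(380, 1)], [(373, 1)]],
  [[(186, 1)], [(176, 1)], [(435, 1)], [(214, 1)], [(180, 1)], [(480, 1)], [(246, 1)], [(182, 1)], [(519, 1)], [(347, 1)], [(286, 1)], [(168, 1)], [(161, 1)], [(169, 1)], [(162, 1)], [(170, 1)], [(163, 1)], [(171, 1)], [(164, 1)], [(172, 1)], [(165, 1)]],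
  [[(98, 1)], [(425, 1)], [(204, 1)], [(116, 1)], [(470, 1)], [(236, 1)], [(149, 1)], [(516, 1)], [(344, 1)], [(283, 1)], [(90, 1)], [(83, 1)], [(91, 1)], [(84, 1)], [(92, 1)], [(85, 1)], [(93, 1)], [(86, 1)], [(94, 1)], [(87, 1)]],
  [[(453, 1)], [(440, 1)], [(430, 1)], [(494, 1)], [(443, 1)], [(434, 1)], [(540, 1)], [(447, 1)], [(445, 1)], [(420, 1)], [(413, 1)], [(421, 1)], [(414, 1)], [(422, 1)], [(415, 1)], [(423, 1)], [(416, 1)], [(424, 1)], [(417, 1)]],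
  [[(219, 1)], [(209, 1)], [(481, 1)], [(247, 1)], [(213, 1)], [(520, 1)], [(348, 1)], [(287, 1)], [(199, 1)], [(192, 1)], [(200, 1)], [(193, 1)], [(201, 1)], [(194, 1)], [(202, 1)], [(195, 1)], [(203, 1)], [(196, 1)]],
  [[(121, 1)], [(471, 1)], [(237, 1)], [(150, 1)], [(517, 1)], [(345, 1)], [(284, 1)], [(111, 1)], [(104, 1)], [(112, 1)], [(105, 1)], [(113, 1)], [(106, 1)], [(114, 1)], [(107, 1)], [(115, 1)], [(108, 1)]],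
  [[(500, 1)], [(487, 1)], [(478, 1)], [(541, 1)], [(492, 1)], [(489, 1)], [(465, 1)], [(458, 1)], [(466, 1)], [(459, 1)], [(467, 1)], [(460, 1)], [(468, 1)], [(461, 1)], [(469, 1)], [(462, 1)]],
  [[(253, 1)], [(244, 1)], [(521, 1)], [(349, 1)], [(288, 1)], [(231, 1)], [(224, 1)], [(232, 1)], [(225, 1)], [(233, 1)], [(226, 1)], [(234, 1)], [(227, 1)], [(235, 1)], [(228, 1)]],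
  [[(157, 1)], [(518, 1)], [(346, 1)], [(285, 1)], [(144, 1)], [(137, 1)], [(145, 1)], [(138, 1)], [(146, 1)], [(139, 1)], [(147, 1)], [(140, 1)], [(148, 1)], [(141, 1)]],
  [[(548, 1)], [(538, 1)], [(529, 1)], [(511, 1)], [(504, 1)], [(512, 1)], [(505, 1)], [(513, 1)], [(506, 1)], [(514, 1)], [(507, 1)], [(515, 1)], [(508, 1)]],
  [[(366, 1)], [(357, 1)], [(339, 1)], [(332, 1)], [(340, 1)], [(333, 1)], [(341, 1)], [(334, 1)], [(342, 1)], [(335, 1)], [(343, 1)], [(336, 1)]],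
  [[(296, 1)], [(278, 1)], [(271, 1)], [(279, 1)], [(272, 1)], [(280, 1)], [(273, 1)], [(281, 1)], [(274, 1)], [(282, 1)], [(275, 1)]],
  [[(58, 1)], [(31, 1)], [(61, 1)], [(34, 1)], [(65, 1)], [(38, 1)], [(70, 1)], [(43, 1)], [(76, 1)], [(49, 1)]],
  [[(4, 1)], [(34, 1)], [(7, 1)], [(38, 1)], [(11, 1)], [(43, 1)], [(16, 1)], [(49, 1)], [(22, 1)]],
  [[(62, 1)], [(35, 1)], [(66, 1)], [(39, 1)], [(71, 1)], [(44, 1)], [(77, 1)], [(50, 1)]],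
  [[(8, 1)], [(39, 1)], [(12, 1)], [(44, 1)], [(17, 1)], [(50, 1)], [(23, 1)]],
  [[(67, 1)], [(40, 1)], [(72, 1)], [(45, 1)], [(78, 1)], [(51, 1)]],
  [[(13, 1)], [(45, 1)], [(18, 1)], [(51, 1)], [(24, 1)]],
  [[(73, 1)], [(46, 1)], [(79, 1)], [(52, 1)]],
  [[(19, 1)], [(52, 1)], [(25, 1)]],
  [[(80, 1)], [(53, 1)]],
  [[(26, 1)]]]⟩

/-- Block 1. -/
def block1 : Block := ⟨.one, [⟨0, [0, 0, 0, 0, 0]⟩, ⟨4, [0, 0, 0, 0, 0]⟩, ⟨7, [0, 0, 0, 0, 0]⟩, ⟨0, [0, 0, 0, 0, 1]⟩, ⟨4, [0, 0, 0, 0, 1]⟩, ⟨7, [0, 0, 0, 0, 1]⟩, ⟨16, [1, 0, 0, 0, 0]⟩, ⟨17, [1, 0, 0, 0, 0]⟩, ⟨16, [1, 0, 0, 0, 1]⟩, ⟨17, [1, 0, 0, 0, 1]⟩], [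
  [[(542, 1)], [(532, 1)], [(523, 1)], [(543, 1)], [(533, 1)], [(524, 1)], [(509, 1)], [(502, 1)], [(510, 1)], [(503, 1)]],
  [[(360, 1)], [(351, 1)], [(533, 1)], [(361, 1)], [(352, 1)], [(337, 1)], [(330, 1)], [(338, 1)], [(331, 1)]],
  [[(290, 1)], [(524, 1)], [(352, 1)], [(291, 1)], [(276, 1)], [(269, 1)], [(277, 1)], [(270, 1)]],
  [[(544, 1)], [(534, 1)], [(525, 1)], [(510, 1)], [(503, 1)], [(511, 1)], [(504, 1)]],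
  [[(362, 1)], [(353, 1)], [(338, 1)], [(331, 1)], [(339, 1)], [(332, 1)]],
  [[(292, 1)], [(277, 1)], [(270, 1)], [(278, 1)], [(271, 1)]],
  [[(74, 1)], [(47, 1)], [(75, 1)], [(48, 1)]],
  [[(20, 1)], [(48, 1)], [(21, 1)]],
  [[(76, 1)], [(49, 1)]],
  [[(22, 1)]]]⟩

/-- Block 2. -/
def block2 : Block := ⟨.one, [⟨1, [0, 0, 0, 0, 0]⟩, ⟨9, [0, 0, 0, 0, 0]⟩, ⟨12, [0, 0, 0, 0, 0]⟩, ⟨1, [0, 0, 0, 0, 1]⟩, ⟨9, [0, 0, 0, 0, 1]⟩, ⟨12, [0, 0, 0, 0, 1]⟩, ⟨16, [0, 1, 0, 0, 0]⟩, ⟨17, [0, 1, 0, 0, 0]⟩, ⟨16, [0, 1, 0, 0, 1]⟩, ⟨17, [0, 1, 0, 0, 1]⟩], [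
  [[(495, 1)], [(482, 1)], [(473, 1)], [(496, 1)], [(483, 1)], [(474, 1)], [(463, 1)], [(456, 1)], [(464, 1)], [(457, 1)]],
  [[(248, 1)], [(239, 1)], [(483, 1)], [(249, 1)], [(240, 1)], [(229, 1)], [(222, 1)], [(230, 1)], [(223, 1)]],
  [[(152, 1)], [(474, 1)], [(240, 1)], [(153, 1)], [(142, 1)], [(135, 1)], [(143, 1)], [(136, 1)]],
  [[(497, 1)], [(484, 1)], [(475, 1)], [(464, 1)], [(457, 1)], [(465, 1)], [(458, 1)]],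
  [[(250, 1)], [(241, 1)], [(230, 1)], [(223, 1)], [(231, 1)], [(224, 1)]],
  [[(154, 1)], [(143, 1)], [(136, 1)], [(144, 1)], [(137, 1)]],
  [[(68, 1)], [(41, 1)], [(69, 1)], [(42, 1)]],
  [[(14, 1)], [(42, 1)], [(15, 1)]],
  [[(70, 1)], [(43, 1)]],
  [[(16, 1)]]]⟩

/-- Block 3. -/
def block3 : Block := ⟨.one, [⟨6, [0, 0, 0, 1, 0]⟩, ⟨5, [0, 0, 1, 0, 0]⟩, ⟨0, [0, 1, 0, 0, 0]⟩, ⟨4, [0, 1, 0, 0, 0]⟩, ⟨7, [0, 1, 0, 0, 0]⟩, ⟨1, [1, 0, 0, 0, 0]⟩, ⟨9, [1, 0, 0, 0, 0]⟩, ⟨12, [1, 0, 0, 0, 0]⟩, ⟨16, [1, 1, 0, 0, 0]⟩, ⟨17, [1, 1, 0, 0, 0]⟩], [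
  [[(309, 1)], [(322, 1)], [(530, 1)], [(358, 1)], [(305, 1)], [(490, 1)], [(303, 1)], [(301, 1)], [(298, 1)], [(297, 1)]],
  [[(327, 1)], [(531, 1)], [(359, 1)], [(321, 1)], [(491, 1)], [(319, 1)], [(317, 1)], [(314, 1)], [(313, 1)]],
  [[(547, 1)], [(537, 1)], [(528, 1)], [(541, 1)], [(521, 1)], [(518, 1)], [(514, 1)], [(507, 1)]],
  [[(365, 1)], [(356, 1)], [(492, 1)], [(349, 1)], [(346, 1)], [(342, 1)], [(335, 1)]],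
  [[(295, 1)], [(489, 1)], [(288, 1)], [(285, 1)], [(281, 1)], [(274, 1)]],
  [[(501, 1)], [(488, 1)], [(479, 1)], [(469, 1)], [(462, 1)]],
  [[(254, 1)], [(245, 1)], [(235, 1)], [(228, 1)]],
  [[(158, 1)], [(148, 1)], [(141, 1)]],
  [[(79, 1)], [(52, 1)]],
  [[(25, 1)]]]⟩

/-- Block 4. -/
def block4 : Block := ⟨.one, [⟨2, [0, 0, 0, 0, 0]⟩, ⟨10, [0, 0, 0, 0, 0]⟩, ⟨14, [0, 0, 0, 0, 0]⟩, ⟨2, [0, 0, 0, 0, 1]⟩, ⟨10, [0, 0, 0, 0, 1]⟩, ⟨14, [0, 0, 0, 0, 1]⟩, ⟨16, [0, 0, 1, 0, 0]⟩, ⟨17, [0, 0, 1, 0, 0]⟩, ⟨16, [0, 0, 1, 0, 1]⟩, ⟨17, [0, 0, 1, 0, 1]⟩], [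
  [[(449, 1)], [(436, 1)], [(426, 1)], [(450, 1)], [(437, 1)], [(427, 1)], [(418, 1)], [(411, 1)], [(419, 1)], [(412, 1)]],
  [[(215, 1)], [(205, 1)], [(437, 1)], [(216, 1)], [(206, 1)], [(197, 1)], [(190, 1)], [(198, 1)], [(191, 1)]],
  [[(117, 1)], [(427, 1)], [(206, 1)], [(118, 1)], [(109, 1)], [(102, 1)], [(110, 1)], [(103, 1)]],
  [[(451, 1)], [(438, 1)], [(428, 1)], [(419, 1)], [(412, 1)], [(420, 1)], [(413, 1)]],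
  [[(217, 1)], [(207, 1)], [(198, 1)], [(191, 1)], [(199, 1)], [(192, 1)]],
  [[(119, 1)], [(110, 1)], [(103, 1)], [(111, 1)], [(104, 1)]],
  [[(63, 1)], [(36, 1)], [(64, 1)], [(37, 1)]],
  [[(9, 1)], [(37, 1)], [(10, 1)]],
  [[(65, 1)], [(38, 1)]],
  [[(11, 1)]]]⟩

/-- Block 5. -/
def block5 : Block := ⟨.one, [⟨8, [0, 0, 0, 1, 0]⟩, ⟨0, [0, 0, 1, 0, 0]⟩, ⟨4, [0, 0, 1, 0, 0]⟩, ⟨7, [0, 0, 1, 0, 0]⟩, ⟨5, [0, 1, 0, 0, 0]⟩, ⟨2, [1, 0, 0, 0, 0]⟩, ⟨10, [1, 0, 0, 0, 0]⟩, ⟨14, [1, 0, 0, 0, 0]⟩, ⟨16, [1, 0, 1, 0, 0]⟩, ⟨17, [1, 0, 1, 0, 0]⟩], [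
  [[(265, 1)], [(522, 1)], [(350, 1)], [(289, 1)], [(320, 1)], [(444, 1)], [(261, 1)], [(258, 1)], [(256, 1)], [(255, 1)]],
  [[(546, 1)], [(536, 1)], [(527, 1)], [(531, 1)], [(540, 1)], [(520, 1)], [(517, 1)], [(513, 1)], [(506, 1)]],
  [[(364, 1)], [(355, 1)], [(359, 1)], [(447, 1)], [(348, 1)], [(345, 1)], [(341, 1)], [(334, 1)]],
  [[(294, 1)], [(321, 1)], [(445, 1)], [(287, 1)], [(284, 1)], [(280, 1)], [(273, 1)]],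
  [[(328, 1)], [(446, 1)], [(318, 1)], [(315, 1)], [(314, 1)], [(313, 1)]],
  [[(455, 1)], [(442, 1)], [(432, 1)], [(424, 1)], [(417, 1)]],
  [[(221, 1)], [(211, 1)], [(203, 1)], [(196, 1)]],
  [[(123, 1)], [(115, 1)], [(108, 1)]],
  [[(78, 1)], [(51, 1)]],
  [[(24, 1)]]]⟩

/-- Block 6. -/
def block6 : Block := ⟨.one, [⟨13, [0, 0, 0, 1, 0]⟩, ⟨1, [0, 0, 1, 0, 0]⟩, ⟨9, [0, 0, 1, 0, 0]⟩, ⟨12, [0, 0, 1, 0, 0]⟩, ⟨2, [0, 1, 0, 0, 0]⟩, ⟨10, [0, 1, 0, 0, 0]⟩, ⟨14, [0, 1, 0, 0, 0]⟩, ⟨5, [1, 0, 0, 0, 0]⟩, ⟨16, [0, 1, 1, 0, 0]⟩, ⟨17, [0, 1, 1, 0, 0]⟩], [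
  [[(131, 1)], [(472, 1)], [(238, 1)], [(151, 1)], [(433, 1)], [(212, 1)], [(127, 1)], [(316, 1)], [(125, 1)], [(124, 1)]],
  [[(499, 1)], [(486, 1)], [(477, 1)], [(494, 1)], [(481, 1)], [(471, 1)], [(491, 1)], [(467, 1)], [(460, 1)]],
  [[(252, 1)], [(243, 1)], [(443, 1)], [(247, 1)], [(237, 1)], [(319, 1)], [(233, 1)], [(226, 1)]],
  [[(156, 1)], [(434, 1)], [(213, 1)], [(150, 1)], [(317, 1)], [(146, 1)], [(139, 1)]],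
  [[(454, 1)], [(441, 1)], [(431, 1)], [(446, 1)], [(423, 1)], [(416, 1)]],
  [[(220, 1)], [(210, 1)], [(318, 1)], [(202, 1)], [(195, 1)]],
  [[(122, 1)], [(315, 1)], [(114, 1)], [(107, 1)]],
  [[(329, 1)], [(314, 1)], [(313, 1)]],
  [[(72, 1)], [(45, 1)]],
  [[(18, 1)]]]⟩

/-- Block 7. -/
def block7 : Block := ⟨.one, [⟨5, [0, 0, 0, 0, 0]⟩, ⟨5, [0, 0, 0, 0, 1]⟩], [
  [[(323, 1)], [(324, 1)]],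
  [[(325, 1)]]]⟩

/-- Block 8. -/
def block8 : Block := ⟨.one, [⟨3, [0, 0, 0, 0, 0]⟩, ⟨11, [0, 0, 0, 0, 0]⟩, ⟨15, [0, 0, 0, 0, 0]⟩, ⟨3, [0, 0, 0, 0, 1]⟩, ⟨11, [0, 0, 0, 0, 1]⟩, ⟨15, [0, 0, 0, 0, 1]⟩, ⟨16, [0, 0, 0, 1, 0]⟩, ⟨17, [0, 0, 0, 1, 0]⟩, ⟨16, [0, 0, 0, 1, 1]⟩, ⟨17, [0, 0, 0, 1, 1]⟩], [
  [[(404, 1)], [(391, 1)], [(381, 1)], [(405, 1)], [(392, 1)], [(382, 1)], [(374, 1)], [(367, 1)], [(375, 1)], [(368, 1)]],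
  [[(183, 1)], [(173, 1)], [(392, 1)], [(184, 1)], [(174, 1)], [(166, 1)], [(159, 1)], [(167, 1)], [(160, 1)]],
  [[(95, 1)], [(382, 1)], [(174, 1)], [(96, 1)], [(88, 1)], [(81, 1)], [(89, 1)], [(82, 1)]],
  [[(406, 1)], [(393, 1)], [(383, 1)], [(375, 1)], [(368, 1)], [(376, 1)], [(369, 1)]],
  [[(185, 1)], [(175, 1)], [(167, 1)], [(160, 1)], [(168, 1)], [(161, 1)]],
  [[(97, 1)], [(89, 1)], [(82, 1)], [(90, 1)], [(83, 1)]],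
  [[(59, 1)], [(32, 1)], [(60, 1)], [(33, 1)]],
  [[(5, 1)], [(33, 1)], [(6, 1)]],
  [[(61, 1)], [(34, 1)]],
  [[(7, 1)]]]⟩

/-- Block 9. -/
def block9 : Block := ⟨.one, [⟨0, [0, 0, 0, 1, 0]⟩, ⟨4, [0, 0, 0, 1, 0]⟩, ⟨7, [0, 0, 0, 1, 0]⟩, ⟨8, [0, 0, 1, 0, 0]⟩, ⟨6, [0, 1, 0, 0, 0]⟩, ⟨3, [1, 0, 0, 0, 0]⟩, ⟨11, [1, 0, 0, 0, 0]⟩, ⟨15, [1, 0, 0, 0, 0]⟩, ⟨16, [1, 0, 0, 1, 0]⟩, ⟨17, [1, 0, 0, 1, 0]⟩], [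
  [[(545, 1)], [(535, 1)], [(526, 1)], [(522, 1)], [(530, 1)], [(539, 1)], [(519, 1)], [(516, 1)], [(512, 1)], [(505, 1)]],
  [[(363, 1)], [(354, 1)], [(350, 1)], [(358, 1)], [(403, 1)], [(347, 1)], [(344, 1)], [(340, 1)], [(333, 1)]],
  [[(293, 1)], [(289, 1)], [(305, 1)], [(401, 1)], [(286, 1)], [(283, 1)], [(279, 1)], [(272, 1)]],
  [[(266, 1)], [(304, 1)], [(400, 1)], [(260, 1)], [(257, 1)], [(256, 1)], [(255, 1)]],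
  [[(311, 1)], [(402, 1)], [(302, 1)], [(299, 1)], [(298, 1)], [(297, 1)]],
  [[(410, 1)], [(397, 1)], [(387, 1)], [(380, 1)], [(373, 1)]],
  [[(189, 1)], [(179, 1)], [(172, 1)], [(165, 1)]],
  [[(101, 1)], [(94, 1)], [(87, 1)]],
  [[(77, 1)], [(50, 1)]],
  [[(23, 1)]]]⟩

/-- Block 10. -/
def block10 : Block := ⟨.one, [⟨1, [0, 0, 0, 1, 0]⟩, ⟨9, [0, 0, 0, 1, 0]⟩, ⟨12, [0, 0, 0, 1, 0]⟩, ⟨13, [0, 0, 1, 0, 0]⟩, ⟨3, [0, 1, 0, 0, 0]⟩, ⟨11, [0, 1, 0, 0, 0]⟩, ⟨15, [0, 1, 0, 0, 0]⟩, ⟨6, [1, 0, 0, 0, 0]⟩, ⟨16, [0, 1, 0, 1, 0]⟩, ⟨17, [0, 1, 0, 1, 0]⟩], [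
  [[(498, 1)], [(485, 1)], [(476, 1)], [(472, 1)], [(493, 1)], [(480, 1)], [(470, 1)], [(490, 1)], [(466, 1)], [(459, 1)]],
  [[(251, 1)], [(242, 1)], [(238, 1)], [(399, 1)], [(246, 1)], [(236, 1)], [(303, 1)], [(232, 1)], [(225, 1)]],
  [[(155, 1)], [(151, 1)], [(390, 1)], [(182, 1)], [(149, 1)], [(301, 1)], [(145, 1)], [(138, 1)]],
  [[(132, 1)], [(389, 1)], [(181, 1)], [(126, 1)], [(300, 1)], [(125, 1)], [(124, 1)]],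
  [[(409, 1)], [(396, 1)], [(386, 1)], [(402, 1)], [(379, 1)], [(372, 1)]],
  [[(188, 1)], [(178, 1)], [(302, 1)], [(171, 1)], [(164, 1)]],
  [[(100, 1)], [(299, 1)], [(93, 1)], [(86, 1)]],
  [[(312, 1)], [(298, 1)], [(297, 1)]],
  [[(71, 1)], [(44, 1)]],
  [[(17, 1)]]]⟩

/-- Block 11. -/
def block11 : Block := ⟨.one, [⟨6, [0, 0, 0, 0, 0]⟩, ⟨6, [0, 0, 0, 0, 1]⟩], [
  [[(306, 1)], [(307, 1)]],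
  [[(308, 1)]]]⟩

/-- Block 12. -/
def block12 : Block := ⟨.one, [⟨2, [0, 0, 0, 1, 0]⟩, ⟨10, [0, 0, 0, 1, 0]⟩, ⟨14, [0, 0, 0, 1, 0]⟩, ⟨3, [0, 0, 1, 0, 0]⟩, ⟨11, [0, 0, 1, 0, 0]⟩, ⟨15, [0, 0, 1, 0, 0]⟩, ⟨13, [0, 1, 0, 0, 0]⟩, ⟨8, [1, 0, 0, 0, 0]⟩, ⟨16, [0, 0, 1, 1, 0]⟩, ⟨17, [0, 0, 1, 1, 0]⟩], [
  [[(452, 1)], [(439, 1)], [(429, 1)], [(448, 1)], [(435, 1)], [(425, 1)], [(433, 1)], [(444, 1)], [(421, 1)], [(414, 1)]],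
  [[(218, 1)], [(208, 1)], [(398, 1)], [(214, 1)], [(204, 1)], [(212, 1)], [(261, 1)], [(200, 1)], [(193, 1)]],
  [[(120, 1)], [(388, 1)], [(180, 1)], [(116, 1)], [(127, 1)], [(258, 1)], [(112, 1)], [(105, 1)]],
  [[(408, 1)], [(395, 1)], [(385, 1)], [(389, 1)], [(400, 1)], [(378, 1)], [(371, 1)]],
  [[(187, 1)], [(177, 1)], [(181, 1)], [(260, 1)], [(170, 1)], [(163, 1)]],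
  [[(99, 1)], [(126, 1)], [(257, 1)], [(92, 1)], [(85, 1)]],
  [[(133, 1)], [(259, 1)], [(125, 1)], [(124, 1)]],
  [[(268, 1)], [(256, 1)], [(255, 1)]],
  [[(66, 1)], [(39, 1)]],
  [[(12, 1)]]]⟩

/-- Block 13. -/
def block13 : Block := ⟨.one, [⟨8, [0, 0, 0, 0, 0]⟩, ⟨8, [0, 0, 0, 0, 1]⟩], [
  [[(262, 1)], [(263, 1)]],
  [[(264, 1)]]]⟩

/-- Block 14. -/
def block14 : Block := ⟨.one, [⟨13, [0, 0, 0, 0, 0]⟩, ⟨13, [0, 0, 0, 0, 1]⟩], [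
  [[(128, 1)], [(129, 1)]],
  [[(130, 1)]]]⟩

/-- Block 15. -/
def block15 : Block := ⟨.one, [⟨5, [0, 0, 0, 1, 0]⟩, ⟨6, [0, 0, 1, 0, 0]⟩, ⟨8, [0, 1, 0, 0, 0]⟩, ⟨13, [1, 0, 0, 0, 0]⟩], [
  [[(326, 1)], [(322, 1)], [(320, 1)], [(316, 1)]],
  [[(310, 1)], [(304, 1)], [(300, 1)]],
  [[(267, 1)], [(259, 1)]],
  [[(134, 1)]]]⟩

/-- Block 16. -/
def block16 : Block := ⟨.ball, [⟨16, [0, 0, 0, 0, 0]⟩, ⟨17, [0, 0, 0, 0, 0]⟩, ⟨16, [0, 0, 0, 0, 1]⟩, ⟨17, [0, 0, 0, 0, 1]⟩], [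
  [[(54, 1), (74, -1), (68, -1), (63, -1), (59, -1), (56, -1)], [(27, 1), (47, -1), (41, -1), (36, -1), (32, -1), (29, -1)], [(55, 1), (75, -1), (69, -1), (64, -1), (60, -1), (57, -1)], [(28, 1), (48, -1), (42, -1), (37, -1), (33, -1), (30, -1)]],
  [[(0, 1), (20, -1), (14, -1), (9, -1), (5, -1), (2, -1)], [(28, 1), (48, -1), (42, -1), (37, -1), (33, -1), (30, -1)], [(1, 1), (21, -1), (15, -1), (10, -1), (6, -1), (3, -1)]],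
  [[(56, 1), (76, -1), (70, -1), (65, -1), (61, -1), (58, -1)], [(29, 1), (49, -1), (43, -1), (38, -1), (34, -1), (31, -1)]],
  [[(2, 1), (22, -1), (16, -1), (11, -1), (7, -1), (4, -1)]]]⟩

/-- Block 17. -/
def block17 : Block := ⟨.ball, [⟨0, [0, 0, 0, 0, 0]⟩, ⟨4, [0, 0, 0, 0, 0]⟩, ⟨7, [0, 0, 0, 0, 0]⟩, ⟨16, [1, 0, 0, 0, 0]⟩, ⟨17, [1, 0, 0, 0, 0]⟩], [
  [[(542, 1), (548, -1), (547, -1), (546, -1), (545, -1), (544, -1)], [(532, 1), (538, -1), (537, -1), (536, -1), (535, -1), (534, -1)], [(523, 1), (529, -1), (528, -1), (527, -1), (526, -1), (525, -1)], [(509, 1), (515, -1), (514, -1), (513, -1), (512, -1), (511, -1)], [(502, 1), (508, -1), (507, -1), (506, -1), (505, -1), (504, -1)]],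
  [[(360, 1), (366, -1), (365, -1), (364, -1), (363, -1), (362, -1)], [(351, 1), (357, -1), (356, -1), (355, -1), (354, -1), (353, -1)], [(337, 1), (343, -1), (342, -1), (341, -1), (340, -1), (339, -1)], [(330, 1), (336, -1), (335, -1), (334, -1), (333, -1), (332, -1)]],
  [[(290, 1), (296, -1), (295, -1), (294, -1), (293, -1), (292, -1)], [(276, 1), (282, -1), (281, -1), (280, -1), (279, -1), (278, -1)], [(269, 1), (275, -1), (274, -1), (273, -1), (272, -1), (271, -1)]],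
  [[(74, 1), (80, -1), (79, -1), (78, -1), (77, -1), (76, -1)], [(47, 1), (53, -1), (52, -1), (51, -1), (50, -1), (49, -1)]],
  [[(20, 1), (26, -1), (25, -1), (24, -1), (23, -1), (22, -1)]]]⟩

/-- Block 18. -/
def block18 : Block := ⟨.ball, [⟨1, [0, 0, 0, 0, 0]⟩, ⟨9, [0, 0, 0, 0, 0]⟩, ⟨12, [0, 0, 0, 0, 0]⟩, ⟨16, [0, 1, 0, 0, 0]⟩, ⟨17, [0, 1, 0, 0, 0]⟩], [
  [[(495, 1), (501, -1), (500, -1), (499, -1), (498, -1), (497, -1)], [(482, 1), (488, -1), (487, -1), (486, -1), (485, -1), (484, -1)], [(473, 1), (479, -1), (478, -1), (477, -1), (476, -1), (475, -1)], [(463, 1), (469, -1), (468, -1), (467, -1), (466, -1), (465, -1)], [(456, 1), (462, -1), (461, -1), (460, -1), (459, -1), (458, -1)]],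
  [[(248, 1), (254, -1), (253, -1), (252, -1), (251, -1), (250, -1)], [(239, 1), (245, -1), (244, -1), (243, -1), (242, -1), (241, -1)], [(229, 1), (235, -1), (234, -1), (233, -1), (232, -1), (231, -1)], [(222, 1), (228, -1), (227, -1), (226, -1), (225, -1), (224, -1)]],
  [[(152, 1), (158, -1), (157, -1), (156, -1), (155, -1), (154, -1)], [(142, 1), (148, -1), (147, -1), (146, -1), (145, -1), (144, -1)], [(135, 1), (141, -1), (140, -1), (139, -1), (138, -1), (137, -1)]],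
  [[(68, 1), (79, -1), (73, -1), (72, -1), (71, -1), (70, -1)], [(41, 1), (52, -1), (46, -1), (45, -1), (44, -1), (43, -1)]],
  [[(14, 1), (25, -1), (19, -1), (18, -1), (17, -1), (16, -1)]]]⟩

/-- Block 19. -/
def block19 : Block := ⟨.ball, [⟨2, [0, 0, 0, 0, 0]⟩, ⟨10, [0, 0, 0, 0, 0]⟩, ⟨14, [0, 0, 0, 0, 0]⟩, ⟨16, [0, 0, 1, 0, 0]⟩, ⟨17, [0, 0, 1, 0, 0]⟩], [
  [[(449, 1), (455, -1), (454, -1), (453, -1), (452, -1), (451, -1)], [(436, 1), (442, -1), (441, -1), (440, -1), (439, -1), (438, -1)], [(426, 1), (432, -1), (431, -1), (430, -1), (429, -1), (428, -1)], [(418, 1), (424, -1), (423, -1), (422, -1), (421, -1), (420, -1)], [(411, 1), (417, -1), (416, -1), (415, -1), (414, -1), (413, -1)]],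
  [[(215, 1), (221, -1), (220, -1), (219, -1), (218, -1), (217, -1)], [(205, 1), (211, -1), (210, -1), (209, -1), (208, -1), (207, -1)], [(197, 1), (203, -1), (202, -1), (201, -1), (200, -1), (199, -1)], [(190, 1), (196, -1), (195, -1), (194, -1), (193, -1), (192, -1)]],
  [[(117, 1), (123, -1), (122, -1), (121, -1), (120, -1), (119, -1)], [(109, 1), (115, -1), (114, -1), (113, -1), (112, -1), (111, -1)], [(102, 1), (108, -1), (107, -1), (106, -1), (105, -1), (104, -1)]],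
  [[(63, 1), (78, -1), (72, -1), (67, -1), (66, -1), (65, -1)], [(36, 1), (51, -1), (45, -1), (40, -1), (39, -1), (38, -1)]],
  [[(9, 1), (24, -1), (18, -1), (13, -1), (12, -1), (11, -1)]]]⟩

/-- Block 20. -/
def block20 : Block := ⟨.ball, [⟨5, [0, 0, 0, 0, 0]⟩], [
  [[(323, 1), (329, -1), (328, -1), (327, -1), (326, -1), (325, -1)]]]⟩

/-- Block 21. -/
def block21 : Block := ⟨.ball, [⟨3, [0, 0, 0, 0, 0]⟩, ⟨11, [0, 0, 0, 0, 0]⟩, ⟨15, [0, 0, 0, 0, 0]⟩, ⟨16, [0, 0, 0, 1, 0]⟩, ⟨17, [0, 0, 0, 1, 0]⟩], [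
  [[(404, 1), (410, -1), (409, -1), (408, -1), (407, -1), (406, -1)], [(391, 1), (397, -1), (396, -1), (395, -1), (394, -1), (393, -1)], [(381, 1), (387, -1), (386, -1), (385, -1), (384, -1), (383, -1)], [(374, 1), (380, -1), (379, -1), (378, -1), (377, -1), (376, -1)], [(367, 1), (373, -1), (372, -1), (371, -1), (370, -1), (369, -1)]],
  [[(183, 1), (189, -1), (188, -1), (187, -1), (186, -1), (185, -1)], [(173, 1), (179, -1), (178, -1), (177, -1), (176, -1), (175, -1)], [(166, 1), (172, -1), (171, -1), (170, -1), (169, -1), (168, -1)], [(159, 1), (165, -1), (164, -1), (163, -1), (162, -1), (161, -1)]],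
  [[(95, 1), (101, -1), (100, -1), (99, -1), (98, -1), (97, -1)], [(88, 1), (94, -1), (93, -1), (92, -1), (91, -1), (90, -1)], [(81, 1), (87, -1), (86, -1), (85, -1), (84, -1), (83, -1)]],
  [[(59, 1), (77, -1), (71, -1), (66, -1), (62, -1), (61, -1)], [(32, 1), (50, -1), (44, -1), (39, -1), (35, -1), (34, -1)]],
  [[(5, 1), (23, -1), (17, -1), (12, -1), (8, -1), (7, -1)]]]⟩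

/-- Block 22. -/
def block22 : Block := ⟨.ball, [⟨6, [0, 0, 0, 0, 0]⟩], [
  [[(306, 1), (312, -1), (311, -1), (310, -1), (309, -1), (308, -1)]]]⟩

/-- Block 23. -/
def block23 : Block := ⟨.ball, [⟨8, [0, 0, 0, 0, 0]⟩], [
  [[(262, 1), (268, -1), (267, -1), (266, -1), (265, -1), (264, -1)]]]⟩

/-- Block 24. -/
def block24 : Block := ⟨.ball, [⟨13, [0, 0, 0, 0, 0]⟩], [
  [[(128, 1), (134, -1), (133, -1), (132, -1), (131, -1), (130, -1)]]]⟩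

/-- Block 25. -/
def block25 : Block := ⟨.half, [⟨16, [0, 0, 0, 0, 0]⟩, ⟨17, [0, 0, 0, 0, 0]⟩, ⟨16, [0, 0, 0, 0, 1]⟩, ⟨17, [0, 0, 0, 0, 1]⟩], [
  [[(55, 1)], [(28, 1)], [(56, 1)], [(29, 1)]],
  [[(1, 1)], [(29, 1)], [(2, 1)]],
  [[(57, 1)], [(30, 1)]],
  [[(3, 1)]]]⟩

/-- Block 26. -/
def block26 : Block := ⟨.half, [⟨0, [0, 0, 0, 0, 0]⟩, ⟨4, [0, 0, 0, 0, 0]⟩, ⟨7, [0, 0, 0, 0, 0]⟩, ⟨16, [1, 0, 0, 0, 0]⟩, ⟨17, [1, 0, 0, 0, 0]⟩], [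
  [[(543, 1)], [(533, 1)], [(524, 1)], [(510, 1)], [(503, 1)]],
  [[(361, 1)], [(352, 1)], [(338, 1)], [(331, 1)]],
  [[(291, 1)], [(277, 1)], [(270, 1)]],
  [[(75, 1)], [(48, 1)]],
  [[(21, 1)]]]⟩

/-- Block 27. -/
def block27 : Block := ⟨.half, [⟨1, [0, 0, 0, 0, 0]⟩, ⟨9, [0, 0, 0, 0, 0]⟩, ⟨12, [0, 0, 0, 0, 0]⟩, ⟨16, [0, 1, 0, 0, 0]⟩, ⟨17, [0, 1, 0, 0, 0]⟩], [
  [[(496, 1)], [(483, 1)], [(474, 1)], [(464, 1)], [(457, 1)]],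
  [[(249, 1)], [(240, 1)], [(230, 1)], [(223, 1)]],
  [[(153, 1)], [(143, 1)], [(136, 1)]],
  [[(69, 1)], [(42, 1)]],
  [[(15, 1)]]]⟩

/-- Block 28. -/
def block28 : Block := ⟨.half, [⟨2, [0, 0, 0, 0, 0]⟩, ⟨10, [0, 0, 0, 0, 0]⟩, ⟨14, [0, 0, 0, 0, 0]⟩, ⟨16, [0, 0, 1, 0, 0]⟩, ⟨17, [0, 0, 1, 0, 0]⟩], [
  [[(450, 1)], [(437, 1)], [(427, 1)], [(419, 1)], [(412, 1)]],
  [[(216, 1)], [(206, 1)], [(198, 1)], [(191, 1)]],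
  [[(118, 1)], [(110, 1)], [(103, 1)]],
  [[(64, 1)], [(37, 1)]],
  [[(10, 1)]]]⟩

/-- Block 29. -/
def block29 : Block := ⟨.half, [⟨5, [0, 0, 0, 0, 0]⟩], [
  [[(324, 1)]]]⟩

/-- Block 30. -/
def block30 : Block := ⟨.half, [⟨3, [0, 0, 0, 0, 0]⟩, ⟨11, [0, 0, 0, 0, 0]⟩, ⟨15, [0, 0, 0, 0, 0]⟩, ⟨16, [0, 0, 0, 1, 0]⟩, ⟨17, [0, 0, 0, 1, 0]⟩], [
  [[(405, 1)], [(392, 1)], [(382, 1)], [(375, 1)], [(368, 1)]],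
  [[(184, 1)], [(174, 1)], [(167, 1)], [(160, 1)]],
  [[(96, 1)], [(89, 1)], [(82, 1)]],
  [[(60, 1)], [(33, 1)]],
  [[(6, 1)]]]⟩

/-- Block 31. -/
def block31 : Block := ⟨.half, [⟨6, [0, 0, 0, 0, 0]⟩], [
  [[(307, 1)]]]⟩

/-- Block 32. -/
def block32 : Block := ⟨.half, [⟨8, [0, 0, 0, 0, 0]⟩], [
  [[(263, 1)]]]⟩

/-- Block 33. -/
def block33 : Block := ⟨.half, [⟨13, [0, 0, 0, 0, 0]⟩], [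
  [[(129, 1)]]]⟩

/-- Block 34. -/
def block34 : Block := ⟨.prod, [⟨0, [0, 0, 0, 0, 0]⟩, ⟨0, [0, 0, 0, 0, 1]⟩, ⟨0, [0, 0, 0, 0, 2]⟩, ⟨0, [0, 0, 0, 2, 0]⟩, ⟨0, [0, 0, 2, 0, 0]⟩, ⟨0, [0, 2, 0, 0, 0]⟩, ⟨0, [2, 0, 0, 0, 0]⟩], [
  [[(27, 1)], [(28, 1)], [(29, 1)], [(32, 1)], [(36, 1)], [(41, 1)], [(47, 1)]],
  [[(29, 1)], [(30, 1)], [(33, 1)], [(37, 1)], [(42, 1)], [(48, 1)]],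
  [[(31, 1)], [(34, 1)], [(38, 1)], [(43, 1)], [(49, 1)]],
  [[(35, 1)], [(39, 1)], [(44, 1)], [(50, 1)]],
  [[(40, 1)], [(45, 1)], [(51, 1)]],
  [[(46, 1)], [(52, 1)]],
  [[(53, 1)]]]⟩

/-- Block 35. -/
def block35 : Block := ⟨.prod, [⟨0, [1, 0, 0, 0, 0]⟩, ⟨0, [1, 0, 0, 0, 1]⟩], [
  [[(47, 1)], [(48, 1)]],
  [[(49, 1)]]]⟩

/-- Block 36. -/
def block36 : Block := ⟨.prod, [⟨0, [0, 1, 0, 0, 0]⟩, ⟨0, [0, 1, 0, 0, 1]⟩], [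
  [[(41, 1)], [(42, 1)]],
  [[(43, 1)]]]⟩

/-- Block 37. -/
def block37 : Block := ⟨.prod, [⟨0, [1, 1, 0, 0, 0]⟩], [
  [[(52, 1)]]]⟩

/-- Block 38. -/
def block38 : Block := ⟨.prod, [⟨0, [0, 0, 1, 0, 0]⟩, ⟨0, [0, 0, 1, 0, 1]⟩], [
  [[(36, 1)], [(37, 1)]],
  [[(38, 1)]]]⟩

/-- Block 39. -/
def block39 : Block := ⟨.prod, [⟨0, [1, 0, 1, 0, 0]⟩], [
  [[(51, 1)]]]⟩

/-- Block 40. -/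
def block40 : Block := ⟨.prod, [⟨0, [0, 1, 1, 0, 0]⟩], [
  [[(45, 1)]]]⟩

/-- Block 41. -/
def block41 : Block := ⟨.prod, [⟨0, [0, 0, 0, 1, 0]⟩, ⟨0, [0, 0, 0, 1, 1]⟩], [
  [[(32, 1)], [(33, 1)]],
  [[(34, 1)]]]⟩

/-- Block 42. -/
def block42 : Block := ⟨.prod, [⟨0, [1, 0, 0, 1, 0]⟩], [
  [[(50, 1)]]]⟩

/-- Block 43. -/
def block43 : Block := ⟨.prod, [⟨0, [0, 1, 0, 1, 0]⟩], [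
  [[(44, 1)]]]⟩

/-- Block 44. -/
def block44 : Block := ⟨.prod, [⟨0, [0, 0, 1, 1, 0]⟩], [
  [[(39, 1)]]]⟩

/-- Eigenvalue monomial 0. -/
def b0 : Beta := ⟨0, 0, 0, 0, 7⟩

/-- Eigenvalue monomial 1. -/
def b1 : Beta := ⟨0, 0, 0, 1, 6⟩

/-- Eigenvalue monomial 2. -/
def b2 : Beta := ⟨0, 0, 0, 2, 5⟩

/-- Eigenvalue monomial 3. -/
def b3 : Beta := ⟨0, 0, 0, 3, 4⟩

/-- Eigenvalue monomial 4. -/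
def b4 : Beta := ⟨0, 0, 0, 4, 3⟩

/-- Eigenvalue monomial 5. -/
def b5 : Beta := ⟨0, 0, 0, 5, 2⟩

/-- Eigenvalue monomial 6. -/
def b6 : Beta := ⟨0, 0, 0, 6, 1⟩

/-- Eigenvalue monomial 7. -/
def b7 : Beta := ⟨0, 0, 0, 7, 0⟩

/-- Eigenvalue monomial 8. -/
def b8 : Beta := ⟨0, 0, 1, 0, 6⟩

/-- Eigenvalue monomial 9. -/
def b9 : Beta := ⟨0, 0, 1, 1, 5⟩

/-- Eigenvalue monomial 10. -/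
def b10 : Beta := ⟨0, 0, 1, 2, 4⟩

/-- Eigenvalue monomial 11. -/
def b11 : Beta := ⟨0, 0, 1, 3, 3⟩

/-- Eigenvalue monomial 12. -/
def b12 : Beta := ⟨0, 0, 1, 4, 2⟩

/-- Eigenvalue monomial 13. -/
def b13 : Beta := ⟨0, 0, 1, 5, 1⟩

/-- Eigenvalue monomial 14. -/
def b14 : Beta := ⟨0, 0, 1, 6, 0⟩

/-- Eigenvalue monomial 15. -/
def b15 : Beta := ⟨0, 0, 2, 0, 5⟩

/-- Eigenvalue monomial 16. -/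
def b16 : Beta := ⟨0, 0, 2, 1, 4⟩

/-- Eigenvalue monomial 17. -/
def b17 : Beta := ⟨0, 0, 2, 2, 3⟩

/-- Eigenvalue monomial 18. -/
def b18 : Beta := ⟨0, 0, 2, 3, 2⟩

/-- Eigenvalue monomial 19. -/
def b19 : Beta := ⟨0, 0, 2, 4, 1⟩

/-- Eigenvalue monomial 20. -/
def b20 : Beta := ⟨0, 0, 3, 0, 4⟩

/-- Eigenvalue monomial 21. -/
def b21 : Beta := ⟨0, 0, 3, 1, 3⟩

/-- Eigenvalue monomial 22. -/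
def b22 : Beta := ⟨0, 0, 3, 2, 2⟩

/-- Eigenvalue monomial 23. -/
def b23 : Beta := ⟨0, 0, 3, 3, 1⟩

/-- Eigenvalue monomial 24. -/
def b24 : Beta := ⟨0, 0, 3, 4, 0⟩

/-- Eigenvalue monomial 25. -/
def b25 : Beta := ⟨0, 0, 4, 0, 3⟩

/-- Eigenvalue monomial 26. -/
def b26 : Beta := ⟨0, 0, 4, 1, 2⟩

/-- Eigenvalue monomial 27. -/
def b27 : Beta := ⟨0, 0, 4, 2, 1⟩

/-- Eigenvalue monomial 28. -/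
def b28 : Beta := ⟨0, 0, 4, 3, 0⟩

/-- Eigenvalue monomial 29. -/
def b29 : Beta := ⟨0, 0, 5, 0, 2⟩

/-- Eigenvalue monomial 30. -/
def b30 : Beta := ⟨0, 0, 5, 1, 1⟩

/-- Eigenvalue monomial 31. -/
def b31 : Beta := ⟨0, 0, 6, 0, 1⟩

/-- Eigenvalue monomial 32. -/
def b32 : Beta := ⟨0, 0, 6, 1, 0⟩

/-- Eigenvalue monomial 33. -/
def b33 : Beta := ⟨0, 0, 7, 0, 0⟩

/-- Eigenvalue monomial 34. -/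
def b34 : Beta := ⟨0, 1, 0, 0, 6⟩

/-- Eigenvalue monomial 35. -/
def b35 : Beta := ⟨0, 1, 0, 1, 5⟩

/-- Eigenvalue monomial 36. -/
def b36 : Beta := ⟨0, 1, 0, 2, 4⟩

/-- Eigenvalue monomial 37. -/
def b37 : Beta := ⟨0, 1, 0, 3, 3⟩

/-- Eigenvalue monomial 38. -/
def b38 : Beta := ⟨0, 1, 0, 4, 2⟩

/-- Eigenvalue monomial 39. -/
def b39 : Beta := ⟨0, 1, 0, 5, 1⟩

/-- Eigenvalue monomial 40. -/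
def b40 : Beta := ⟨0, 1, 0, 6, 0⟩

/-- Eigenvalue monomial 41. -/
def b41 : Beta := ⟨0, 1, 1, 0, 5⟩

/-- Eigenvalue monomial 42. -/
def b42 : Beta := ⟨0, 1, 1, 1, 4⟩

/-- Eigenvalue monomial 43. -/
def b43 : Beta := ⟨0, 1, 1, 2, 3⟩

/-- Eigenvalue monomial 44. -/
def b44 : Beta := ⟨0, 1, 1, 3, 2⟩

/-- Eigenvalue monomial 45. -/
def b45 : Beta := ⟨0, 1, 2, 0, 4⟩

/-- Eigenvalue monomial 46. -/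
def b46 : Beta := ⟨0, 1, 2, 1, 3⟩

/-- Eigenvalue monomial 47. -/
def b47 : Beta := ⟨0, 1, 2, 3, 1⟩

/-- Eigenvalue monomial 48. -/
def b48 : Beta := ⟨0, 1, 3, 0, 3⟩

/-- Eigenvalue monomial 49. -/
def b49 : Beta := ⟨0, 1, 3, 1, 2⟩

/-- Eigenvalue monomial 50. -/
def b50 : Beta := ⟨0, 1, 3, 2, 1⟩

/-- Eigenvalue monomial 51. -/
def b51 : Beta := ⟨0, 1, 3, 3, 0⟩

/-- Eigenvalue monomial 52. -/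
def b52 : Beta := ⟨0, 1, 4, 0, 2⟩

/-- Eigenvalue monomial 53. -/
def b53 : Beta := ⟨0, 1, 5, 0, 1⟩

/-- Eigenvalue monomial 54. -/
def b54 : Beta := ⟨0, 1, 6, 0, 0⟩

/-- Eigenvalue monomial 55. -/
def b55 : Beta := ⟨0, 2, 0, 0, 5⟩

/-- Eigenvalue monomial 56. -/
def b56 : Beta := ⟨0, 2, 0, 1, 4⟩

/-- Eigenvalue monomial 57. -/
def b57 : Beta := ⟨0, 2, 0, 2, 3⟩

/-- Eigenvalue monomial 58. -/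
def b58 : Beta := ⟨0, 2, 0, 3, 2⟩

/-- Eigenvalue monomial 59. -/
def b59 : Beta := ⟨0, 2, 0, 4, 1⟩

/-- Eigenvalue monomial 60. -/
def b60 : Beta := ⟨0, 2, 1, 0, 4⟩

/-- Eigenvalue monomial 61. -/
def b61 : Beta := ⟨0, 2, 1, 1, 3⟩

/-- Eigenvalue monomial 62. -/
def b62 : Beta := ⟨0, 2, 1, 3, 1⟩

/-- Eigenvalue monomial 63. -/
def b63 : Beta := ⟨0, 2, 2, 0, 3⟩

/-- Eigenvalue monomial 64. -/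
def b64 : Beta := ⟨0, 2, 3, 0, 2⟩

/-- Eigenvalue monomial 65. -/
def b65 : Beta := ⟨0, 2, 3, 1, 1⟩

/-- Eigenvalue monomial 66. -/
def b66 : Beta := ⟨0, 2, 4, 0, 1⟩

/-- Eigenvalue monomial 67. -/
def b67 : Beta := ⟨0, 3, 0, 0, 4⟩

/-- Eigenvalue monomial 68. -/
def b68 : Beta := ⟨0, 3, 0, 1, 3⟩

/-- Eigenvalue monomial 69. -/
def b69 : Beta := ⟨0, 3, 0, 2, 2⟩

/-- Eigenvalue monomial 70. -/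
def b70 : Beta := ⟨0, 3, 0, 3, 1⟩

/-- Eigenvalue monomial 71. -/
def b71 : Beta := ⟨0, 3, 0, 4, 0⟩

/-- Eigenvalue monomial 72. -/
def b72 : Beta := ⟨0, 3, 1, 0, 3⟩

/-- Eigenvalue monomial 73. -/
def b73 : Beta := ⟨0, 3, 1, 1, 2⟩

/-- Eigenvalue monomial 74. -/
def b74 : Beta := ⟨0, 3, 1, 2, 1⟩

/-- Eigenvalue monomial 75. -/
def b75 : Beta := ⟨0, 3, 1, 3, 0⟩

/-- Eigenvalue monomial 76. -/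
def b76 : Beta := ⟨0, 3, 2, 0, 2⟩

/-- Eigenvalue monomial 77. -/
def b77 : Beta := ⟨0, 3, 2, 1, 1⟩

/-- Eigenvalue monomial 78. -/
def b78 : Beta := ⟨0, 3, 3, 0, 1⟩

/-- Eigenvalue monomial 79. -/
def b79 : Beta := ⟨0, 3, 3, 1, 0⟩

/-- Eigenvalue monomial 80. -/
def b80 : Beta := ⟨0, 3, 4, 0, 0⟩

/-- Eigenvalue monomial 81. -/
def b81 : Beta := ⟨0, 4, 0, 0, 3⟩

/-- Eigenvalue monomial 82. -/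
def b82 : Beta := ⟨0, 4, 0, 1, 2⟩

/-- Eigenvalue monomial 83. -/
def b83 : Beta := ⟨0, 4, 0, 2, 1⟩

/-- Eigenvalue monomial 84. -/
def b84 : Beta := ⟨0, 4, 0, 3, 0⟩

/-- Eigenvalue monomial 85. -/
def b85 : Beta := ⟨0, 4, 1, 0, 2⟩

/-- Eigenvalue monomial 86. -/
def b86 : Beta := ⟨0, 4, 2, 0, 1⟩

/-- Eigenvalue monomial 87. -/
def b87 : Beta := ⟨0, 4, 3, 0, 0⟩

/-- Eigenvalue monomial 88. -/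
def b88 : Beta := ⟨0, 5, 0, 0, 2⟩

/-- Eigenvalue monomial 89. -/
def b89 : Beta := ⟨0, 5, 0, 1, 1⟩

/-- Eigenvalue monomial 90. -/
def b90 : Beta := ⟨0, 5, 1, 0, 1⟩

/-- Eigenvalue monomial 91. -/
def b91 : Beta := ⟨0, 6, 0, 0, 1⟩

/-- Eigenvalue monomial 92. -/
def b92 : Beta := ⟨0, 6, 0, 1, 0⟩

/-- Eigenvalue monomial 93. -/
def b93 : Beta := ⟨0, 6, 1, 0, 0⟩

/-- Eigenvalue monomial 94. -/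
def b94 : Beta := ⟨0, 7, 0, 0, 0⟩

/-- Eigenvalue monomial 95. -/
def b95 : Beta := ⟨1, 0, 0, 0, 6⟩

/-- Eigenvalue monomial 96. -/
def b96 : Beta := ⟨1, 0, 0, 1, 5⟩

/-- Eigenvalue monomial 97. -/
def b97 : Beta := ⟨1, 0, 0, 2, 4⟩

/-- Eigenvalue monomial 98. -/
def b98 : Beta := ⟨1, 0, 0, 3, 3⟩

/-- Eigenvalue monomial 99. -/
def b99 : Beta := ⟨1, 0, 0, 4, 2⟩

/-- Eigenvalue monomial 100. -/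
def b100 : Beta := ⟨1, 0, 0, 5, 1⟩

/-- Eigenvalue monomial 101. -/
def b101 : Beta := ⟨1, 0, 0, 6, 0⟩

/-- Eigenvalue monomial 102. -/
def b102 : Beta := ⟨1, 0, 1, 0, 5⟩

/-- Eigenvalue monomial 103. -/
def b103 : Beta := ⟨1, 0, 1, 1, 4⟩

/-- Eigenvalue monomial 104. -/
def b104 : Beta := ⟨1, 0, 1, 2, 3⟩

/-- Eigenvalue monomial 105. -/
def b105 : Beta := ⟨1, 0, 1, 3, 2⟩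

/-- Eigenvalue monomial 106. -/
def b106 : Beta := ⟨1, 0, 2, 0, 4⟩

/-- Eigenvalue monomial 107. -/
def b107 : Beta := ⟨1, 0, 2, 1, 3⟩

/-- Eigenvalue monomial 108. -/
def b108 : Beta := ⟨1, 0, 2, 3, 1⟩

/-- Eigenvalue monomial 109. -/
def b109 : Beta := ⟨1, 0, 3, 0, 3⟩

/-- Eigenvalue monomial 110. -/
def b110 : Beta := ⟨1, 0, 3, 1, 2⟩

/-- Eigenvalue monomial 111. -/
def b111 : Beta := ⟨1, 0, 3, 2, 1⟩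

/-- Eigenvalue monomial 112. -/
def b112 : Beta := ⟨1, 0, 3, 3, 0⟩

/-- Eigenvalue monomial 113. -/
def b113 : Beta := ⟨1, 0, 4, 0, 2⟩

/-- Eigenvalue monomial 114. -/
def b114 : Beta := ⟨1, 0, 5, 0, 1⟩

/-- Eigenvalue monomial 115. -/
def b115 : Beta := ⟨1, 0, 6, 0, 0⟩

/-- Eigenvalue monomial 116. -/
def b116 : Beta := ⟨1, 1, 0, 0, 5⟩

/-- Eigenvalue monomial 117. -/
def b117 : Beta := ⟨1, 1, 0, 1, 4⟩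

/-- Eigenvalue monomial 118. -/
def b118 : Beta := ⟨1, 1, 0, 2, 3⟩

/-- Eigenvalue monomial 119. -/
def b119 : Beta := ⟨1, 1, 0, 3, 2⟩

/-- Eigenvalue monomial 120. -/
def b120 : Beta := ⟨1, 1, 1, 0, 4⟩

/-- Eigenvalue monomial 121. -/
def b121 : Beta := ⟨1, 1, 2, 0, 3⟩

/-- Eigenvalue monomial 122. -/
def b122 : Beta := ⟨1, 1, 3, 0, 2⟩

/-- Eigenvalue monomial 123. -/
def b123 : Beta := ⟨1, 2, 0, 0, 4⟩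

/-- Eigenvalue monomial 124. -/
def b124 : Beta := ⟨1, 2, 0, 1, 3⟩

/-- Eigenvalue monomial 125. -/
def b125 : Beta := ⟨1, 2, 0, 3, 1⟩

/-- Eigenvalue monomial 126. -/
def b126 : Beta := ⟨1, 2, 1, 0, 3⟩

/-- Eigenvalue monomial 127. -/
def b127 : Beta := ⟨1, 2, 3, 0, 1⟩

/-- Eigenvalue monomial 128. -/
def b128 : Beta := ⟨1, 3, 0, 0, 3⟩

/-- Eigenvalue monomial 129. -/
def b129 : Beta := ⟨1, 3, 0, 1, 2⟩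

/-- Eigenvalue monomial 130. -/
def b130 : Beta := ⟨1, 3, 0, 2, 1⟩

/-- Eigenvalue monomial 131. -/
def b131 : Beta := ⟨1, 3, 0, 3, 0⟩

/-- Eigenvalue monomial 132. -/
def b132 : Beta := ⟨1, 3, 1, 0, 2⟩

/-- Eigenvalue monomial 133. -/
def b133 : Beta := ⟨1, 3, 2, 0, 1⟩

/-- Eigenvalue monomial 134. -/
def b134 : Beta := ⟨1, 3, 3, 0, 0⟩

/-- Eigenvalue monomial 135. -/
def b135 : Beta := ⟨1, 4, 0, 0, 2⟩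

/-- Eigenvalue monomial 136. -/
def b136 : Beta := ⟨1, 5, 0, 0, 1⟩

/-- Eigenvalue monomial 137. -/
def b137 : Beta := ⟨1, 6, 0, 0, 0⟩

/-- Eigenvalue monomial 138. -/
def b138 : Beta := ⟨2, 0, 0, 0, 5⟩

/-- Eigenvalue monomial 139. -/
def b139 : Beta := ⟨2, 0, 0, 1, 4⟩

/-- Eigenvalue monomial 140. -/
def b140 : Beta := ⟨2, 0, 0, 2, 3⟩

/-- Eigenvalue monomial 141. -/
def b141 : Beta := ⟨2, 0, 0, 3, 2⟩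

/-- Eigenvalue monomial 142. -/
def b142 : Beta := ⟨2, 0, 0, 4, 1⟩

/-- Eigenvalue monomial 143. -/
def b143 : Beta := ⟨2, 0, 1, 0, 4⟩

/-- Eigenvalue monomial 144. -/
def b144 : Beta := ⟨2, 0, 1, 1, 3⟩

/-- Eigenvalue monomial 145. -/
def b145 : Beta := ⟨2, 0, 1, 3, 1⟩

/-- Eigenvalue monomial 146. -/
def b146 : Beta := ⟨2, 0, 2, 0, 3⟩

/-- Eigenvalue monomial 147. -/
def b147 : Beta := ⟨2, 0, 3, 0, 2⟩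

/-- Eigenvalue monomial 148. -/
def b148 : Beta := ⟨2, 0, 3, 1, 1⟩

/-- Eigenvalue monomial 149. -/
def b149 : Beta := ⟨2, 0, 4, 0, 1⟩

/-- Eigenvalue monomial 150. -/
def b150 : Beta := ⟨2, 1, 0, 0, 4⟩

/-- Eigenvalue monomial 151. -/
def b151 : Beta := ⟨2, 1, 0, 1, 3⟩

/-- Eigenvalue monomial 152. -/
def b152 : Beta := ⟨2, 1, 0, 3, 1⟩

/-- Eigenvalue monomial 153. -/
def b153 : Beta := ⟨2, 1, 1, 0, 3⟩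

/-- Eigenvalue monomial 154. -/
def b154 : Beta := ⟨2, 1, 3, 0, 1⟩

/-- Eigenvalue monomial 155. -/
def b155 : Beta := ⟨2, 2, 0, 0, 3⟩

/-- Eigenvalue monomial 156. -/
def b156 : Beta := ⟨2, 3, 0, 0, 2⟩

/-- Eigenvalue monomial 157. -/
def b157 : Beta := ⟨2, 3, 0, 1, 1⟩

/-- Eigenvalue monomial 158. -/
def b158 : Beta := ⟨2, 3, 1, 0, 1⟩

/-- Eigenvalue monomial 159. -/
def b159 : Beta := ⟨2, 4, 0, 0, 1⟩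

/-- Eigenvalue monomial 160. -/
def b160 : Beta := ⟨3, 0, 0, 0, 4⟩

/-- Eigenvalue monomial 161. -/
def b161 : Beta := ⟨3, 0, 0, 1, 3⟩

/-- Eigenvalue monomial 162. -/
def b162 : Beta := ⟨3, 0, 0, 2, 2⟩

/-- Eigenvalue monomial 163. -/
def b163 : Beta := ⟨3, 0, 0, 3, 1⟩

/-- Eigenvalue monomial 164. -/
def b164 : Beta := ⟨3, 0, 0, 4, 0⟩

/-- Eigenvalue monomial 165. -/
def b165 : Beta := ⟨3, 0, 1, 0, 3⟩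

/-- Eigenvalue monomial 166. -/
def b166 : Beta := ⟨3, 0, 1, 1, 2⟩

/-- Eigenvalue monomial 167. -/
def b167 : Beta := ⟨3, 0, 1, 2, 1⟩

/-- Eigenvalue monomial 168. -/
def b168 : Beta := ⟨3, 0, 1, 3, 0⟩

/-- Eigenvalue monomial 169. -/
def b169 : Beta := ⟨3, 0, 2, 0, 2⟩

/-- Eigenvalue monomial 170. -/
def b170 : Beta := ⟨3, 0, 2, 1, 1⟩

/-- Eigenvalue monomial 171. -/
def b171 : Beta := ⟨3, 0, 3, 0, 1⟩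

/-- Eigenvalue monomial 172. -/
def b172 : Beta := ⟨3, 0, 3, 1, 0⟩

/-- Eigenvalue monomial 173. -/
def b173 : Beta := ⟨3, 0, 4, 0, 0⟩

/-- Eigenvalue monomial 174. -/
def b174 : Beta := ⟨3, 1, 0, 0, 3⟩

/-- Eigenvalue monomial 175. -/
def b175 : Beta := ⟨3, 1, 0, 1, 2⟩

/-- Eigenvalue monomial 176. -/
def b176 : Beta := ⟨3, 1, 0, 2, 1⟩

/-- Eigenvalue monomial 177. -/
def b177 : Beta := ⟨3, 1, 0, 3, 0⟩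

/-- Eigenvalue monomial 178. -/
def b178 : Beta := ⟨3, 1, 1, 0, 2⟩

/-- Eigenvalue monomial 179. -/
def b179 : Beta := ⟨3, 1, 2, 0, 1⟩

/-- Eigenvalue monomial 180. -/
def b180 : Beta := ⟨3, 1, 3, 0, 0⟩

/-- Eigenvalue monomial 181. -/
def b181 : Beta := ⟨3, 2, 0, 0, 2⟩

/-- Eigenvalue monomial 182. -/
def b182 : Beta := ⟨3, 2, 0, 1, 1⟩

/-- Eigenvalue monomial 183. -/
def b183 : Beta := ⟨3, 2, 1, 0, 1⟩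

/-- Eigenvalue monomial 184. -/
def b184 : Beta := ⟨3, 3, 0, 0, 1⟩

/-- Eigenvalue monomial 185. -/
def b185 : Beta := ⟨3, 3, 0, 1, 0⟩

/-- Eigenvalue monomial 186. -/
def b186 : Beta := ⟨3, 3, 1, 0, 0⟩

/-- Eigenvalue monomial 187. -/
def b187 : Beta := ⟨3, 4, 0, 0, 0⟩

/-- Eigenvalue monomial 188. -/
def b188 : Beta := ⟨4, 0, 0, 0, 3⟩

/-- Eigenvalue monomial 189. -/
def b189 : Beta := ⟨4, 0, 0, 1, 2⟩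

/-- Eigenvalue monomial 190. -/
def b190 : Beta := ⟨4, 0, 0, 2, 1⟩

/-- Eigenvalue monomial 191. -/
def b191 : Beta := ⟨4, 0, 0, 3, 0⟩

/-- Eigenvalue monomial 192. -/
def b192 : Beta := ⟨4, 0, 1, 0, 2⟩

/-- Eigenvalue monomial 193. -/
def b193 : Beta := ⟨4, 0, 2, 0, 1⟩

/-- Eigenvalue monomial 194. -/
def b194 : Beta := ⟨4, 0, 3, 0, 0⟩

/-- Eigenvalue monomial 195. -/
def b195 : Beta := ⟨4, 1, 0, 0, 2⟩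

/-- Eigenvalue monomial 196. -/
def b196 : Beta := ⟨4, 2, 0, 0, 1⟩

/-- Eigenvalue monomial 197. -/
def b197 : Beta := ⟨4, 3, 0, 0, 0⟩

/-- Eigenvalue monomial 198. -/
def b198 : Beta := ⟨5, 0, 0, 0, 2⟩

/-- Eigenvalue monomial 199. -/
def b199 : Beta := ⟨5, 0, 0, 1, 1⟩

/-- Eigenvalue monomial 200. -/
def b200 : Beta := ⟨5, 0, 1, 0, 1⟩

/-- Eigenvalue monomial 201. -/
def b201 : Beta := ⟨5, 1, 0, 0, 1⟩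

/-- Eigenvalue monomial 202. -/
def b202 : Beta := ⟨6, 0, 0, 0, 1⟩

/-- Eigenvalue monomial 203. -/
def b203 : Beta := ⟨6, 0, 0, 1, 0⟩

/-- Eigenvalue monomial 204. -/
def b204 : Beta := ⟨6, 0, 1, 0, 0⟩

/-- Eigenvalue monomial 205. -/
def b205 : Beta := ⟨6, 1, 0, 0, 0⟩

/-- Eigenvalue monomial 206. -/
def b206 : Beta := ⟨7, 0, 0, 0, 0⟩

/-- The Gram blocks. -/
def blocks : List Block := [block0, block1, block2, block3, block4, block5, block6, block7, block8, block9, block10, block11, block12, block13, block14, block15, block16, block17, block18, block19, block20, block21, block22, block23, block24, block25, block26, block27, block28, block29, block30, block31, block32, block33, block34, block35, block36, block37, block38, block39, block40,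 block41, block42, block43, block44]

end Vale.Agent.P098.Exact.Sos.Data
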